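-- KEEP
import Claimed.Agent.R256.Rt.PatchDefs
import Claimed.Agent.R256.Rt.Ci

/-!
# Row 256 (LS paper), folder Rt, block GROUP (07 l.446-628), file Grp/Defs : DEFINITIONS          (architect helper111; chief Rt helper216; prefix `rt_gr_`, definitions `rtGr*`, `RtGr*`)

`rt_group` (Rt/Patch.lean) := `rt_gr_main` (Rt/GrpMain.lean).      DEFINITIONS ARE FROZEN (ask helper111).      `δ = s = 2^-n`, root cut `(T0, k0)`, `ℓ₀ = rdLen k0`, final cut `kf = k0 + n`, `ℓf = δ ℓ₀`.

## A. geometry, MODEL FREE:  `G : RtGrG` = the tests `Q l` of the labels, their time offsets `t l = T_l - T0 ∈ [0, ℓ₀]`, the common width `r` and thickness `f` (`r/2 ≤ r_l ≤ r`, `f/2 ≤ f_l ≤ f`), five parameters.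
* `G.Pre l`      the (measurable, enlarged) PREDECESSOR SET of the label: rows `q` at the root time whose ray at the time `t l` lies in the box `6` of the test and in the sublevels `|F|, |G| ≤ Mp f`   (`Mp = s^-1`).
* `G.cell q : Fin 5 → ℤ`, `G.frm c`      unit cells of the frames of width `r`: `a = ⌊A/r⌋`, `β = ⌊b/(ℓ₀ r)⌋`, `γ = ⌊(y - 2 A_c·(b - b_c))/(ℓ₀ r²)⌋`, `A_c = r a`, `b_c = ℓ₀ r β`, `y_c = ℓ₀ r² γ`.
                 `G.nrm c q` = the row normalised by the frame `c`;   `G.nrm (G.cell q) q` has all five coordinates in `[0,1)`.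
* `rtGrM t ℓ Q`  the polynomial of a label in PHYSICAL units (`(rtLabCh ..).pol m = Q.n` : `rt_gr_m_spec`);      `G.par c l` = its PARENT polynomial in the frame `c`.
* `G.Far c l l'` the parents of `l, l'` differ by more than `Ka` modulo sign   (`Ka = s^-D f`).
* `G.lat c l : Fin 6 → ℤ`   the parent rounded to the lattice of side `h`   (`h = f_*/100`, `f_* = s^-D1 f`);      `G.rep c Lx` = the parent of SOME label with `lat = Lx` (the group polynomial `n_L`).
* `G.key q : ℕ × (Fin 5 → ℤ) × (Fin 6 → ℤ)`      THE FIRST KEY:   `(0,0,0)` rows in no `Pre l`;   `(1,0,0)` AMBIGUOUS rows (`q ∈ Pre l ∩ Pre l'`, `Far (cell q) l l'`);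
                 `(2,c,Lx)` / `(3,c,Lx)`: `c = cell q`, `Lx = lat c (least l with q ∈ Pre l)`, tag `2` iff `kb < |k_L|` (BIG K; `kb = s^-b`).
* `G.fine q : Fin 5 → ℤ`      THE SECOND KEY: the normalised coordinates of `q` in its own cell, rounded to the grid of side `hg`   (`hg = ρ(P)/100`, `P = s^-b0`).
## B. operators, GENERIC (`P : PkSys`, `E : Xp P` free)
* `rtGrRm E S = An^* 1_S An v` (root mask),   `rtGrMl E l u` = mass of the label `l` on the state `u`,   `rtGrMu E S` = root row energy of `S`,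
* `rtGrPc E Ct κ' S Sl`      THE PIECE: root state `rtGrRm E S`, budget `max(‖·‖², s^(Ct+1) e)`, regularity `κ'`, root generation `Ct`, free, labels `Sl`.
## C. `rtGrOf Y p E r f ..` the geometry of an experiment of a round-type model.
-/

set_option autoImplicit false

namespace Claimed.Agent.R256

open MeasureTheory

/-! ## A. geometry -/

/-- the polynomial of a label in physical units; `t` = time offset of the label, `l` = its length -/
noncomputable def rtGrM (t l : ℝ) (Q : RdTst) : RtPoly :=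
  (rtChTr (-t)).pol ((rtChCen ⟨-Q.As, -Q.bs, 2 * rtIp Q.As Q.bs - Q.ys⟩).pol ((rtChSc l⁻¹ Q.r⁻¹).pol Q.n))

/-- a coefficient vector rounded to the lattice of side `h` -/
noncomputable def rtGrVec (h : ℝ) (n : RtPoly) : Fin 6 → ℤ :=
  ![⌊n.c / h⌋, ⌊n.d / h⌋, ⌊n.al.1 / h⌋, ⌊n.al.2 / h⌋, ⌊n.be / h⌋, ⌊n.k / h⌋]

/-- a row rounded to the grid of side `h` -/
noncomputable def rtGrRnd (h : ℝ) (w : RtRow) : Fin 5 → ℤ :=
  ![⌊w.A.1 / h⌋, ⌊w.A.2 / h⌋, ⌊w.b.1 / h⌋, ⌊w.b.2 / h⌋, ⌊w.y / h⌋]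

/-- the type of the first key -/
abbrev RtGrK : Type := ℕ × (Fin 5 → ℤ) × (Fin 6 → ℤ)

/-- the geometry of a uniform family of labels (data) -/
structure RtGrG where
  k0 : ℕ
  n : ℕ
  L : ℕ
  Q : Fin L → RdTst
  t : Fin L → ℝ
  r : ℝ
  f : ℝ
  /-- enlargement of the sublevels in the predecessor sets -/
  Mp : ℝ
  /-- ambiguity threshold (absolute) -/
  Ka : ℝ
  /-- side of the lattice of coefficient vectors -/
  h : ℝ
  /-- threshold of big `k` -/
  kb : ℝ
  /-- side of the fine grid -/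
  hg : ℝ

namespace RtGrG

variable (G : RtGrG)

/-- root length -/
noncomputable def l0 : ℝ := rdLen G.k0

/-- final length -/
noncomputable def lf : ℝ := rdLen (G.k0 + G.n)

/-- the test of a label at the final length -/
noncomputable def τ (l : Fin G.L) : RtTest := (G.Q l).toT (G.k0 + G.n)

/-- the enlarged predecessor set of a label -/
def Pre (l : Fin G.L) : Set RtRow :=
  {q | q.flow (G.t l) ∈ (G.τ l).box 6 ∧ |(G.τ l).Fv (q.flow (G.t l))| ≤ G.Mp * G.f ∧ |(G.τ l).Gv (q.flow (G.t l))| ≤ G.Mp * G.f}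

/-- the frame of a cell -/
noncomputable def frm (c : Fin 5 → ℤ) : RdFrm :=
  ⟨G.r, (G.r * c 0, G.r * c 1), (G.l0 * G.r * c 2, G.l0 * G.r * c 3), G.l0 * G.r ^ 2 * c 4⟩

/-- the cell of a row -/
noncomputable def cell (q : RtRow) : Fin 5 → ℤ :=
  ![⌊q.A.1 / G.r⌋, ⌊q.A.2 / G.r⌋, ⌊q.b.1 / (G.l0 * G.r)⌋, ⌊q.b.2 / (G.l0 * G.r)⌋,
    ⌊(q.y - 2 * rtIp (G.r * ⌊q.A.1 / G.r⌋, G.r * ⌊q.A.2 / G.r⌋)
      (q.b - (G.l0 * G.r * ⌊q.b.1 / (G.l0 * G.r)⌋, G.l0 * G.r * ⌊q.b.2 / (G.l0 * G.r)⌋))) / (G.l0 * G.r ^ 2)⌋]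

/-- the normalising chart of a cell -/
noncomputable def N (c : Fin 5 → ℤ) : RtCh := rtNrm G.l0 G.r (G.frm c).cen

/-- the row normalised by the frame of a cell -/
noncomputable def nrm (c : Fin 5 → ℤ) (q : RtRow) : RtRow := (G.N c).row q

/-- the parent polynomial of a label in the frame of a cell -/
noncomputable def par (c : Fin 5 → ℤ) (l : Fin G.L) : RtPoly := (G.N c).pol (rtGrM (G.t l) G.lf (G.Q l))

/-- the parents differ by more than `Ka`, modulo sign -/
def Far (c : Fin 5 → ℤ) (l l' : Fin G.L) : Prop :=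
  ¬ (RtPoly.comb 1 (G.par c l') (-1) (G.par c l)).Bd G.Ka ∧ ¬ (RtPoly.comb 1 (G.par c l') 1 (G.par c l)).Bd G.Ka

/-- the labels whose predecessor set contains the row -/
noncomputable def hit (q : RtRow) : Finset (Fin G.L) := open Classical in Finset.univ.filter fun l => q ∈ G.Pre l

/-- the rounded parent -/
noncomputable def lat (c : Fin 5 → ℤ) (l : Fin G.L) : Fin 6 → ℤ := rtGrVec G.h (G.par c l)

/-- the group polynomial -/
noncomputable def rep (c : Fin 5 → ℤ) (Lx : Fin 6 → ℤ) : RtPoly :=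
  open Classical in if h : ∃ l, G.lat c l = Lx then G.par c h.choose else rtLin

/-- the first key as a function of the hit set and the cell -/
noncomputable def keyOf (H : Finset (Fin G.L)) (c : Fin 5 → ℤ) : RtGrK :=
  open Classical in
  if h : H.Nonempty then
    if ∃ l ∈ H, ∃ l' ∈ H, G.Far c l l' then (1, 0, 0)
    else if G.kb < |(G.rep c (G.lat c (H.min' h))).k| then (2, c, G.lat c (H.min' h))
    else (3, c, G.lat c (H.min' h))
  else (0, 0, 0)

/-- **the first key** -/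
noncomputable def key (q : RtRow) : RtGrK := G.keyOf (G.hit q) (G.cell q)

/-- **the second key** -/
noncomputable def fine (q : RtRow) : Fin 5 → ℤ := rtGrRnd G.hg (G.nrm (G.cell q) q)

/-- the keys connected to a label -/
def Jset (l : Fin G.L) : Set RtGrK := {j | ∃ q ∈ G.Pre l, G.key q = j}

/-- the keys connected to a label, as a finite set (`rt_gr_J_fin`: `Jset` is finite) -/
noncomputable def J (l : Fin G.L) : Finset RtGrK := open Classical in if h : (G.Jset l).Finite then h.toFinset else ∅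

/-- the labels connected to a key -/
noncomputable def Sl (j : RtGrK) : Finset (Fin G.L) := open Classical in Finset.univ.filter fun l => j ∈ G.Jset l

/-- the standing hypotheses -/
structure Ok : Prop where
  r_pos : 0 < G.r
  f_pos : 0 < G.f
  f_le : G.f ≤ 1
  adm : ∀ l, (G.τ l).Adm 1
  lab_r : ∀ l, G.r / 2 ≤ (G.Q l).r ∧ (G.Q l).r ≤ G.r
  lab_f : ∀ l, G.f / 2 ≤ (G.Q l).f ∧ (G.Q l).f ≤ G.f
  t_nn : ∀ l, 0 ≤ G.t l
  t_le : ∀ l, G.t l ≤ G.l0
  Mp_ge : 1 ≤ G.Mp
  Ka_pos : 0 < G.Ka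
  h_pos : 0 < G.h
  kb_ge : 1 ≤ G.kb
  hg_pos : 0 < G.hg

end RtGrG

theorem rt_gr_defs_eqns_cite : True := by
  have := @rtGrM.eq_1
  have := @rtGrVec.eq_1
  have := @rtGrRnd.eq_1
  have := @RtGrG.l0.eq_1
  have := @RtGrG.lf.eq_1
  have := @RtGrG.τ.eq_1
  have := @RtGrG.Pre.eq_1
  have := @RtGrG.frm.eq_1
  have := @RtGrG.cell.eq_1
  have := @RtGrG.N.eq_1
  have := @RtGrG.nrm.eq_1
  have := @RtGrG.par.eq_1
  have := @RtGrG.Far.eq_1
  have := @RtGrG.hit.eq_1
  have := @RtGrG.lat.eq_1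
  have := @RtGrG.rep.eq_1
  have := @RtGrG.keyOf.eq_1
  have := @RtGrG.key.eq_1
  have := @RtGrG.fine.eq_1
  have := @RtGrG.Jset.eq_1
  have := @RtGrG.J.eq_1
  have := @RtGrG.Sl.eq_1
  trivial

/-! ## B. operators -/

section ops

variable {P : PkSys}

/-- the root mask `An^* 1_S An v` -/
noncomputable def rtGrRm (E : Xp P) (S : Set P.X) : P.Kc := P.tz (tmL E.k0 E.i0) E.k0 E.b0 (S.indicator fun _ => 1) E.v

/-- the mass of the label `l` on the state `u` -/
noncomputable def rtGrMl (E : Xp P) (l : Fin E.L) (u : P.Kc) : ℝ := P.en (tmL E.kf (E.iv l)) E.kf E.bT (E.th l) u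

/-- the root row energy -/
noncomputable def rtGrMu (E : Xp P) (S : Set P.X) : ℝ := P.ms (tmL E.k0 E.i0) E.k0 E.b0 S E.v

/-- **the piece** of `E` on the root rows `S` with the labels `Sl` -/
noncomputable def rtGrPc (E : Xp P) (Ct : ℕ) (κ' : ℝ) (S : Set P.X) (Sl : Finset (Fin E.L)) : Xp P :=
  E.tl E.k0 E.i0 (rtGrRm E S) (E.eb Ct (rtGrRm E S)) κ' Ct [] Sl

end ops

/-! ## C. the geometry of an experiment -/

/-- the geometry of the labels of an experiment of a round-type model -/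
noncomputable def rtGrOf {η : ℝ} (Y : RtMd η) (p : Y.M.Par) (E : Xp (Y.M.sys p)) (r f Mp Ka h kb hg : ℝ) : RtGrG where
  k0 := E.k0
  n := E.n
  L := E.L
  Q := fun l => Y.tq p (E.ts l)
  t := fun l => tmL E.kf (E.iv l) - tmL E.k0 E.i0
  r := r
  f := f
  Mp := Mp
  Ka := Ka
  h := h
  kb := kb
  hg := hg

theorem rt_gr_defs2_eqns_cite : True := by
  have := @rtGrRm.eq_1
  have := @rtGrMl.eq_1
  have := @rtGrMu.eq_1
  have := @rtGrPc.eq_1
  have := @rtGrOf.eq_1
  trivial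

end Claimed.Agent.R256
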