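-- KEEP
import Claimed.Agent.R256.Rt.Grp.Defs
import Claimed.Agent.R256.Gen.Contract

/-!
# Row 256 (LS paper), folder Rt, block GROUP, file Grp/Dec : THE GENERIC OPERATOR LEMMAS          (architect helper111; prefix `rt_gr_`)          CONTRACT: the `sorry`s are the leaves `L-256-RT-GR-D*`

GENERIC (`P : PkSys` tight, or `M : Mdl` with `Loc`, `Gen`): NO geometry, paper free.   Toolbox: `Gen/BasA-C`, `Gen/Cons`, `Gen/Tail`, `Gen/Ins`, `Gen/Sgl` (all sorry free).   Prove a leaf IN PLACE, statement verbatim.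
`E` is FREE (`E.st = []`): `E.fin i = E.v`, `E.m l = rtGrMl E l E.v`;   `u ↦ rtGrMl E l u` is a squared seminorm (`gn_en_tri_sum`).
* `rt_gr_dec`        DECOMPOSITION with BOUNDED CONNECTION (cost `(B+1)²`, not `(#pieces)²`)
* `rt_gr_dec2`       second tier: a piece is cut into `≤ Z` subpieces at the cost `Z²`
* `rt_gr_pc_*`       the pieces: readout, class, budget
* `rt_gr_dec_main`   the decomposition on the level of `val`
* `rt_gr_ker`, `rt_gr_far`, `rt_gr_pred`, `rt_gr_root`      the kernel bound `Loc.ker` at `Λ = 2^(n/4)`: anything without `Λ`-correspondence is `≤ s^N e`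
* `rt_gr_few`        FEW ACTIVE INTERVALS: labels under `m` intervals of depth `k0 + j1`: `val ≤ m Cq 2^(εn) 2^((Γ+ε)(n-j1))`
-/

set_option autoImplicit false

namespace Claimed.Agent.R256

open MeasureTheory

variable {P : PkSys}

/-! ## 1. decomposition of the readout -/

/-- power mean (`inner_le_nnorm_mul_nnorm` / `pow_sum_div_card_le_sum_pow`) -/
theorem rt_gr_pow_mean {ι : Type} (S : Finset ι) (a : ι → ℝ) (ha : ∀ i ∈ S, 0 ≤ a i) (m : ℕ) (hm : S.card ≤ m) :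
    (∑ i ∈ S, a i) ^ 3 ≤ (m : ℝ) ^ 2 * ∑ i ∈ S, a i ^ 3 := by
  rcases S.eq_empty_or_nonempty with rfl | hne
  · simp
  · have h1 := pow_sum_div_card_le_sum_pow (s := S) (f := a) ha 2
    have hc : (0 : ℝ) < S.card := by exact_mod_cast hne.card_pos
    rw [div_le_iff₀ (by positivity)] at h1
    have h2 : (S.card : ℝ) ≤ m := by exact_mod_cast hm
    have h3 : 0 ≤ ∑ i ∈ S, a i ^ 3 := Finset.sum_nonneg fun i hi => pow_nonneg (ha i hi) 3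
    have h4 : (S.card : ℝ) ^ 2 ≤ (m : ℝ) ^ 2 := pow_le_pow_left₀ hc.le h2 2
    calc (∑ i ∈ S, a i) ^ 3 ≤ (∑ i ∈ S, a i ^ 3) * (S.card : ℝ) ^ 2 := h1
      _ ≤ (∑ i ∈ S, a i ^ 3) * (m : ℝ) ^ 2 := mul_le_mul_of_nonneg_left h4 h3
      _ = _ := mul_comm _ _

theorem rt_gr_free_m (E : Xp P) (hst : E.st = []) (l : Fin E.L) : E.m l = rtGrMl E l E.v := by
  unfold Xp.m Xp.fin rtGrMl
  rw [hst]
  rfl

/-- `x^(3/2) = (√x)³` -/
theorem rt_gr_dc_32 {x : ℝ} (hx : 0 ≤ x) : x ^ (3 / 2 : ℝ) = Real.sqrt x ^ 3 := by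
  rw [Real.sqrt_eq_rpow, ← Real.rpow_natCast, ← Real.rpow_mul hx]
  norm_num

/-- the cubic triangle inequality of a squared seminorm -/
theorem rt_gr_dc_tri (T : ℝ) (k b : ℕ) {θ : P.X → ℝ} (hθ : IsMask θ) {ι : Type} (J : Finset ι) (u : ι → P.Kc) (m : ℕ) (hm : J.card ≤ m) :
    P.en T k b θ (∑ j ∈ J, u j) ^ (3 / 2 : ℝ) ≤ (m : ℝ) ^ 2 * ∑ j ∈ J, P.en T k b θ (u j) ^ (3 / 2 : ℝ) := by
  have hnn : ∀ w : P.Kc, 0 ≤ P.en T k b θ w := fun w => gn_en_nonneg T k b (fun x => (hθ.2 x).1) w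
  rw [rt_gr_dc_32 (hnn _)]
  have h1 := gn_en_tri_sum T k b hθ J u
  have h2 := rt_gr_pow_mean J (fun j => Real.sqrt (P.en T k b θ (u j))) (fun j _ => Real.sqrt_nonneg _) m hm
  have h3 : Real.sqrt (P.en T k b θ (∑ j ∈ J, u j)) ^ 3 ≤ (∑ j ∈ J, Real.sqrt (P.en T k b θ (u j))) ^ 3 :=
    pow_le_pow_left₀ (Real.sqrt_nonneg _) h1 3
  refine h3.trans (h2.trans (le_of_eq ?_))
  congr 1
  exact Finset.sum_congr rfl fun j _ => (rt_gr_dc_32 (hnn _)).symm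

/-- **L-256-RT-GR-D1** (200 l., with `rt_gr_pow_mean`)   For each `l`: masks `1_{key = j}` (`j ∈ J l`) and `1_{key ∉ J l}` sum to one: `v = Σ_j v_j + v_far` (`gn_tz_part`, index `Option`/insert),
`√m_l(v) ≤ Σ_j √m_l(v_j) + ε` (`gn_en_tri_sum`), `m^(3/2) = (√m)³`, power mean with `B + 1` terms. -/
theorem rt_gr_dec (hT : P.Tight) (E : Xp P) (hE : E.Valid) (hst : E.st = []) {K : Type} [DecidableEq K] (key : P.X → K)
    (hkey : ∀ j, MeasurableSet (key ⁻¹' {j})) (J : Fin E.L → Finset K) (B : ℕ) (hB : ∀ l, (J l).card ≤ B) (ε : ℝ) (hε : 0 ≤ ε)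
    (hfar : ∀ l, rtGrMl E l (rtGrRm E {x | key x ∉ J l}) ≤ ε ^ 2) :
    E.rd ≤ ((B : ℝ) + 1) ^ 2 * (∑ l, ∑ j ∈ J l, rtGrMl E l (rtGrRm E (key ⁻¹' {j})) ^ (3 / 2 : ℝ) / Real.sqrt (E.w l)
      + ∑ l, ε ^ 3 / Real.sqrt (E.w l)) := by
  classical
  have hone : ∀ l : Fin E.L, E.m l ^ (3 / 2 : ℝ) ≤ ((B : ℝ) + 1) ^ 2 * (∑ j ∈ J l, rtGrMl E l (rtGrRm E (key ⁻¹' {j})) ^ (3 / 2 : ℝ) + ε ^ 3) := by
    intro l
    have hmeasJ : MeasurableSet {x | key x ∉ J l} := by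
      have : {x | key x ∉ J l} = (⋃ j ∈ J l, key ⁻¹' {j})ᶜ := by
        ext x
        simp
      rw [this]
      exact (Finset.measurableSet_biUnion _ fun j _ => hkey j).compl
    obtain ⟨Sm, hSm⟩ : ∃ Sm : Option K → Set P.X, Sm = fun o => o.elim {x | key x ∉ J l} (fun j => key ⁻¹' {j}) := ⟨_, rfl⟩
    have hSn : Sm none = {x | key x ∉ J l} := by rw [hSm]; rfl
    have hSs : ∀ j, Sm (some j) = key ⁻¹' {j} := fun j => by rw [hSm]; rfl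
    have hSmeas : ∀ o, MeasurableSet (Sm o) := by
      intro o
      cases o with
      | none => rw [hSn]; exact hmeasJ
      | some j => rw [hSs]; exact hkey j
    have hpart := gn_tz_part hT (tmL E.k0 E.i0) E.k0 E.b0 hE.plat (Finset.insertNone (J l)) (fun o => (Sm o).indicator fun _ => (1 : ℝ))
      (fun o _ => gn_mask_ind (hSmeas o)) (fun x => by
        rw [Finset.sum_insertNone, hSn]
        simp only [hSs]
        by_cases hx : key x ∈ J l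
        · rw [Set.indicator_of_notMem (by simpa using hx), zero_add, Finset.sum_eq_single (key x)]
          · exact Set.indicator_of_mem (by simp) _
          · intro j _ hj
            exact Set.indicator_of_notMem (by simpa using fun h : key x = j => hj h.symm) _
          · intro h
            exact absurd hx h
        · rw [Set.indicator_of_mem (by simpa using hx), Finset.sum_eq_zero, add_zero]
          intro j hj
          refine Set.indicator_of_notMem ?_ _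
          intro h
          have : key x = j := by simpa using h
          exact hx (this ▸ hj))
    have htri := rt_gr_dc_tri (tmL E.kf (E.iv l)) E.kf E.bT (gn_th_mask E hE l) (Finset.insertNone (J l))
      (fun o => P.tz (tmL E.k0 E.i0) E.k0 E.b0 ((Sm o).indicator fun _ => (1 : ℝ)) E.v) (B + 1) (by
        rw [Finset.card_insertNone]
        exact Nat.succ_le_succ (hB l))
    rw [hpart, Finset.sum_insertNone, hSn] at htri
    simp only [hSs] at htri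
    rw [rt_gr_free_m E hst l]
    have hf : rtGrMl E l (rtGrRm E {x | key x ∉ J l}) ^ (3 / 2 : ℝ) ≤ ε ^ 3 := by
      have h0 : 0 ≤ rtGrMl E l (rtGrRm E {x | key x ∉ J l}) := gn_en_nonneg _ _ _ (fun x => hE.th_nn l x) _
      rw [rt_gr_dc_32 h0]
      refine pow_le_pow_left₀ (Real.sqrt_nonneg _) ?_ 3
      rw [← Real.sqrt_sq hε]
      exact Real.sqrt_le_sqrt (hfar l)
    have hc : ((B + 1 : ℕ) : ℝ) = (B : ℝ) + 1 := by push_cast; ring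
    rw [hc] at htri
    refine htri.trans (mul_le_mul_of_nonneg_left ?_ (by positivity))
    have : P.en (tmL E.kf (E.iv l)) E.kf E.bT (E.th l) (P.tz (tmL E.k0 E.i0) E.k0 E.b0 ({x | key x ∉ J l}.indicator fun _ => (1 : ℝ)) E.v) ^ (3 / 2 : ℝ) ≤ ε ^ 3 := hf
    rw [add_comm]
    exact add_le_add (le_refl _) this
  unfold Xp.rd
  rw [← Finset.sum_add_distrib, Finset.mul_sum]
  refine Finset.sum_le_sum fun l _ => ?_
  have hw : 0 ≤ Real.sqrt (E.w l) := Real.sqrt_nonneg _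
  rw [← Finset.sum_div, ← add_div, ← mul_div_assoc]
  exact div_le_div_of_nonneg_right (hone l) hw

/-- **L-256-RT-GR-D2** (120 l.)   `1_S = Σ_{g ∈ G2} 1_{S ∩ key2 = g}` (`gn_mulR_sum`), triangle inequality, power mean -/
theorem rt_gr_dec2 (hT : P.Tight) (E : Xp P) (hE : E.Valid) {K2 : Type} [DecidableEq K2] (key2 : P.X → K2) (hkey2 : ∀ g, MeasurableSet (key2 ⁻¹' {g}))
    (G2 : Finset K2) (S : Set P.X) (hS : MeasurableSet S) (hG : ∀ x ∈ S, key2 x ∈ G2) (l : Fin E.L) :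
    rtGrMl E l (rtGrRm E S) ^ (3 / 2 : ℝ) ≤ (G2.card : ℝ) ^ 2 * ∑ g ∈ G2, rtGrMl E l (rtGrRm E (S ∩ key2 ⁻¹' {g})) ^ (3 / 2 : ℝ) := by
  classical
  have hsum : ∑ g ∈ G2, rtGrRm E (S ∩ key2 ⁻¹' {g}) = rtGrRm E S := by
    unfold rtGrRm PkSys.tz
    rw [← map_sum, gn_mulR_sum E.k0 G2 (fun g => (S ∩ key2 ⁻¹' {g}).indicator fun _ => (1 : ℝ)) (fun g _ => gn_mask_ind (hS.inter (hkey2 g)))
      (gn_mask_ind hS)]
    intro x
    by_cases hx : x ∈ S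
    · rw [Set.indicator_of_mem hx, Finset.sum_eq_single (key2 x)]
      · exact Set.indicator_of_mem (show x ∈ S ∩ key2 ⁻¹' {key2 x} from ⟨hx, by simp⟩) _
      · intro g _ hg
        exact Set.indicator_of_notMem (fun h => hg (by simpa using h.2.symm)) _
      · intro h
        exact absurd (hG x hx) h
    · rw [Set.indicator_of_notMem hx]
      exact Finset.sum_eq_zero fun g _ => Set.indicator_of_notMem (fun h => hx h.1) _
  rw [← hsum]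
  exact rt_gr_dc_tri (tmL E.kf (E.iv l)) E.kf E.bT (gn_th_mask E hE l) G2 (fun g => rtGrRm E (S ∩ key2 ⁻¹' {g})) G2.card le_rfl

/-! ## 2. the pieces -/

/-- **L-256-RT-GR-D3** (100 l., with the next three)   `(tl ..).kf = E.kf` (`gn_tl_kf`), the piece is free: `fin = root state`; `gn_sel_sum` -/
theorem rt_gr_pc_rd (E : Xp P) (Ct : ℕ) (κ' : ℝ) (S : Set P.X) (Sl : Finset (Fin E.L)) :
    (rtGrPc E Ct κ' S Sl).rd = ∑ l ∈ Sl, rtGrMl E l (rtGrRm E S) ^ (3 / 2 : ℝ) / Real.sqrt (E.w l) := by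
  rw [← gn_sel_sum E Sl (fun l => rtGrMl E l (rtGrRm E S) ^ (3 / 2 : ℝ) / Real.sqrt (E.w l))]
  have hkf : (rtGrPc E Ct κ' S Sl).kf = E.kf :=
    gn_tl_kf E (Nat.le_add_right _ _) E.i0 (rtGrRm E S) (E.eb Ct (rtGrRm E S)) κ' Ct [] Sl
  unfold Xp.rd
  refine Finset.sum_congr rfl fun a _ => ?_
  have hm : (rtGrPc E Ct κ' S Sl).m a = rtGrMl E (E.sel Sl a) (rtGrRm E S) := by
    unfold Xp.m Xp.fin rtGrMl
    rw [hkf]
    rfl
  rw [hm]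
  rfl

/-- `‖An^* 1_S An v‖² ≤ μ₀(S)`   (`gn_tz_normsq_le`, `1_S² = 1_S`) -/
theorem rt_gr_rm_norm (hT : P.Tight) (E : Xp P) {S : Set P.X} (hS : MeasurableSet S) : ‖rtGrRm E S‖ ^ 2 ≤ rtGrMu E S := by
  refine (gn_tz_normsq_le hT _ _ _ (gn_mask_ind hS) _).trans (le_of_eq ?_)
  unfold rtGrMu PkSys.ms
  congr 1
  ext x
  by_cases hx : x ∈ S <;> simp [hx]

/-- the budget of a piece -/
theorem rt_gr_pc_eb (hT : P.Tight) (E : Xp P) (hE : E.Valid) (Ct : ℕ) {S : Set P.X} (hS : MeasurableSet S) :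
    E.s ^ ((Ct : ℝ) + 1) * E.e ≤ E.eb Ct (rtGrRm E S) ∧ E.eb Ct (rtGrRm E S) ≤ rtGrMu E S + E.s ^ ((Ct : ℝ) + 1) * E.e ∧ E.eb Ct (rtGrRm E S) ≤ E.e := by
  have he := hE.e_pos
  have hs := gn_s_pos E
  have hpos : 0 < E.s ^ ((Ct : ℝ) + 1) * E.e := mul_pos (Real.rpow_pos_of_pos hs _) he
  have hn := rt_gr_rm_norm hT E hS
  have hmu0 : 0 ≤ rtGrMu E S := gn_ms_nonneg _ _ _ _ _
  have hmu : rtGrMu E S ≤ E.e := (gn_ms_le hT _ _ _ hS _).trans hE.budget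
  have hs1 : E.s ^ ((Ct : ℝ) + 1) ≤ 1 :=
    Real.rpow_le_one hs.le (gn_s_le_one E) (by positivity)
  unfold Xp.eb
  refine ⟨le_max_right _ _, max_le (by linarith) (by linarith), max_le (hn.trans hmu) ?_⟩
  calc E.s ^ ((Ct : ℝ) + 1) * E.e ≤ 1 * E.e := mul_le_mul_of_nonneg_right hs1 he.le
    _ = E.e := one_mul _

theorem rt_gr_rm_empty (E : Xp P) : rtGrRm E ∅ = 0 := by
  unfold rtGrRm PkSys.tz
  have h : P.mulR E.k0 ((∅ : Set P.X).indicator fun _ => (1 : ℝ)) (P.An (tmL E.k0 E.i0) E.k0 E.b0 E.v) = 0 := by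
    unfold PkSys.mulR
    split_ifs with h
    · rw [Lp.eq_zero_iff_ae_eq_zero]
      refine h.coeFn_toLp.trans (Filter.Eventually.of_forall fun x => ?_)
      simp
    · rfl
  rw [h, map_zero]

theorem rt_gr_ml_zero (E : Xp P) (l : Fin E.L) : rtGrMl E l 0 = 0 := by
  unfold rtGrMl PkSys.en
  rw [map_zero]
  refine integral_eq_zero_of_ae ?_
  filter_upwards [Lp.coeFn_zero P.Fb 2 (P.rho E.kf)] with x hx
  rw [hx]
  simp

/-- an empty piece reads nothing -/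
theorem rt_gr_pc_empty (E : Xp P) (Ct : ℕ) (κ' : ℝ) (Sl : Finset (Fin E.L)) : (rtGrPc E Ct κ' ∅ Sl).val = 0 := by
  unfold Xp.val
  rw [rt_gr_pc_rd, rt_gr_rm_empty]
  refine mul_eq_zero_of_right _ (Finset.sum_eq_zero fun l _ => ?_)
  rw [rt_gr_ml_zero, Real.zero_rpow (by norm_num), zero_div]

/-- disjoint root sets: `Σ μ₀(S_i) ≤ e`   (`gn_ms_eq_mu`, `measure_biUnion_finset`, `gn_ms_le`) -/
theorem rt_gr_mu_sum (hT : P.Tight) (E : Xp P) (hE : E.Valid) {ι : Type} (I : Finset ι) (S : ι → Set P.X) (hS : ∀ i ∈ I, MeasurableSet (S i))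
    (hd : ∀ i ∈ I, ∀ i' ∈ I, i ≠ i' → Disjoint (S i) (S i')) : ∑ i ∈ I, rtGrMu E (S i) ≤ E.e := by
  have hfin := gn_mu_finite (P := P) (tmL E.k0 E.i0) E.k0 E.b0 E.v
  have hU : MeasurableSet (⋃ i ∈ I, S i) := Finset.measurableSet_biUnion _ hS
  have h1 : ∑ i ∈ I, rtGrMu E (S i) = rtGrMu E (⋃ i ∈ I, S i) := by
    unfold rtGrMu
    rw [gn_ms_eq_mu _ _ _ hU, measureReal_biUnion_finset (fun i hi i' hi' h => hd i hi i' hi' h) hS]
    exact Finset.sum_congr rfl fun i hi => gn_ms_eq_mu _ _ _ (hS i hi) _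
  rw [h1]
  exact (gn_ms_le hT _ _ _ hU _).trans hE.budget

/-- **L-256-RT-GR-D4** (250 l.)   THE PIECES STAY IN THE CLASS.      `E ∈ Cls (Ct-1)` (`gn_cls_mono`);   `E₁ = E.ins k0 b0 [] [] (fun _ => 1_S) ∈ Cls Ct` (`gn_ins_cls`), `E₁.CutAt k0 [σ] []`, `E₁.at' k0 i0 [σ] = rtGrRm E S` (`gn_anc_self`);
`InsAt` with `κ'' = κ` (`ms (cell ∩ S) ≤ ms cell ≤ κ w`): `gn_ins_states (Ct-1)`: the state is in `Pl Ct`, `Cr κ`-regular at generation `Ct`;   `gn_tail_cls Ct (a0 = 1)` (`Cr ≤ s^-Ct` for `n ≥ n0`);   `E₁.tl = E.tl`, `E₁.eb = E.eb` by `rfl`. -/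
theorem rt_gr_pc_cls (M : Mdl) (hG : M.Gen 1) (C Ct : ℕ) (hC : C + 1 ≤ Ct) :
    ∃ Cr : ℝ, 1 ≤ Cr ∧ ∃ C' : ℕ, ∀ A' : ℕ, ∃ A n0 : ℕ, ∀ (p : M.Par) (E : Xp (M.sys p)), n0 ≤ E.n → M.Cls C A p E → E.st = [] →
      ∀ (S : Set (M.sys p).X) (Sl : Finset (Fin E.L)), MeasurableSet S → M.Cls C' A' p (rtGrPc E Ct (Cr * E.ka) S Sl) := by
  obtain ⟨C0, rfl⟩ : ∃ C0, Ct = C0 + 1 := ⟨Ct - 1, by omega⟩
  have hC0 : C ≤ C0 := by omega
  obtain ⟨Cr, hCr, Hst⟩ := gn_ins_states M 1 hG C0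
  obtain ⟨C', Htl⟩ := gn_tail_cls M 1 hG (C0 + 1) 1 one_pos
  obtain ⟨n1, Habs⟩ := gn_absorb Cr 1 one_pos
  refine ⟨Cr, hCr, C', fun A' => ?_⟩
  obtain ⟨A, n0, Htl⟩ := Htl A'
  refine ⟨A, max n0 n1, ?_⟩
  intro p E hn hE hst S Sl hS
  have hE0 : M.Cls C0 A p E := gn_cls_mono M hG.scale hC0 hE
  have hV := hE.2.1
  have hT := hG.tight p hE.1
  have hM : ∀ i : ℕ, IsMask (S.indicator fun _ => (1 : ℝ)) := fun _ => gn_mask_ind hS
  have hcut : E.CutAt E.k0 [] [] := ⟨hst, by simp, by simp, le_rfl, Nat.le_add_right _ _⟩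
  have hb0 : E.b0 ≤ C0 := hE0.2.2.2.1.1
  have hE1 : M.Cls (C0 + 1) A p (E.ins E.k0 E.b0 [] [] fun _ => S.indicator fun _ => 1) :=
    gn_ins_cls M 1 hG hE0 hcut (by omega) hM
  have hi0 : E.i0 ∈ ivs E.k0 E.i0 E.k0 := by
    rw [gn_mem_ivs, gn_anc_self]
  have hins : E.InsAt E.k0 E.b0 [] [] [] (fun _ => S.indicator fun _ => 1) E.ka := by
    refine ⟨hcut, by simp, by simp, hM, fun i hi => ⟨S, hS, rfl, fun Q hQ => ?_⟩⟩
    have hi' : i = E.i0 := by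
      rw [gn_mem_ivs, gn_anc_self] at hi
      exact hi
    subst hi'
    refine le_trans (gn_ms_mono _ _ _ ((hT.cellM _ _ _).inter hS) (hT.cellM _ _ _) Set.inter_subset_left _) ?_
    exact hV.reg Q hQ
  obtain ⟨hpl, hreg, -⟩ := Hst p E hE.1 hV hE0.2.2.2.1 E.k0 E.b0 [] [] [] _ E.ka hins hb0 hV.ka_pos.le E.i0 hi0
  have hat : E.at' E.k0 E.i0 ([] ++ [(⟨E.k0, E.b0, fun _ => S.indicator fun _ => 1⟩ : Stg (M.sys p))]) = rtGrRm E S := by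
    show (M.sys p).tz (tmL E.k0 (ancI E.k0 E.k0 E.i0)) E.k0 E.b0 (S.indicator fun _ => 1) E.v = _
    rw [gn_anc_self]
    rfl
  rw [hat] at hpl hreg
  have hs0 := gn_s_pos E
  have hs1 := gn_s_le_one E
  have key := Htl p (E.ins E.k0 E.b0 [] [] fun _ => S.indicator fun _ => 1) (le_trans (le_max_left _ _) hn) hE1 E.k0 (C0 + 1) E.i0
    [(⟨E.k0, E.b0, fun _ => S.indicator fun _ => 1⟩ : Stg (M.sys p))] [] (Cr * E.ka) Sl
    ⟨rfl, by simp, by simp, le_rfl, Nat.le_add_right _ _⟩ ?_ le_rfl ?_ ?_ hi0 ?_ ?_ ?_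
  · have hat' : (E.ins E.k0 E.b0 [] [] fun _ => S.indicator fun _ => 1).at' E.k0 E.i0
        [(⟨E.k0, E.b0, fun _ => S.indicator fun _ => 1⟩ : Stg (M.sys p))] = rtGrRm E S := hat
    rw [hat'] at key
    exact key
  · show 1 * (E.n : ℝ) ≤ ((E.k0 + E.n - E.k0 : ℕ) : ℝ)
    rw [Nat.add_sub_cancel_left, one_mul]
  · show E.s ^ (((C0 + 1 : ℕ) : ℝ)) * E.ka ≤ Cr * E.ka
    refine mul_le_mul_of_nonneg_right ?_ hV.ka_pos.le
    exact le_trans (Real.rpow_le_one hs0.le hs1 (Nat.cast_nonneg _)) hCr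
  · show Cr * E.ka ≤ E.s ^ (-((C0 + 1 : ℕ) : ℝ)) * E.ka
    refine mul_le_mul_of_nonneg_right ?_ hV.ka_pos.le
    rw [gn_s_rpow]
    refine le_trans (Habs E.n (le_trans (le_max_right _ _) hn)) (gn_two_mono ?_)
    push_cast
    have : (0 : ℝ) ≤ E.n := Nat.cast_nonneg _
    have h2 : (0 : ℝ) ≤ C0 := Nat.cast_nonneg _
    nlinarith
  · exact hat ▸ hpl
  · exact hat ▸ hreg
  · intro l _
    exact Finset.mem_filter.2 ⟨Finset.mem_univ (l : Fin E.L), hV.iv_in l⟩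

/-- **L-256-RT-GR-D5** (350 l.)   THE DECOMPOSITION ON THE LEVEL OF `val`.      `Jall = ⋃_l J l`.   `rt_gr_dec`;   `Σ_l Σ_{j ∈ J l} = Σ_{j ∈ Jall} Σ_{l ∈ Sl j}` (`Finset.sum_comm'`);   keys with `¬ t3`: inner sum `= rd (piece)` (`rt_gr_pc_rd`);
keys with `t3`: `rt_gr_dec2`, inner sum `≤ Z² Σ_g rd (subpiece)`;   `rd = 2^(-n/2) e' √κ' val` (`gn_rd_of_val`; the pieces have the same `n`);   `Σ_{j,g} e'_{j,g} ≤ e + #Jall Z s^(Ct+1) e` (`rt_gr_pc_eb`, `rt_gr_mu_sum`). -/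
theorem rt_gr_dec_main (hT : P.Tight) (E : Xp P) (hE : E.Valid) (hst : E.st = []) {K K2 : Type} [DecidableEq K] [DecidableEq K2]
    (key : P.X → K) (hkey : ∀ j, MeasurableSet (key ⁻¹' {j})) (key2 : P.X → K2) (hkey2 : ∀ g, MeasurableSet (key2 ⁻¹' {g}))
    (J : Fin E.L → Finset K) (B : ℕ) (hB : ∀ l, (J l).card ≤ B) (G2 : Finset K2) (hG2 : ∀ x, key2 x ∈ G2)
    (ε : ℝ) (hε : 0 ≤ ε) (hfar : ∀ l, rtGrMl E l (rtGrRm E {x | key x ∉ J l}) ≤ ε ^ 2)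
    (t3 : K → Prop) [DecidablePred t3] (Ct : ℕ) (κ' : ℝ) (Sl : K → Finset (Fin E.L)) (hSl : ∀ j l, l ∈ Sl j ↔ j ∈ J l)
    (hv : ∀ (S : Set P.X) (j : K), MeasurableSet S → (rtGrPc E Ct κ' S (Sl j)).Valid) (V : K → ℝ) (X : ℝ) (hX : 0 ≤ X)
    (h1 : ∀ j ∈ Finset.univ.biUnion J, ¬ t3 j → (rtGrPc E Ct κ' (key ⁻¹' {j}) (Sl j)).val ≤ V j)
    (h3 : ∀ j ∈ Finset.univ.biUnion J, t3 j → ∀ g ∈ G2, (rtGrPc E Ct κ' (key ⁻¹' {j} ∩ key2 ⁻¹' {g}) (Sl j)).val ≤ X) :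
    E.val ≤ ((B : ℝ) + 1) ^ 2 * (Real.sqrt (κ' / E.ka) *
        (∑ j ∈ (Finset.univ.biUnion J).filter (fun j => ¬ t3 j), E.eb Ct (rtGrRm E (key ⁻¹' {j})) / E.e * V j
          + (G2.card : ℝ) ^ 2 * X * (1 + ((Finset.univ.biUnion J).card : ℝ) * G2.card * E.s ^ ((Ct : ℝ) + 1)))
      + 2 ^ ((E.n : ℝ) / 2) / (E.e * Real.sqrt E.ka) * ∑ l, ε ^ 3 / Real.sqrt (E.w l)) := by
  have he := hE.e_pos
  have hka := hE.ka_pos
  have hsk : 0 < Real.sqrt E.ka := Real.sqrt_pos.2 hka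
  have hp2 : 0 < (2 : ℝ) ^ ((E.n : ℝ) / 2) := gn_two_pos _
  have hs1 : 0 ≤ E.s ^ ((Ct : ℝ) + 1) := Real.rpow_nonneg (by unfold Xp.s; positivity) _
  have hmS : ∀ j g, MeasurableSet (key ⁻¹' {j} ∩ key2 ⁻¹' {g}) := fun j g => (hkey j).inter (hkey2 g)
  have hsk' : 0 ≤ Real.sqrt κ' := Real.sqrt_nonneg _
  -- the readout of a piece
  have hpc : ∀ (S : Set P.X) (j : K), MeasurableSet S →
      ∑ l ∈ Sl j, rtGrMl E l (rtGrRm E S) ^ (3 / 2 : ℝ) / Real.sqrt (E.w l)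
        = (2 ^ ((E.n : ℝ) / 2))⁻¹ * (E.eb Ct (rtGrRm E S) * Real.sqrt κ') * (rtGrPc E Ct κ' S (Sl j)).val := by
    intro S j hS
    rw [← rt_gr_pc_rd E Ct κ' S (Sl j), gn_rd_of_val _ (hv S j hS), gn_two_neg]
    have hn : (rtGrPc E Ct κ' S (Sl j)).n = E.n := Nat.add_sub_cancel_left _ _
    rw [hn]
    rfl
  have heb0 : ∀ S : Set P.X, MeasurableSet S → 0 ≤ E.eb Ct (rtGrRm E S) := fun S hS =>
    (mul_nonneg hs1 he.le).trans (rt_gr_pc_eb hT E hE Ct hS).1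
  have hd := rt_gr_dec hT E hE hst key hkey J B hB ε hε hfar
  -- exchange of the sums
  have hsw : ∑ l, ∑ j ∈ J l, rtGrMl E l (rtGrRm E (key ⁻¹' {j})) ^ (3 / 2 : ℝ) / Real.sqrt (E.w l)
      = ∑ j ∈ Finset.univ.biUnion J, ∑ l ∈ Sl j, rtGrMl E l (rtGrRm E (key ⁻¹' {j})) ^ (3 / 2 : ℝ) / Real.sqrt (E.w l) := by
    refine Finset.sum_comm' ?_
    intro l j
    constructor
    · rintro ⟨-, hj⟩
      exact ⟨(hSl j l).2 hj, Finset.mem_biUnion.2 ⟨l, Finset.mem_univ _, hj⟩⟩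
    · rintro ⟨hl, -⟩
      exact ⟨Finset.mem_univ _, (hSl j l).1 hl⟩
  -- keys of the first kind
  have hA : ∑ j ∈ (Finset.univ.biUnion J).filter (fun j => ¬ t3 j), ∑ l ∈ Sl j, rtGrMl E l (rtGrRm E (key ⁻¹' {j})) ^ (3 / 2 : ℝ) / Real.sqrt (E.w l)
      ≤ (2 ^ ((E.n : ℝ) / 2))⁻¹ * Real.sqrt κ' * ∑ j ∈ (Finset.univ.biUnion J).filter (fun j => ¬ t3 j), E.eb Ct (rtGrRm E (key ⁻¹' {j})) * V j := by
    rw [Finset.mul_sum]
    refine Finset.sum_le_sum fun j hj => ?_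
    obtain ⟨hj1, hj2⟩ := Finset.mem_filter.1 hj
    rw [hpc _ j (hkey j)]
    have := mul_le_mul_of_nonneg_left (h1 j hj1 hj2)
      (mul_nonneg (inv_nonneg.2 hp2.le) (mul_nonneg (heb0 _ (hkey j)) hsk'))
    refine this.trans (le_of_eq ?_)
    ring
  -- keys of the third kind, one key
  have hB1 : ∀ j ∈ (Finset.univ.biUnion J).filter (fun j => t3 j),
      ∑ l ∈ Sl j, rtGrMl E l (rtGrRm E (key ⁻¹' {j})) ^ (3 / 2 : ℝ) / Real.sqrt (E.w l)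
        ≤ (G2.card : ℝ) ^ 2 * ((2 ^ ((E.n : ℝ) / 2))⁻¹ * Real.sqrt κ' * X) * ∑ g ∈ G2, E.eb Ct (rtGrRm E (key ⁻¹' {j} ∩ key2 ⁻¹' {g})) := by
    intro j hj
    obtain ⟨hj1, hj2⟩ := Finset.mem_filter.1 hj
    have s1 : ∑ l ∈ Sl j, rtGrMl E l (rtGrRm E (key ⁻¹' {j})) ^ (3 / 2 : ℝ) / Real.sqrt (E.w l)
        ≤ ∑ l ∈ Sl j, (G2.card : ℝ) ^ 2 * ∑ g ∈ G2, rtGrMl E l (rtGrRm E (key ⁻¹' {j} ∩ key2 ⁻¹' {g})) ^ (3 / 2 : ℝ) / Real.sqrt (E.w l) := by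
      refine Finset.sum_le_sum fun l _ => ?_
      have := rt_gr_dec2 hT E hE key2 hkey2 G2 (key ⁻¹' {j}) (hkey j) (fun x _ => hG2 x) l
      have h2 := div_le_div_of_nonneg_right this (Real.sqrt_nonneg (E.w l))
      refine h2.trans (le_of_eq ?_)
      rw [mul_div_assoc, Finset.sum_div]
    refine s1.trans ?_
    rw [← Finset.mul_sum, Finset.sum_comm, mul_assoc]
    refine mul_le_mul_of_nonneg_left ?_ (sq_nonneg (G2.card : ℝ))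
    rw [Finset.mul_sum]
    refine Finset.sum_le_sum fun g hg => ?_
    rw [hpc _ j (hmS j g)]
    have := mul_le_mul_of_nonneg_left (h3 j hj1 hj2 g hg)
      (mul_nonneg (inv_nonneg.2 hp2.le) (mul_nonneg (heb0 _ (hmS j g)) hsk'))
    refine this.trans (le_of_eq ?_)
    ring
  -- the budgets
  have hbud : ∑ j ∈ (Finset.univ.biUnion J).filter (fun j => t3 j), ∑ g ∈ G2, E.eb Ct (rtGrRm E (key ⁻¹' {j} ∩ key2 ⁻¹' {g}))
      ≤ E.e + ((Finset.univ.biUnion J).card : ℝ) * G2.card * (E.s ^ ((Ct : ℝ) + 1) * E.e) := by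
    have b1 : ∑ j ∈ (Finset.univ.biUnion J).filter (fun j => t3 j), ∑ g ∈ G2, E.eb Ct (rtGrRm E (key ⁻¹' {j} ∩ key2 ⁻¹' {g}))
        ≤ ∑ j ∈ (Finset.univ.biUnion J).filter (fun j => t3 j), ∑ g ∈ G2,
          (rtGrMu E (key ⁻¹' {j} ∩ key2 ⁻¹' {g}) + E.s ^ ((Ct : ℝ) + 1) * E.e) :=
      Finset.sum_le_sum fun j _ => Finset.sum_le_sum fun g _ => (rt_gr_pc_eb hT E hE Ct (hmS j g)).2.1
    refine b1.trans ?_
    simp only [Finset.sum_add_distrib, Finset.sum_const, nsmul_eq_mul]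
    have b2 : ∑ j ∈ (Finset.univ.biUnion J).filter (fun j => t3 j), ∑ g ∈ G2, rtGrMu E (key ⁻¹' {j} ∩ key2 ⁻¹' {g}) ≤ E.e := by
      rw [← Finset.sum_product']
      refine rt_gr_mu_sum hT E hE _ (fun z : K × K2 => key ⁻¹' {z.1} ∩ key2 ⁻¹' {z.2}) (fun z _ => hmS z.1 z.2) ?_
      intro z _ z' _ hne
      rw [Set.disjoint_left]
      rintro x ⟨hx1, hx2⟩ ⟨hx3, hx4⟩
      apply hne
      simp only [Set.mem_preimage, Set.mem_singleton_iff] at hx1 hx2 hx3 hx4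
      exact Prod.ext (hx1.symm.trans hx3) (hx2.symm.trans hx4)
    have b3 : (((Finset.univ.biUnion J).filter (fun j => t3 j)).card : ℝ) ≤ ((Finset.univ.biUnion J).card : ℝ) := by
      exact_mod_cast Finset.card_filter_le _ _
    have b4 : (((Finset.univ.biUnion J).filter (fun j => t3 j)).card : ℝ) * ((G2.card : ℝ) * (E.s ^ ((Ct : ℝ) + 1) * E.e))
        ≤ ((Finset.univ.biUnion J).card : ℝ) * ((G2.card : ℝ) * (E.s ^ ((Ct : ℝ) + 1) * E.e)) :=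
      mul_le_mul_of_nonneg_right b3 (mul_nonneg (Nat.cast_nonneg _) (mul_nonneg hs1 he.le))
    linarith only [b2, b4]
  have hB2 : ∑ j ∈ (Finset.univ.biUnion J).filter (fun j => t3 j), ∑ l ∈ Sl j, rtGrMl E l (rtGrRm E (key ⁻¹' {j})) ^ (3 / 2 : ℝ) / Real.sqrt (E.w l)
      ≤ (G2.card : ℝ) ^ 2 * ((2 ^ ((E.n : ℝ) / 2))⁻¹ * Real.sqrt κ' * X) *
        (E.e + ((Finset.univ.biUnion J).card : ℝ) * G2.card * (E.s ^ ((Ct : ℝ) + 1) * E.e)) := by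
    refine (Finset.sum_le_sum hB1).trans ?_
    rw [← Finset.mul_sum]
    exact mul_le_mul_of_nonneg_left hbud (by positivity)
  rw [hsw, ← Finset.sum_filter_add_sum_filter_not (Finset.univ.biUnion J) (fun j => t3 j)] at hd
  -- assembly
  have e1 : ∑ j ∈ (Finset.univ.biUnion J).filter (fun j => ¬ t3 j), E.eb Ct (rtGrRm E (key ⁻¹' {j})) / E.e * V j
      = (∑ j ∈ (Finset.univ.biUnion J).filter (fun j => ¬ t3 j), E.eb Ct (rtGrRm E (key ⁻¹' {j})) * V j) / E.e := by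
    rw [Finset.sum_div]
    refine Finset.sum_congr rfl fun j _ => ?_
    ring
  rw [e1, Real.sqrt_div' _ hka.le]
  unfold Xp.val
  generalize ∑ j ∈ (Finset.univ.biUnion J).filter (fun j => ¬ t3 j), E.eb Ct (rtGrRm E (key ⁻¹' {j})) * V j = R1 at hA ⊢
  generalize ∑ j ∈ (Finset.univ.biUnion J).filter (fun j => ¬ t3 j), ∑ l ∈ Sl j, rtGrMl E l (rtGrRm E (key ⁻¹' {j})) ^ (3 / 2 : ℝ) / Real.sqrt (E.w l) = a1 at hA hd
  generalize ∑ j ∈ (Finset.univ.biUnion J).filter (fun j => t3 j), ∑ l ∈ Sl j, rtGrMl E l (rtGrRm E (key ⁻¹' {j})) ^ (3 / 2 : ℝ) / Real.sqrt (E.w l) = a3 at hB2 hd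
  generalize ∑ l, ε ^ 3 / Real.sqrt (E.w l) = ee at hd ⊢
  have hc : 0 < 2 ^ ((E.n : ℝ) / 2) / (E.e * Real.sqrt E.ka) := div_pos hp2 (mul_pos he hsk)
  have hA2 : (0 : ℝ) ≤ ((B : ℝ) + 1) ^ 2 := by positivity
  have f1 : E.rd ≤ ((B : ℝ) + 1) ^ 2 * ((G2.card : ℝ) ^ 2 * ((2 ^ ((E.n : ℝ) / 2))⁻¹ * Real.sqrt κ' * X) *
        (E.e + ((Finset.univ.biUnion J).card : ℝ) * G2.card * (E.s ^ ((Ct : ℝ) + 1) * E.e))
        + (2 ^ ((E.n : ℝ) / 2))⁻¹ * Real.sqrt κ' * R1 + ee) := by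
    refine hd.trans (mul_le_mul_of_nonneg_left ?_ hA2)
    linarith only [hA, hB2]
  refine (mul_le_mul_of_nonneg_left f1 hc.le).trans (le_of_eq ?_)
  field_simp
  ring

/-! ## 3. the kernel bound at `Λ = 2^(n/4)` -/

/-- **L-256-RT-GR-D6** (120 l.)   `Loc.ker` with `N ≥ 2 N' + 4 |Cl| + 2`:  `(CN Λ^-N 2^(Cl (k'-k)))² ≤ CN² 2^(-(N/2 - 2|Cl|) n) ≤ CN² 2^(-(N'+1) n) ≤ 2^(-N' n)` for `2^n0 ≥ CN²` -/
theorem rt_gr_ker (M : Mdl) (g : ℝ) (L : M.Loc g) (bm N' : ℕ) :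
    ∃ n0 : ℕ, ∀ (p : M.Par), M.gd p → ∀ n : ℕ, n0 ≤ n → ∀ (T : ℝ) (k : ℕ) (T' : ℝ) (k' b b' : ℕ), CutLe T k T' k' → k' ≤ k + n → b ≤ bm → b' ≤ bm →
      ∀ (S S' : Set (M.sys p).X), MeasurableSet S → MeasurableSet S' → (∀ x ∈ S, ∀ x' ∈ S', ¬ L.cn p (2 ^ ((n : ℝ) / 4)) T k T' k' x x') →
      ∀ F : Lp (M.sys p).Fb 2 ((M.sys p).rho k),
        (M.sys p).ms T' k' b' S' (ContinuousLinearMap.adjoint ((M.sys p).An T k b) ((M.sys p).mulR k (S.indicator fun _ => 1) F))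
          ≤ 2 ^ (-((N' : ℝ) * n)) * ‖F‖ ^ 2 := by
  obtain ⟨c, hc⟩ : ∃ c : ℕ, c = ⌈|L.Cl|⌉₊ := ⟨_, rfl⟩
  obtain ⟨N, hN⟩ : ∃ N : ℕ, N = 2 * N' + 2 + 4 * c := ⟨_, rfl⟩
  refine ⟨⌈(L.CN bm N) ^ 2⌉₊, ?_⟩
  intro p hp n hn T k T' k' b b' hcut hk hb hb' S S' hS hS' hcn F
  have hΛ : (1 : ℝ) ≤ 2 ^ ((n : ℝ) / 4) := Real.one_le_rpow (by norm_num) (by positivity)
  refine (L.ker p hp bm N _ hΛ T k T' k' b b' hcut hb hb' S S' hS hS' hcn F).trans ?_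
  refine mul_le_mul_of_nonneg_right ?_ (by positivity)
  have h1 : ((2 : ℝ) ^ ((n : ℝ) / 4)) ^ (-(N : ℝ)) = 2 ^ (-((n : ℝ) / 4 * N)) := by
    rw [← Real.rpow_mul (by norm_num)]
    congr 1
    ring
  have sq : ∀ x : ℝ, ((2 : ℝ) ^ x) ^ 2 = 2 ^ (2 * x) := by
    intro x
    rw [← Real.rpow_natCast, ← Real.rpow_mul (by norm_num)]
    congr 1
    push_cast
    ring
  rw [h1, mul_pow, mul_pow, sq, sq]
  have hCN : (L.CN bm N) ^ 2 ≤ 2 ^ (n : ℝ) := by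
    calc (L.CN bm N) ^ 2 ≤ (⌈(L.CN bm N) ^ 2⌉₊ : ℝ) := Nat.le_ceil _
      _ ≤ (n : ℝ) := by exact_mod_cast hn
      _ ≤ 2 ^ (n : ℝ) := by
        rw [Real.rpow_natCast]
        exact_mod_cast (Nat.lt_two_pow_self).le
  have hCl : L.Cl * ((k' : ℝ) - k) ≤ c * n := by
    have h0 : 0 ≤ (k' : ℝ) - k := sub_nonneg.mpr (by exact_mod_cast hcut.1)
    have h1 : (k' : ℝ) - k ≤ n := by
      have : (k' : ℝ) ≤ k + n := by exact_mod_cast hk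
      linarith
    have h2 : L.Cl ≤ c := by
      rw [hc]
      exact (le_abs_self _).trans (Nat.le_ceil _)
    calc L.Cl * ((k' : ℝ) - k) ≤ c * ((k' : ℝ) - k) := mul_le_mul_of_nonneg_right h2 h0
      _ ≤ c * n := mul_le_mul_of_nonneg_left h1 (Nat.cast_nonneg _)
  calc (L.CN bm N) ^ 2 * 2 ^ (2 * -((n : ℝ) / 4 * N)) * 2 ^ (2 * (L.Cl * ((k' : ℝ) - k)))
      ≤ 2 ^ (n : ℝ) * 2 ^ (2 * -((n : ℝ) / 4 * N)) * 2 ^ (2 * (L.Cl * ((k' : ℝ) - k))) := by gcongr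
    _ = 2 ^ ((n : ℝ) + 2 * -((n : ℝ) / 4 * N) + 2 * (L.Cl * ((k' : ℝ) - k))) := by
      rw [Real.rpow_add (by norm_num), Real.rpow_add (by norm_num)]
    _ ≤ 2 ^ (-((N' : ℝ) * n)) := by
      refine Real.rpow_le_rpow_of_exponent_le (by norm_num) ?_
      rw [hN]
      push_cast
      nlinarith

/-- **L-256-RT-GR-D7** (100 l., with `rt_gr_root`)   `m_l(u) ≤ ms (cell) u` (`gn_en_le_ms`, `gn_th_mask`, `Valid.th_supp`), `rt_gr_ker` (`gn_cutle_anc`, `Valid.iv_in`), `‖An v‖² ≤ ‖v‖² ≤ e` -/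
theorem rt_gr_far (M : Mdl) (g : ℝ) (L : M.Loc g) (hT : ∀ p, M.gd p → (M.sys p).Tight) (bm N' : ℕ) :
    ∃ n0 : ℕ, ∀ (p : M.Par) (E : Xp (M.sys p)), M.gd p → E.Valid → E.GenLe bm → n0 ≤ E.n → ∀ (S : Set (M.sys p).X) (l : Fin E.L), MeasurableSet S →
      (∀ x ∈ S, ∀ x' ∈ (M.sys p).cell (E.ts l) (tmL E.kf (E.iv l)) E.kf,
        ¬ L.cn p (2 ^ ((E.n : ℝ) / 4)) (tmL E.k0 E.i0) E.k0 (tmL E.kf (E.iv l)) E.kf x x') →
      rtGrMl E l (rtGrRm E S) ≤ E.s ^ (N' : ℝ) * E.e := by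
  obtain ⟨n0, H⟩ := rt_gr_ker M g L bm N'
  refine ⟨n0, fun p E hp hE hG hn S l hS hcn => ?_⟩
  have hcell := (hT p hp).cellM (E.ts l) (tmL E.kf (E.iv l)) E.kf
  have hcut : CutLe (tmL E.k0 E.i0) E.k0 (tmL E.kf (E.iv l)) E.kf := by
    have := gn_cutle_anc (k := E.k0) (k' := E.kf) (Nat.le_add_right _ _) (E.iv l)
    rwa [hE.iv_in l] at this
  have h1 : rtGrMl E l (rtGrRm E S) ≤ (M.sys p).ms (tmL E.kf (E.iv l)) E.kf E.bT ((M.sys p).cell (E.ts l) (tmL E.kf (E.iv l)) E.kf) (rtGrRm E S) :=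
    gn_en_le_ms _ _ _ (gn_th_mask E hE l) hcell (hE.th_supp l) _
  have h2 := H p hp E.n hn _ _ _ _ E.b0 E.bT hcut (le_refl _) hG.1 hG.2.1 S _ hS hcell hcn ((M.sys p).An (tmL E.k0 E.i0) E.k0 E.b0 E.v)
  have h3 : ‖(M.sys p).An (tmL E.k0 E.i0) E.k0 E.b0 E.v‖ ^ 2 ≤ E.e :=
    (pow_le_pow_left₀ (norm_nonneg _) ((hT p hp).contr _ _ _ _) 2).trans hE.budget
  rw [gn_s_rpow]
  refine h1.trans (h2.trans ?_)
  exact mul_le_mul_of_nonneg_left h3 (by positivity)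

/-- reanalysis at the root cut -/
theorem rt_gr_root (M : Mdl) (g : ℝ) (L : M.Loc g) (hT : ∀ p, M.gd p → (M.sys p).Tight) (bm N' : ℕ) :
    ∃ n0 : ℕ, ∀ (p : M.Par) (E : Xp (M.sys p)), M.gd p → E.Valid → E.GenLe bm → n0 ≤ E.n → ∀ (S S' : Set (M.sys p).X) (b' : ℕ), b' ≤ bm → MeasurableSet S →
      MeasurableSet S' → (∀ x ∈ S, ∀ x' ∈ S', ¬ L.cn p (2 ^ ((E.n : ℝ) / 4)) (tmL E.k0 E.i0) E.k0 (tmL E.k0 E.i0) E.k0 x x') →
      (M.sys p).ms (tmL E.k0 E.i0) E.k0 b' S' (rtGrRm E S) ≤ E.s ^ (N' : ℝ) * E.e := by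
  obtain ⟨n0, H⟩ := rt_gr_ker M g L bm N'
  refine ⟨n0, fun p E hp hE hG hn S S' b' hb' hS hS' hcn => ?_⟩
  have h2 := H p hp E.n hn _ _ _ _ E.b0 b' (gn_cutle_refl (tmL E.k0 E.i0) E.k0) (Nat.le_add_right _ _) hG.1 hb' S S' hS hS' hcn
    ((M.sys p).An (tmL E.k0 E.i0) E.k0 E.b0 E.v)
  have h3 : ‖(M.sys p).An (tmL E.k0 E.i0) E.k0 E.b0 E.v‖ ^ 2 ≤ E.e :=
    (pow_le_pow_left₀ (norm_nonneg _) ((hT p hp).contr _ _ _ _) 2).trans hE.budget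
  rw [gn_s_rpow]
  refine h2.trans ?_
  exact mul_le_mul_of_nonneg_left h3 (by positivity)

/-- `(√a + √b)² ≤ 2a + 2b` in the form used for the seminorm `√en` -/
theorem rt_gr_pred_sq {x a b A B : ℝ} (hx : 0 ≤ x) (ha : 0 ≤ a) (hb : 0 ≤ b) (h : Real.sqrt x ≤ Real.sqrt a + Real.sqrt b) (hA : a ≤ A) (hB : b ≤ B) :
    x ≤ 2 * A + 2 * B := by
  have h1 : x = Real.sqrt x ^ 2 := (Real.sq_sqrt hx).symm
  have h2 : Real.sqrt a ^ 2 = a := Real.sq_sqrt ha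
  have h3 : Real.sqrt b ^ 2 = b := Real.sq_sqrt hb
  have h4 := Real.sqrt_nonneg x
  have h5 := Real.sqrt_nonneg a
  have h6 := Real.sqrt_nonneg b
  have h7 : Real.sqrt x ^ 2 ≤ (Real.sqrt a + Real.sqrt b) ^ 2 := pow_le_pow_left₀ h4 h 2
  nlinarith [sq_nonneg (Real.sqrt a - Real.sqrt b)]

/-- the root state is the sum of its two root masks -/
theorem rt_gr_pred_split (hT : P.Tight) (E : Xp P) (hE : E.Valid) {U : Set P.X} (hU : MeasurableSet U) : rtGrRm E U + rtGrRm E Uᶜ = E.v := by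
  have h := gn_tz_part hT (tmL E.k0 E.i0) E.k0 E.b0 hE.plat (Finset.univ : Finset Bool)
    (fun j => cond j (U.indicator fun _ => (1 : ℝ)) (Uᶜ.indicator fun _ => (1 : ℝ)))
    (fun j _ => by cases j; exact gn_mask_ind hU.compl; exact gn_mask_ind hU)
    (fun x => by
      rw [Fintype.sum_bool]
      by_cases hx : x ∈ U <;> simp [hx])
  rw [Fintype.sum_bool] at h
  exact h

/-- the norm of a root mask -/
theorem rt_gr_pred_norm (hT : P.Tight) (E : Xp P) {S : Set P.X} (hS : MeasurableSet S) : ‖rtGrRm E S‖ ^ 2 ≤ rtGrMu E S := by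
  refine (gn_tz_normsq_le hT _ _ _ (gn_mask_ind hS) _).trans (le_of_eq ?_)
  unfold rtGrMu PkSys.ms
  congr 1
  ext x
  by_cases hx : x ∈ S <;> simp [hx]

/-- **L-256-RT-GR-D8** (220 l.)   PREDECESSORS.   For ONE final interval `i`: `θ = Σ_{l ∈ Λs, iv l = i} th l` is a mask (`Valid.th_sum`) supported in the union `S'` of the cells;   `Σ m_l = en θ v` (`gn_en_sum`);
`v = An^*1_U An v + An^*1_{Uᶜ} An v` (`gn_tz_part`);   `en θ (first) ≤ ‖·‖² ≤ μ₀(U)`;   `en θ (second) ≤ ms S' ≤ s^N e` (ONE use of `rt_gr_ker`);   `(a+b)² ≤ 2a² + 2b²`;   sum over the `2^n` intervals (`gn_mem_ivs`, `gn_ivs_card`). -/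
theorem rt_gr_pred (M : Mdl) (g : ℝ) (L : M.Loc g) (hT : ∀ p, M.gd p → (M.sys p).Tight) (bm N' : ℕ) :
    ∃ n0 : ℕ, ∀ (p : M.Par) (E : Xp (M.sys p)), M.gd p → E.Valid → E.GenLe bm → E.st = [] → n0 ≤ E.n → ∀ (U : Set (M.sys p).X) (Λs : Finset (Fin E.L)), MeasurableSet U →
      (∀ l ∈ Λs, ∀ x ∉ U, ∀ x' ∈ (M.sys p).cell (E.ts l) (tmL E.kf (E.iv l)) E.kf,
        ¬ L.cn p (2 ^ ((E.n : ℝ) / 4)) (tmL E.k0 E.i0) E.k0 (tmL E.kf (E.iv l)) E.kf x x') →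
      ∑ l ∈ Λs, E.m l ≤ 2 ^ E.n * (2 * rtGrMu E U + 2 * (E.s ^ (N' : ℝ) * E.e)) := by
  obtain ⟨n0, H⟩ := rt_gr_ker M g L bm N'
  refine ⟨n0, ?_⟩
  intro p E hp hE hgen hst hn U Λs hU hcn
  classical
  have hTp := hT p hp
  have hk : E.k0 ≤ E.kf := Nat.le_add_right _ _
  -- one interval
  have key : ∀ i ∈ ivs E.k0 E.i0 E.kf, ∑ l ∈ Λs.filter (fun l => E.iv l = i), E.m l ≤ 2 * rtGrMu E U + 2 * (E.s ^ (N' : ℝ) * E.e) := by
    intro i hi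
    rw [gn_mem_ivs] at hi
    have hθ : IsMask (fun x => ∑ l ∈ Λs.filter (fun l => E.iv l = i), E.th l x) := by
      refine ⟨Finset.measurable_sum _ fun l _ => hE.th_meas l, fun x => ⟨Finset.sum_nonneg fun l _ => hE.th_nn l x, ?_⟩⟩
      refine le_trans ?_ (hE.th_sum i x)
      rw [← Finset.sum_filter]
      refine Finset.sum_le_sum_of_subset_of_nonneg ?_ fun l _ _ => hE.th_nn l x
      intro l hl
      rw [Finset.mem_filter] at hl ⊢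
      exact ⟨Finset.mem_univ _, hl.2⟩
    have hS' : MeasurableSet (⋃ l ∈ Λs.filter (fun l => E.iv l = i), (M.sys p).cell (E.ts l) (tmL E.kf i) E.kf) :=
      Finset.measurableSet_biUnion _ fun l _ => hTp.cellM _ _ _
    have e1 : ∑ l ∈ Λs.filter (fun l => E.iv l = i), E.m l
        = (M.sys p).en (tmL E.kf i) E.kf E.bT (fun x => ∑ l ∈ Λs.filter (fun l => E.iv l = i), E.th l x) E.v := by
      rw [gn_en_sum _ _ _ _ _ (fun l _ => gn_th_mask E hE l)]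
      refine Finset.sum_congr rfl fun l hl => ?_
      rw [rt_gr_free_m E hst l]
      unfold rtGrMl
      rw [(Finset.mem_filter.1 hl).2]
    rw [e1]
    have hsplit := rt_gr_pred_split hTp E hE hU
    have htri := gn_en_tri (P := M.sys p) (tmL E.kf i) E.kf E.bT hθ (rtGrRm E U) (rtGrRm E Uᶜ)
    rw [hsplit] at htri
    refine rt_gr_pred_sq (gn_en_nonneg _ _ _ (fun x => (hθ.2 x).1) _) (gn_en_nonneg _ _ _ (fun x => (hθ.2 x).1) _)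
      (gn_en_nonneg _ _ _ (fun x => (hθ.2 x).1) _) htri ?_ ?_
    · exact (gn_en_le hTp _ _ _ hθ _).trans (rt_gr_pred_norm hTp E hU)
    · refine (gn_en_le_ms _ _ _ hθ hS' ?_ _).trans ?_
      · intro x hx
        obtain ⟨l, hl, hlx⟩ := Finset.exists_ne_zero_of_sum_ne_zero hx
        have h1 := hE.th_supp l x hlx
        rw [(Finset.mem_filter.1 hl).2] at h1
        exact Set.mem_biUnion hl h1
      · have hc : CutLe (tmL E.k0 E.i0) E.k0 (tmL E.kf i) E.kf := by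
          have := gn_cutle_anc hk i
          rwa [hi] at this
        have h2 := H p hp E.n hn (tmL E.k0 E.i0) E.k0 (tmL E.kf i) E.kf E.b0 E.bT hc le_rfl hgen.1 hgen.2.1 Uᶜ
          (⋃ l ∈ Λs.filter (fun l => E.iv l = i), (M.sys p).cell (E.ts l) (tmL E.kf i) E.kf) hU.compl hS' (by
            intro x hx x' hx'
            rw [Set.mem_iUnion₂] at hx'
            obtain ⟨l, hl, hlx⟩ := hx'
            have h3 := hcn l (Finset.mem_filter.1 hl).1 x hx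
            rw [(Finset.mem_filter.1 hl).2] at h3
            exact h3 x' hlx) ((M.sys p).An (tmL E.k0 E.i0) E.k0 E.b0 E.v)
        refine h2.trans ?_
        rw [gn_s_rpow]
        refine mul_le_mul_of_nonneg_left ?_ (gn_two_pos _).le
        refine le_trans ?_ hE.budget
        exact pow_le_pow_left₀ (norm_nonneg _) (hTp.contr _ _ _ _) 2
  have hmaps : ∀ l ∈ Λs, E.iv l ∈ ivs E.k0 E.i0 E.kf := fun l _ => (gn_mem_ivs _ _ _ _).2 (hE.iv_in l)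
  rw [← Finset.sum_fiberwise_of_maps_to hmaps]
  refine (Finset.sum_le_sum key).trans (le_of_eq ?_)
  rw [Finset.sum_const, gn_ivs_card, nsmul_eq_mul]
  have : E.kf - E.k0 = E.n := Nat.add_sub_cancel_left _ _
  rw [this]
  push_cast
  ring

/-! ## 4. few active intervals -/

/-- **L-256-RT-GR-D9** (350 l.)   FEW ACTIVE INTERVALS.      `k1 = k0 + j1`, `n' = n - j1 ≥ n/2`.   `E.CutAt k1 [] []`, `E.at' k1 i [] = v`.   Regularity at `(tmL k1 i, k1)`: `κ1 = Cs 2^((ε-1) j1) κ` (`gn_stack_reg_pl`, empty stack, `c = b' = b0`);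
class of the tails: `gn_tail_cls C (a0 = 1/2)` (`s^C κ ≤ κ1 ≤ s^-C κ` for `C ≥ 1`, `n ≥ n0`; enlarge `C` by `gn_cls_mono` if `C = 0`);   `hΓ` at `(C', ε)`: `val (tl_i) ≤ 2^((Γ+ε) n')`;
`rd E = Σ_{i ∈ ivs} Σ_{l below i} tr l` (`gn_sum_below`), zero for `i ∉ I`, `= rd (tl_i) = 2^(-n'/2) eb √κ1 val (tl_i)` (`gn_tl_rd`, `gn_rd_of_val`), `eb ≤ e` (`gn_eb_facts`).
Result: `val E ≤ #I √Cs 2^(j1/2) 2^((ε-1) j1/2) 2^((Γ+ε) n')`. -/
theorem rt_gr_few (M : Mdl) (L : M.Loc 1) (hG : M.Gen 1) (Γ : ℝ) (hΓ : M.Rate Γ) (C : ℕ) (ε : ℝ) (hε : 0 < ε) :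
    ∃ (Cq : ℝ) (A n0 : ℕ), 0 < Cq ∧ ∀ (p : M.Par) (E : Xp (M.sys p)), n0 ≤ E.n → M.Cls C A p E → E.st = [] → ∀ (j1 : ℕ) (I : Finset ℕ), 2 * j1 ≤ E.n →
      (∀ l, ancI E.kf (E.k0 + j1) (E.iv l) ∈ I) → E.val ≤ I.card * Cq * 2 ^ (ε * E.n) * 2 ^ ((Γ + ε) * ((E.n : ℝ) - j1)) := by
  classical
  obtain ⟨η, hη0, hη1, hηε⟩ : ∃ η : ℝ, 0 < η ∧ η ≤ 1 ∧ η ≤ ε := ⟨min ε 1, lt_min hε one_pos, min_le_right _ _, min_le_left _ _⟩
  obtain ⟨Cs, hCs, HS⟩ := gn_stack_reg_pl M 1 L hG.tight (C + 1) 0 η hη0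
  obtain ⟨C', HC⟩ := gn_tail_cls M 1 hG (C + 1) (1 / 2) (by norm_num)
  obtain ⟨A', n0', HR⟩ := hΓ C' η hη0
  obtain ⟨A, n0, HA⟩ := HC A'
  obtain ⟨n1, Hn1⟩ := gn_absorb Cs 1 one_pos
  have hCs0 : 0 < Cs := by linarith
  refine ⟨Real.sqrt Cs, A, max n0 (max (2 * n0') n1), Real.sqrt_pos.mpr hCs0, ?_⟩
  intro p E hn hE hst j1 I hj hI
  have hn0 : n0 ≤ E.n := (le_max_left _ _).trans hn
  have hn0' : 2 * n0' ≤ E.n := ((le_max_left _ _).trans (le_max_right _ _)).trans hn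
  have hn1 : n1 ≤ E.n := ((le_max_right _ _).trans (le_max_right _ _)).trans hn
  have hE1 : M.Cls (C + 1) A p E := gn_cls_mono M hG.scale (Nat.le_succ C) hE
  have hT := hG.tight p hE.1
  have hV := hE.2.1
  have hb0 : E.b0 ≤ C + 1 := hE1.2.2.2.1.1
  obtain ⟨k1, hk1⟩ : ∃ k1 : ℕ, k1 = E.k0 + j1 := ⟨_, rfl⟩
  rw [← hk1] at hI
  have hk0 : E.k0 ≤ k1 := by omega
  have hkf : k1 ≤ E.kf := by unfold Xp.kf; omega
  have hc : E.CutAt k1 [] [] := ⟨by rw [hst]; rfl, by simp, by simp, hk0, hkf⟩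
  have hnn : E.kf - k1 = E.n - j1 := by unfold Xp.kf; omega
  have hcast : ((E.kf - k1 : ℕ) : ℝ) = (E.n : ℝ) - j1 := by rw [hnn, Nat.cast_sub (by omega)]
  have hjn : (2 : ℝ) * j1 ≤ E.n := by exact_mod_cast hj
  have hj0 : (0 : ℝ) ≤ j1 := Nat.cast_nonneg _
  have hnR : (0 : ℝ) ≤ E.n := Nat.cast_nonneg _
  obtain ⟨κ1, hκ1⟩ : ∃ κ1 : ℝ, κ1 = Cs * 2 ^ ((η - 1) * (j1 : ℝ)) * E.ka := ⟨_, rfl⟩
  have hκ1pos : 0 < κ1 := by
    rw [hκ1]; exact mul_pos (mul_pos hCs0 (gn_two_pos _)) hV.ka_pos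
  have hreg : ∀ i ∈ ivs E.k0 E.i0 k1, (M.sys p).Reg (tmL k1 i) k1 E.b0 κ1 (E.at' k1 i []) := by
    intro i hi
    have h1 := HS p k1 i E.k0 E.b0 E.b0 [] E.ka E.v hE.1 ⟨by simp, by simp, List.Pairwise.nil, by simp, by simp⟩ hk0 hb0 hb0
      hV.ka_pos.le hV.plat (by rw [(gn_mem_ivs _ _ _ _).1 hi]; exact hV.reg)
    have e : ((k1 : ℕ) : ℝ) - E.k0 = j1 := by rw [hk1]; push_cast; ring
    rw [e, ← hκ1] at h1
    exact h1
  have hlo : E.s ^ ((C + 1 : ℕ) : ℝ) * E.ka ≤ κ1 := by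
    rw [hκ1]
    refine mul_le_mul_of_nonneg_right ?_ hV.ka_pos.le
    rw [gn_s_rpow]
    have h1 : (2 : ℝ) ^ (-(((C + 1 : ℕ) : ℝ) * E.n)) ≤ 2 ^ ((η - 1) * (j1 : ℝ)) := by
      apply gn_two_mono
      push_cast
      have hC0 : (0 : ℝ) ≤ C := Nat.cast_nonneg _
      nlinarith [mul_nonneg hC0 hnR, mul_nonneg hη0.le hj0]
    have h2 : (2 : ℝ) ^ ((η - 1) * (j1 : ℝ)) ≤ Cs * 2 ^ ((η - 1) * (j1 : ℝ)) :=
      le_mul_of_one_le_left (gn_two_pos _).le hCs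
    exact h1.trans h2
  have hhi : κ1 ≤ E.s ^ (-((C + 1 : ℕ) : ℝ)) * E.ka := by
    rw [hκ1]
    refine mul_le_mul_of_nonneg_right ?_ hV.ka_pos.le
    rw [gn_s_rpow]
    have h1 : Cs ≤ 2 ^ ((1 : ℝ) * E.n) := Hn1 E.n hn1
    have h2 : (2 : ℝ) ^ ((η - 1) * (j1 : ℝ)) ≤ 1 := by
      have : (2 : ℝ) ^ ((η - 1) * (j1 : ℝ)) ≤ 2 ^ (0 : ℝ) := gn_two_mono (by nlinarith)
      simpa using this
    have h3 : (2 : ℝ) ^ ((1 : ℝ) * E.n) ≤ 2 ^ (-(-((C + 1 : ℕ) : ℝ) * E.n)) := by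
      apply gn_two_mono
      push_cast
      have hC0 : (0 : ℝ) ≤ C := Nat.cast_nonneg _
      nlinarith [mul_nonneg hC0 hnR]
    calc Cs * 2 ^ ((η - 1) * (j1 : ℝ)) ≤ Cs * 1 := mul_le_mul_of_nonneg_left h2 hCs0.le
      _ = Cs := mul_one _
      _ ≤ _ := h1.trans h3
  have hhalf : (1 / 2 : ℝ) * E.n ≤ ((E.kf - k1 : ℕ) : ℝ) := by rw [hcast]; linarith
  have hf := gn_eb_facts hT E hV (C + 1) hc
  obtain ⟨B, hB⟩ : ∃ B : ℝ, B = 2 ^ (-(((E.kf - k1 : ℕ) : ℝ) / 2)) * (E.e * Real.sqrt κ1) * 2 ^ ((Γ + η) * ((E.kf - k1 : ℕ) : ℝ)) := ⟨_, rfl⟩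
  have hB0 : 0 ≤ B := by
    rw [hB]
    exact mul_nonneg (mul_nonneg (gn_two_pos _).le (mul_nonneg hV.e_pos.le (Real.sqrt_nonneg _))) (gn_two_pos _).le
  have hpiece : ∀ i ∈ ivs E.k0 E.i0 k1, ∑ l ∈ Finset.univ ∩ E.below k1 i, E.tr l ≤ if i ∈ I then B else 0 := by
    intro i hi
    by_cases hiI : i ∈ I
    · rw [if_pos hiI]
      have hcls := HA p E hn0 hE1 k1 E.b0 i [] [] κ1 (Finset.univ ∩ E.below k1 i) hc hhalf hb0 hlo hhi hi hV.plat (hreg i hi)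
        Finset.inter_subset_right
      have hval := HR p _ (by show n0' ≤ E.kf - k1; omega) hcls
      rw [← gn_tl_rd E hc i (E.eb (C + 1) (E.at' k1 i [])) κ1 E.b0 (Finset.univ ∩ E.below k1 i) Finset.inter_subset_right,
        gn_rd_of_val _ hcls.2.1, hB]
      have h3 : (0 : ℝ) ≤ 2 ^ (-(((E.kf - k1 : ℕ) : ℝ) / 2)) := (gn_two_pos _).le
      have h4 : E.eb (C + 1) (E.at' k1 i []) * Real.sqrt κ1 ≤ E.e * Real.sqrt κ1 :=
        mul_le_mul_of_nonneg_right (hf.1 i).2.2.2 (Real.sqrt_nonneg _)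
      have h5 : (0 : ℝ) ≤ E.eb (C + 1) (E.at' k1 i []) * Real.sqrt κ1 := mul_nonneg (hf.1 i).1.le (Real.sqrt_nonneg _)
      exact mul_le_mul (mul_le_mul_of_nonneg_left h4 h3) hval (gn_val_nonneg _ hcls.2.1)
        (mul_nonneg h3 (mul_nonneg hV.e_pos.le (Real.sqrt_nonneg _)))
    · rw [if_neg hiI]
      refine le_of_eq (Finset.sum_eq_zero ?_)
      intro l hl
      exfalso
      have h1 := (Finset.mem_inter.1 hl).2
      unfold Xp.below at h1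
      rw [Finset.mem_filter] at h1
      exact hiI (h1.2 ▸ hI l)
  have hrd : E.rd ≤ (I.card : ℝ) * B := by
    rw [gn_rd_eq, gn_sum_below E hV hk0 hkf Finset.univ]
    refine (Finset.sum_le_sum hpiece).trans ?_
    rw [← Finset.sum_filter, Finset.sum_const, nsmul_eq_mul]
    refine mul_le_mul_of_nonneg_right ?_ hB0
    have : ((ivs E.k0 E.i0 k1).filter fun i => i ∈ I).card ≤ I.card := Finset.card_le_card (fun i hi => (Finset.mem_filter.1 hi).2)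
    exact_mod_cast this
  -- the arithmetic
  have hsq : Real.sqrt κ1 = Real.sqrt Cs * 2 ^ ((η - 1) * (j1 : ℝ) / 2) * Real.sqrt E.ka := by
    rw [hκ1, Real.sqrt_mul (mul_nonneg hCs0.le (gn_two_pos _).le), Real.sqrt_mul hCs0.le, gn_two_sqrt]
  have hska : 0 < Real.sqrt E.ka := Real.sqrt_pos.mpr hV.ka_pos
  have hpre : (0 : ℝ) ≤ 2 ^ ((E.n : ℝ) / 2) / (E.e * Real.sqrt E.ka) :=
    div_nonneg (gn_two_pos _).le (mul_nonneg hV.e_pos.le hska.le)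
  unfold Xp.val
  calc 2 ^ ((E.n : ℝ) / 2) / (E.e * Real.sqrt E.ka) * E.rd
      ≤ 2 ^ ((E.n : ℝ) / 2) / (E.e * Real.sqrt E.ka) * ((I.card : ℝ) * B) := mul_le_mul_of_nonneg_left hrd hpre
    _ = (I.card : ℝ) * Real.sqrt Cs * (2 ^ ((E.n : ℝ) / 2) * 2 ^ (-(((E.n : ℝ) - j1) / 2)) * 2 ^ ((η - 1) * (j1 : ℝ) / 2))
          * 2 ^ ((Γ + η) * ((E.n : ℝ) - j1)) := by
        rw [hB, hsq, hcast]
        have he := hV.e_pos.ne'
        have hk := hska.ne'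
        field_simp
    _ = (I.card : ℝ) * Real.sqrt Cs * 2 ^ (η * (j1 : ℝ) / 2) * 2 ^ ((Γ + η) * ((E.n : ℝ) - j1)) := by
        rw [← gn_two_add, ← gn_two_add]
        congr 3
        ring
    _ ≤ (I.card : ℝ) * Real.sqrt Cs * 2 ^ (ε * E.n) * 2 ^ ((Γ + ε) * ((E.n : ℝ) - j1)) := by
        have h1 : (2 : ℝ) ^ (η * (j1 : ℝ) / 2) ≤ 2 ^ (ε * E.n) := by
          apply gn_two_mono
          have : η * (j1 : ℝ) ≤ ε * E.n := mul_le_mul hηε (by linarith) hj0 hε.le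
          nlinarith [mul_nonneg hη0.le hj0]
        have h2 : (2 : ℝ) ^ ((Γ + η) * ((E.n : ℝ) - j1)) ≤ 2 ^ ((Γ + ε) * ((E.n : ℝ) - j1)) := by
          apply gn_two_mono
          exact mul_le_mul_of_nonneg_right (by linarith) (by linarith)
        have h0 : (0 : ℝ) ≤ (I.card : ℝ) * Real.sqrt Cs := mul_nonneg (Nat.cast_nonneg _) (Real.sqrt_nonneg _)
        exact mul_le_mul (mul_le_mul_of_nonneg_left h1 h0) h2 (gn_two_pos _).le (mul_nonneg h0 (gn_two_pos _).le)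

/-- **L-256-RT-GR-D10** (100 l.)   labels read within `ℓ₀ 2^-j1` of each other lie under at most three intervals of depth `k0 + j1`
(`ancI kf k1 i = ⌊tmL kf i · 2^k1⌋`; `|x - y| ≤ 1 ⇒ |⌊x⌋ - ⌊y⌋| ≤ 1`; `I = {a-1, a, a+1}` for the index `a` of one label, `I = ∅` if there is none) -/
theorem rt_gr_three (k0 n j1 : ℕ) (hj : j1 ≤ n) {ι : Type} (iv : ι → ℕ) (h : ∀ l l', |tmL (k0 + n) (iv l) - tmL (k0 + n) (iv l')| ≤ rdLen k0 * (2 : ℝ)⁻¹ ^ j1) :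
    ∃ I : Finset ℕ, I.card ≤ 3 ∧ ∀ l, ancI (k0 + n) (k0 + j1) (iv l) ∈ I := by
  classical
  obtain ⟨d, rfl⟩ := Nat.exists_eq_add_of_le hj
  have hd : k0 + (j1 + d) - (k0 + j1) = d := by omega
  have key : ∀ l l', iv l ≤ iv l' + 2 ^ d := by
    intro l l'
    have h1 := (abs_le.1 (h l l')).2
    unfold tmL rdLen at h1
    have e : (2 : ℝ) ^ (k0 + (j1 + d)) = 2 ^ k0 * 2 ^ j1 * 2 ^ d := by rw [pow_add, pow_add]; ring
    rw [← sub_div, div_le_iff₀ (by positivity), e, inv_pow, inv_pow] at h1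
    have e2 : ((2 : ℝ) ^ k0)⁻¹ * ((2 : ℝ) ^ j1)⁻¹ * (2 ^ k0 * 2 ^ j1 * 2 ^ d) = 2 ^ d := by
      field_simp
    rw [e2] at h1
    have h2 : (iv l : ℝ) ≤ ((iv l' + 2 ^ d : ℕ) : ℝ) := by
      push_cast
      linarith
    exact_mod_cast h2
  have hdiv : ∀ l l', iv l / 2 ^ d ≤ iv l' / 2 ^ d + 1 := by
    intro l l'
    have := Nat.div_le_div_right (c := 2 ^ d) (key l l')
    rwa [Nat.add_div_right _ (by positivity)] at this
  by_cases hne : Nonempty ι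
  · obtain ⟨l0⟩ := hne
    refine ⟨{iv l0 / 2 ^ d - 1, iv l0 / 2 ^ d, iv l0 / 2 ^ d + 1}, Finset.card_le_three, fun l => ?_⟩
    unfold ancI
    rw [hd]
    have h1 := hdiv l l0
    have h2 := hdiv l0 l
    simp only [Finset.mem_insert, Finset.mem_singleton]
    generalize iv l / 2 ^ d = p at h1 h2 ⊢
    generalize iv l0 / 2 ^ d = q at h1 h2 ⊢
    omega
  · exact ⟨∅, by simp, fun l => absurd ⟨l⟩ hne⟩

end Claimed.Agent.R256
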