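-- KEEP
import Claimed.Agent.R256.Rt.Grp.Defs

/-!
# Row 256 (LS paper), folder Rt, block GROUP, file Grp/Geo : THE GEOMETRY OF CELLS, PARENTS, PREDECESSORS          (architect helper111; prefix `rt_gr_`)          CONTRACT: the `sorry`s are the leaves `L-256-RT-GR-G*`

MODEL FREE, no measure, Mathlib + `Rt/Tests`, `Rt/Chart`, `Rt/ChartContract` only.   Prove a leaf IN PLACE, statement verbatim (helper lemmas above it, names `rt_gr_*`).   Absolute constants are EXISTENTIAL: choose them as large as you like.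
Notation: `δ = ℓf/ℓ₀ = 2^-n`, `ρ = r_l / r ∈ [1/2, 1]`, `θ = t_l/ℓ₀ ∈ [0,1]`, `w = G.nrm c q = (V, x, z)` (fields `A, b, y`), `q̃ = q.flow (t l)`, `τ = G.τ l`.
PROVED here: `rt_gr_m_spec`, the EXACT formulas  `k^ψ = k_Q/(δρ)`,  `β^ψ + θ k^ψ = β_Q/ρ`,  `G^ψ(w) = ρ G^τ(q̃)`,  `F^ψ(w) = δρ F^τ(q̃) - θρ G^τ(q̃)`,  `disc = 1`.
-/

set_option autoImplicit false

namespace Claimed.Agent.R256

/-! ## 0. exact formulas (proved) -/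

theorem rt_gr_m_spec (T0 : ℝ) (k : ℕ) (T : ℝ) (Q : RdTst) (hr : Q.r ≠ 0) :
    (rtLabCh T0 k T Q).pol (rtGrM (T - T0) (rdLen k) Q) = Q.n := by
  have hl : rdLen k ≠ 0 := (rdLen_pos k).ne'
  obtain ⟨r, f, As, bs, ys, n⟩ := Q
  obtain ⟨c, d, al, be, kk⟩ := n
  simp only [rtLabCh, rtNrm, RtCh.comp, rtChSc, rtChCen, rtChTr, rtGrM, RdTst.cen, RtPoly.cen, RtPoly.F, RtPoly.G, RtPoly.g, rtIp, rtSq] at *
  generalize rdLen k = l at *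
  ext <;> simp <;> field_simp <;> ring

theorem rt_gr_l0_pos (G : RtGrG) : 0 < G.l0 := rdLen_pos _

theorem rt_gr_lf_pos (G : RtGrG) : 0 < G.lf := rdLen_pos _

/-- `ℓf = 2^-n ℓ₀` -/
theorem rt_gr_lf_eq (G : RtGrG) : G.lf = (2 : ℝ)⁻¹ ^ G.n * G.l0 := by
  unfold RtGrG.lf RtGrG.l0 rdLen
  rw [pow_add]
  ring

theorem rt_gr_par_k (G : RtGrG) (c : Fin 5 → ℤ) (l : Fin G.L) :
    (G.par c l).k = (G.Q l).n.k * (G.l0 * G.r) / (G.lf * (G.Q l).r) := by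
  simp only [RtGrG.par, RtGrG.N, rtNrm, RtCh.comp, rtChSc, rtChCen, rtChTr, rtGrM, RtPoly.cen]
  field_simp

theorem rt_gr_par_be (G : RtGrG) (c : Fin 5 → ℤ) (l : Fin G.L) :
    (G.par c l).be + G.t l / G.l0 * (G.par c l).k = (G.Q l).n.be * G.r / (G.Q l).r := by
  have hl0 : G.l0 ≠ 0 := (rt_gr_l0_pos G).ne'
  simp only [RtGrG.par, RtGrG.N, rtNrm, RtCh.comp, rtChSc, rtChCen, rtChTr, rtGrM, RtPoly.cen]
  field_simp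
  ring

theorem rt_gr_par_G (G : RtGrG) (hr : G.r ≠ 0) (c : Fin 5 → ℤ) (l : Fin G.L) (hrl : (G.Q l).r ≠ 0) (q : RtRow) :
    (G.par c l).G 0 (G.nrm c q).b (G.nrm c q).y (G.nrm c q).A = (G.Q l).r / G.r * (G.τ l).Gv (q.flow (G.t l)) := by
  have hl0 : G.l0 ≠ 0 := (rt_gr_l0_pos G).ne'
  have hlf : G.lf ≠ 0 := (rt_gr_lf_pos G).ne'
  have e : rdLen (G.k0 + G.n) = G.lf := rfl
  simp only [RtGrG.par, RtGrG.nrm, RtGrG.N, RtGrG.τ, RdTst.toT, rtNrm, RtCh.comp, rtChSc, rtChCen, rtChTr, rtGrM, RtPoly.cen, RtTest.Gv, RtTest.x, RtTest.z, RtTest.V,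
    RtPoly.F, RtPoly.G, RtPoly.g, rtIp, rtSq, RtRow.flow, rtCfRowCen, RdFrm.cen, e]
  generalize G.frm c = ψ
  generalize G.Q l = Q at *
  generalize G.t l = t
  generalize G.lf = lf at *
  generalize G.l0 = l0 at *
  generalize G.r = r at *
  simp
  field_simp
  ring

theorem rt_gr_par_F (G : RtGrG) (hr : G.r ≠ 0) (c : Fin 5 → ℤ) (l : Fin G.L) (hrl : (G.Q l).r ≠ 0) (q : RtRow) :
    (G.par c l).F 0 (G.nrm c q).b (G.nrm c q).y = G.lf / G.l0 * ((G.Q l).r / G.r) * (G.τ l).Fv (q.flow (G.t l))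
      - G.t l / G.l0 * ((G.Q l).r / G.r) * (G.τ l).Gv (q.flow (G.t l)) := by
  have hl0 : G.l0 ≠ 0 := (rt_gr_l0_pos G).ne'
  have hlf : G.lf ≠ 0 := (rt_gr_lf_pos G).ne'
  have e : rdLen (G.k0 + G.n) = G.lf := rfl
  simp only [RtGrG.par, RtGrG.nrm, RtGrG.N, RtGrG.τ, RdTst.toT, rtNrm, RtCh.comp, rtChSc, rtChCen, rtChTr, rtGrM, RtPoly.cen, RtTest.Gv, RtTest.Fv, RtTest.x, RtTest.z, RtTest.V,
    RtPoly.F, RtPoly.G, RtPoly.g, rtIp, rtSq, RtRow.flow, rtCfRowCen, RdFrm.cen, e]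
  generalize G.frm c = ψ
  generalize G.Q l = Q at *
  generalize G.t l = t
  generalize G.lf = lf at *
  generalize G.l0 = l0 at *
  generalize G.r = r at *
  simp
  field_simp
  ring

theorem rt_gr_par_disc (G : RtGrG) (hr : G.r ≠ 0) (c : Fin 5 → ℤ) (l : Fin G.L) (hrl : (G.Q l).r ≠ 0) : (G.par c l).disc = (G.Q l).n.disc := by
  have hl0 : G.l0 ≠ 0 := (rt_gr_l0_pos G).ne'
  have hlf : G.lf ≠ 0 := (rt_gr_lf_pos G).ne'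
  unfold RtGrG.par RtGrG.N rtNrm rtGrM
  show ((rtChSc G.l0 G.r).pol ((rtChCen (G.frm c).cen).pol _)).disc = _
  rw [(rt_ch_sc_ex G.l0 G.r hl0 hr).disc, (rt_ch_cen_ex _).disc, (rt_ch_tr_ex _).disc, (rt_ch_cen_ex _).disc,
    (rt_ch_sc_ex _ _ (inv_ne_zero hlf) (inv_ne_zero hrl)).disc]

/-- the normalised row, written out -/
theorem rt_gr_nrm_eq (G : RtGrG) (c : Fin 5 → ℤ) (q : RtRow) :
    G.nrm c q = ⟨G.r⁻¹ • (q.A - (G.frm c).As), (G.l0 * G.r)⁻¹ • (q.b - (G.frm c).bs),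
      (q.y - (G.frm c).ys - 2 * rtIp (G.frm c).As (q.b - (G.frm c).bs)) / (G.l0 * G.r ^ 2)⟩ := rfl

/-- linearity of `F`, `G` in the coefficients -/
theorem rt_gr_comb_F (a : ℝ) (n : RtPoly) (b : ℝ) (n' : RtPoly) (u : ℝ) (x : ℝ × ℝ) (z : ℝ) :
    (RtPoly.comb a n b n').F u x z = a * n.F u x z + b * n'.F u x z := by
  simp only [RtPoly.comb, RtPoly.F, rtIp, Prod.fst_add, Prod.snd_add, Prod.smul_fst, Prod.smul_snd, smul_eq_mul]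
  ring

theorem rt_gr_comb_G (a : ℝ) (n : RtPoly) (b : ℝ) (n' : RtPoly) (u : ℝ) (x : ℝ × ℝ) (z : ℝ) (V : ℝ × ℝ) :
    (RtPoly.comb a n b n').G u x z V = a * n.G u x z V + b * n'.G u x z V := by
  simp only [RtPoly.comb, RtPoly.G, rtIp, Prod.fst_add, Prod.snd_add, Prod.fst_sub, Prod.snd_sub, Prod.smul_fst, Prod.smul_snd, smul_eq_mul]
  ring

/-! ## 1. evaluation of polynomials on bounded rows -/

/-- **L-256-RT-GR-G1** (40 l.)   `|F| ≤ M(1 + R + R + R²)`, `|G| ≤ M(1 + R + R(1 + 2R) + R²)`;   tools `rtIp_abs_le`, `rt_chp_*` of `Rt/ChartContract.lean` -/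
theorem rt_gr_eval {n : RtPoly} {M R : ℝ} (hR : 1 ≤ R) (hM : 0 ≤ M) (hn : n.Bd M) {w : RtRow} (hA : rtSq w.A ≤ R ^ 2) (hb : rtSq w.b ≤ R ^ 2)
    (hy : |w.y| ≤ R) : |n.F 0 w.b w.y| ≤ 4 * R ^ 2 * M ∧ |n.G 0 w.b w.y w.A| ≤ 6 * R ^ 2 * M := by
  obtain ⟨hc, hd, hal, hbe, hk⟩ := hn
  have hR0 : 0 ≤ R := by linarith
  have hRR : R ≤ R ^ 2 := by nlinarith
  have h1R : 1 ≤ R ^ 2 := by nlinarith
  have a1 := mul_le_mul_of_nonneg_left hRR hM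
  have a2 := mul_le_mul_of_nonneg_left h1R hM
  constructor
  · have e : n.F 0 w.b w.y = n.c + rtIp n.al w.b + n.be * w.y - n.k * rtSq w.b := by
      simp only [RtPoly.F]; ring
    have i1 : |rtIp n.al w.b| ≤ M * R := rtIp_abs_le hM hR0 hal hb
    have i2 : |n.be * w.y| ≤ M * R := rt_chp_mul hbe hy
    have i3 : |n.k * rtSq w.b| ≤ M * R ^ 2 := rt_chp_mul hk (by rw [abs_of_nonneg (rtSq_nonneg _)]; exact hb)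
    rw [e]
    have := rt_chp_sub (rt_chp_add (rt_chp_add hc i1) i2) i3
    linarith
  · have e : n.G 0 w.b w.y w.A = n.d + n.k * w.y + rtIp w.A (n.al - (2 * n.k) • w.b) + rtSq w.A * n.be := by
      simp only [RtPoly.G]; ring
    have j1 : rtSq ((2 * n.k) • w.b) ≤ (2 * M * R) ^ 2 := rt_chp_sq_smul (rt_chp_two hk) hb
    have j2 : rtSq (n.al - (2 * n.k) • w.b) ≤ (M + 2 * M * R) ^ 2 := rt_chp_sq_sub hM (by positivity) hal j1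
    have j3 : |rtIp w.A (n.al - (2 * n.k) • w.b)| ≤ R * (M + 2 * M * R) := rtIp_abs_le hR0 (by positivity) hA j2
    have j4 : |n.k * w.y| ≤ M * R := rt_chp_mul hk hy
    have j5 : |rtSq w.A * n.be| ≤ R ^ 2 * M := rt_chp_mul (by rw [abs_of_nonneg (rtSq_nonneg _)]; exact hA) hbe
    rw [e]
    have := rt_chp_add (rt_chp_add (rt_chp_add hd j4) j3) j5
    linarith

/-- `|u'|² - |u|²` along a small displacement -/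
theorem rt_gr_sq_diff {u u' : ℝ × ℝ} {R ε : ℝ} (hR : 1 ≤ R) (hε0 : 0 ≤ ε) (hε : ε ≤ 1) (hu : rtSq u ≤ R ^ 2) (hd : rtSq (u' - u) ≤ ε ^ 2) :
    |rtSq u' - rtSq u| ≤ 3 * R * ε := by
  have hR0 : 0 ≤ R := by linarith
  have e : rtSq u' - rtSq u = 2 * rtIp u (u' - u) + rtSq (u' - u) := by
    simp only [rtSq, rtIp, Prod.fst_sub, Prod.snd_sub]; ring
  have i1 : |rtIp u (u' - u)| ≤ R * ε := rtIp_abs_le hR0 hε0 hu hd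
  have i2 : |rtSq (u' - u)| ≤ ε ^ 2 := by rw [abs_of_nonneg (rtSq_nonneg _)]; exact hd
  rw [e]
  have := rt_chp_add (rt_chp_two i1) i2
  have h2 : ε ^ 2 ≤ R * ε := by nlinarith
  linarith

/-- **L-256-RT-GR-G2** (90 l.)   Lipschitz bound along the correspondence `RtNear 1 ε ε ε²`:
`ΔF = α·Δx + βΔz - k(|x'|²-|x|²)`, `|Δx| ≤ ε`, `|Δz| ≤ ε² + 2Rε ≤ 3Rε`;   `ΔG = kΔz + ΔV·(α - 2k x') - 2k V·Δx + β(|V'|²-|V|²)` -/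
theorem rt_gr_lip {n : RtPoly} {M R ε : ℝ} (hR : 1 ≤ R) (hM : 0 ≤ M) (hn : n.Bd M) (hε0 : 0 ≤ ε) (hε : ε ≤ 1) {w w' : RtRow} (hA : rtSq w.A ≤ R ^ 2)
    (hb : rtSq w.b ≤ R ^ 2) (hnear : RtNear 1 ε ε (ε ^ 2) w w') :
    |n.F 0 w'.b w'.y - n.F 0 w.b w.y| ≤ 7 * R * M * ε ∧ |n.G 0 w'.b w'.y w'.A - n.G 0 w.b w.y w.A| ≤ 13 * R * M * ε := by
  obtain ⟨hc, hd, hal, hbe, hk⟩ := hn
  obtain ⟨nA, nb, ny⟩ := hnear
  rw [one_mul] at nA nb ny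
  have hR0 : 0 ≤ R := by linarith
  have hMε : 0 ≤ M * ε := mul_nonneg hM hε0
  have hRMε : M * ε ≤ R * (M * ε) := le_mul_of_one_le_left hMε hR
  have h2 : ε ^ 2 ≤ R * ε := by nlinarith
  -- `Δz`
  have iz : |w'.y - w.y| ≤ 3 * R * ε := by
    have i1 : |rtIp w.A (w'.b - w.b)| ≤ R * ε := rtIp_abs_le hR0 hε0 hA nb
    have e : w'.y - w.y = (w'.y - w.y - 2 * rtIp w.A (w'.b - w.b)) + 2 * rtIp w.A (w'.b - w.b) := by ring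
    rw [e]
    have := rt_chp_add ny (rt_chp_two i1)
    linarith
  have ib := rt_gr_sq_diff hR hε0 hε hb nb
  have iA := rt_gr_sq_diff hR hε0 hε hA nA
  constructor
  · have e : n.F 0 w'.b w'.y - n.F 0 w.b w.y = rtIp n.al (w'.b - w.b) + n.be * (w'.y - w.y) - n.k * (rtSq w'.b - rtSq w.b) := by
      simp only [RtPoly.F, rtIp, rtSq, Prod.fst_sub, Prod.snd_sub]; ring
    have i1 : |rtIp n.al (w'.b - w.b)| ≤ M * ε := rtIp_abs_le hM hε0 hal nb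
    have i2 := rt_chp_mul hbe iz
    have i3 := rt_chp_mul hk ib
    rw [e]
    have := rt_chp_sub (rt_chp_add i1 i2) i3
    linarith
  · have e : n.G 0 w'.b w'.y w'.A - n.G 0 w.b w.y w.A = n.k * (w'.y - w.y) + rtIp (w'.A - w.A) (n.al - (2 * n.k) • w'.b)
        - (2 * n.k) * rtIp w.A (w'.b - w.b) + n.be * (rtSq w'.A - rtSq w.A) := by
      simp only [RtPoly.G, rtIp, rtSq, Prod.fst_sub, Prod.snd_sub, Prod.smul_fst, Prod.smul_snd, smul_eq_mul]; ring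
    have hb' : rtSq w'.b ≤ (R + ε) ^ 2 := by
      have := rt_chp_sq_add hR0 hε0 hb nb
      rwa [add_sub_cancel] at this
    have j1 : rtSq ((2 * n.k) • w'.b) ≤ (2 * M * (R + ε)) ^ 2 := rt_chp_sq_smul (rt_chp_two hk) hb'
    have j2 : rtSq (n.al - (2 * n.k) • w'.b) ≤ (M + 2 * M * (R + ε)) ^ 2 := rt_chp_sq_sub hM (by positivity) hal j1
    have j3 : |rtIp (w'.A - w.A) (n.al - (2 * n.k) • w'.b)| ≤ ε * (M + 2 * M * (R + ε)) := rtIp_abs_le hε0 (by positivity) nA j2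
    have j4 := rt_chp_mul hk iz
    have j5 : |(2 * n.k) * rtIp w.A (w'.b - w.b)| ≤ 2 * M * (R * ε) := rt_chp_mul (rt_chp_two hk) (rtIp_abs_le hR0 hε0 hA nb)
    have j6 := rt_chp_mul hbe iA
    rw [e]
    have := rt_chp_add (rt_chp_sub (rt_chp_add j4 j3) j5) j6
    have k1 : ε * (M + 2 * M * (R + ε)) ≤ 5 * (R * (M * ε)) := by
      have : M * ε * ε ≤ M * ε * 1 := mul_le_mul_of_nonneg_left hε hMε
      nlinarith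
    linarith

/-! ## 2. cells -/

theorem rt_gr_g3_fract (s x : ℝ) (hs : 0 < s) : 0 ≤ (x - s * (⌊x / s⌋ : ℝ)) / s ∧ (x - s * (⌊x / s⌋ : ℝ)) / s < 1 := by
  have e : (x - s * (⌊x / s⌋ : ℝ)) / s = Int.fract (x / s) := by
    rw [Int.fract, sub_div, mul_div_cancel_left₀ _ hs.ne']
  rw [e]
  exact ⟨Int.fract_nonneg _, Int.fract_lt_one _⟩

theorem rt_gr_g3_A1 (G : RtGrG) (c : Fin 5 → ℤ) (q : RtRow) : (G.nrm c q).A.1 = (q.A.1 - G.r * (c 0 : ℝ)) / G.r := by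
  rw [rt_gr_nrm_eq]
  exact (div_eq_inv_mul (q.A.1 - G.r * (c 0 : ℝ)) G.r).symm

theorem rt_gr_g3_A2 (G : RtGrG) (c : Fin 5 → ℤ) (q : RtRow) : (G.nrm c q).A.2 = (q.A.2 - G.r * (c 1 : ℝ)) / G.r := by
  rw [rt_gr_nrm_eq]
  exact (div_eq_inv_mul (q.A.2 - G.r * (c 1 : ℝ)) G.r).symm

theorem rt_gr_g3_b1 (G : RtGrG) (c : Fin 5 → ℤ) (q : RtRow) : (G.nrm c q).b.1 = (q.b.1 - G.l0 * G.r * (c 2 : ℝ)) / (G.l0 * G.r) := by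
  rw [rt_gr_nrm_eq]
  exact (div_eq_inv_mul (q.b.1 - G.l0 * G.r * (c 2 : ℝ)) (G.l0 * G.r)).symm

theorem rt_gr_g3_b2 (G : RtGrG) (c : Fin 5 → ℤ) (q : RtRow) : (G.nrm c q).b.2 = (q.b.2 - G.l0 * G.r * (c 3 : ℝ)) / (G.l0 * G.r) := by
  rw [rt_gr_nrm_eq]
  exact (div_eq_inv_mul (q.b.2 - G.l0 * G.r * (c 3 : ℝ)) (G.l0 * G.r)).symm

theorem rt_gr_g3_y (G : RtGrG) (c : Fin 5 → ℤ) (q : RtRow) : (G.nrm c q).y =
    (q.y - G.l0 * G.r ^ 2 * (c 4 : ℝ) - 2 * (G.r * (c 0 : ℝ) * (q.b.1 - G.l0 * G.r * (c 2 : ℝ)) + G.r * (c 1 : ℝ) * (q.b.2 - G.l0 * G.r * (c 3 : ℝ)))) / (G.l0 * G.r ^ 2) := by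
  rw [rt_gr_nrm_eq]
  rfl

/-- **L-256-RT-GR-G3** (60 l.)   a row has normalised coordinates in `[0,1)` in its own cell (`Int.fract`; `rt_gr_nrm_eq`, `Matrix.cons_val_*`) -/
theorem rt_gr_cell_unit (G : RtGrG) (hr : 0 < G.r) (q : RtRow) :
    (0 ≤ (G.nrm (G.cell q) q).A.1 ∧ (G.nrm (G.cell q) q).A.1 < 1) ∧ (0 ≤ (G.nrm (G.cell q) q).A.2 ∧ (G.nrm (G.cell q) q).A.2 < 1) ∧
    (0 ≤ (G.nrm (G.cell q) q).b.1 ∧ (G.nrm (G.cell q) q).b.1 < 1) ∧ (0 ≤ (G.nrm (G.cell q) q).b.2 ∧ (G.nrm (G.cell q) q).b.2 < 1) ∧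
    (0 ≤ (G.nrm (G.cell q) q).y ∧ (G.nrm (G.cell q) q).y < 1) := by
  have hl0 := rt_gr_l0_pos G
  have hs : 0 < G.l0 * G.r := mul_pos hl0 hr
  have hs2 : 0 < G.l0 * G.r ^ 2 := by positivity
  rw [rt_gr_g3_A1, rt_gr_g3_A2, rt_gr_g3_b1, rt_gr_g3_b2, rt_gr_g3_y]
  refine ⟨rt_gr_g3_fract G.r q.A.1 hr, rt_gr_g3_fract G.r q.A.2 hr, rt_gr_g3_fract (G.l0 * G.r) q.b.1 hs, rt_gr_g3_fract (G.l0 * G.r) q.b.2 hs, ?_⟩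
  have key := rt_gr_g3_fract (G.l0 * G.r ^ 2) (q.y - 2 * rtIp (G.r * ⌊q.A.1 / G.r⌋, G.r * ⌊q.A.2 / G.r⌋)
      (q.b - (G.l0 * G.r * ⌊q.b.1 / (G.l0 * G.r)⌋, G.l0 * G.r * ⌊q.b.2 / (G.l0 * G.r)⌋))) hs2
  have e : (q.y - G.l0 * G.r ^ 2 * (G.cell q 4 : ℝ) - 2 * (G.r * (G.cell q 0 : ℝ) * (q.b.1 - G.l0 * G.r * (G.cell q 2 : ℝ)) +
      G.r * (G.cell q 1 : ℝ) * (q.b.2 - G.l0 * G.r * (G.cell q 3 : ℝ)))) =
      (q.y - 2 * rtIp (G.r * ⌊q.A.1 / G.r⌋, G.r * ⌊q.A.2 / G.r⌋)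
      (q.b - (G.l0 * G.r * ⌊q.b.1 / (G.l0 * G.r)⌋, G.l0 * G.r * ⌊q.b.2 / (G.l0 * G.r)⌋))) - G.l0 * G.r ^ 2 * (⌊(q.y - 2 * rtIp (G.r * ⌊q.A.1 / G.r⌋, G.r * ⌊q.A.2 / G.r⌋)
      (q.b - (G.l0 * G.r * ⌊q.b.1 / (G.l0 * G.r)⌋, G.l0 * G.r * ⌊q.b.2 / (G.l0 * G.r)⌋))) / (G.l0 * G.r ^ 2)⌋ : ℝ) := by
    show (q.y - G.l0 * G.r ^ 2 * (G.cell q 4 : ℝ) - 2 * (G.r * (G.cell q 0 : ℝ) * (q.b.1 - G.l0 * G.r * (G.cell q 2 : ℝ)) +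
      G.r * (G.cell q 1 : ℝ) * (q.b.2 - G.l0 * G.r * (G.cell q 3 : ℝ)))) =
      (q.y - 2 * (G.r * (G.cell q 0 : ℝ) * (q.b.1 - G.l0 * G.r * (G.cell q 2 : ℝ)) +
      G.r * (G.cell q 1 : ℝ) * (q.b.2 - G.l0 * G.r * (G.cell q 3 : ℝ)))) - G.l0 * G.r ^ 2 * (G.cell q 4 : ℝ)
    ring
  rw [e]
  exact key

theorem rt_gr_g4_mul {a b A B : ℝ} (ha : |a| ≤ A) (hb : |b| ≤ B) : |a * b| ≤ A * B := by
  rw [abs_mul]
  exact mul_le_mul ha hb (abs_nonneg _) ((abs_nonneg _).trans ha)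

theorem rt_gr_g4_add {a b A B : ℝ} (ha : |a| ≤ A) (hb : |b| ≤ B) : |a + b| ≤ A + B :=
  (abs_add_le _ _).trans (add_le_add ha hb)

theorem rt_gr_g4_sub {a b A B : ℝ} (ha : |a| ≤ A) (hb : |b| ≤ B) : |a - b| ≤ A + B :=
  (abs_sub _ _).trans (add_le_add ha hb)

theorem rt_gr_g4_unit {a : ℝ} (h0 : 0 ≤ a) (h1 : a ≤ 1) : |a| ≤ 1 := by
  rw [abs_of_nonneg h0]
  exact h1

theorem rt_gr_g4_comp {u : ℝ × ℝ} {M : ℝ} (hM : 0 ≤ M) (h : rtSq u ≤ M ^ 2) : |u.1| ≤ M ∧ |u.2| ≤ M := by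
  unfold rtSq at h
  constructor
  · exact abs_le_of_sq_le_sq (by nlinarith [sq_nonneg u.2]) hM
  · exact abs_le_of_sq_le_sq (by nlinarith [sq_nonneg u.1]) hM

theorem rt_gr_g4_sq {u : ℝ × ℝ} {M : ℝ} (h1 : |u.1| ≤ M) (h2 : |u.2| ≤ M) : rtSq u ≤ 2 * M ^ 2 := by
  unfold rtSq
  have s1 := sq_le_sq' (abs_le.1 h1).1 (abs_le.1 h1).2
  have s2 := sq_le_sq' (abs_le.1 h2).1 (abs_le.1 h2).2
  linarith

/-- the normalised bound for the last coordinate -/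
theorem rt_gr_g4_num (δ ρ θ γ Z Z' a1 a2 U1 U2 V1 V2 X1 X2 Y1 Y2 : ℝ) (hδ : |δ| ≤ 1) (hρ : |ρ| ≤ 1) (hθ : |θ| ≤ 1) (hγ : |γ| ≤ 1) (hZ : |Z| ≤ 6) (hZ' : |Z'| ≤ 6)
    (ha1 : |a1| ≤ 1) (ha2 : |a2| ≤ 1) (hU1 : |U1| ≤ 6) (hU2 : |U2| ≤ 6) (hV1 : |V1| ≤ 6) (hV2 : |V2| ≤ 6) (hX1 : |X1| ≤ 6) (hX2 : |X2| ≤ 6)
    (hY1 : |Y1| ≤ 6) (hY2 : |Y2| ≤ 6) :
    |γ + δ * ρ * ρ * (Z - Z') + 2 * (δ * ρ) * ((a1 - ρ * U1) * (X1 - Y1) + (a2 - ρ * U2) * (X2 - Y2))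
      - θ * ρ * ((V1 - U1) * (ρ * (V1 - U1) + 2 * a1) + (V2 - U2) * (ρ * (V2 - U2) + 2 * a2))| ≤ 685 := by
  have h2 : |(2 : ℝ)| ≤ 2 := by norm_num
  have t1 := rt_gr_g4_mul (rt_gr_g4_mul (rt_gr_g4_mul hδ hρ) hρ) (rt_gr_g4_sub hZ hZ')
  have t2 := rt_gr_g4_mul (rt_gr_g4_mul h2 (rt_gr_g4_mul hδ hρ))
    (rt_gr_g4_add (rt_gr_g4_mul (rt_gr_g4_sub ha1 (rt_gr_g4_mul hρ hU1)) (rt_gr_g4_sub hX1 hY1))
      (rt_gr_g4_mul (rt_gr_g4_sub ha2 (rt_gr_g4_mul hρ hU2)) (rt_gr_g4_sub hX2 hY2)))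
  have t3 := rt_gr_g4_mul (rt_gr_g4_mul hθ hρ)
    (rt_gr_g4_add (rt_gr_g4_mul (rt_gr_g4_sub hV1 hU1) (rt_gr_g4_add (rt_gr_g4_mul hρ (rt_gr_g4_sub hV1 hU1)) (rt_gr_g4_mul h2 ha1)))
      (rt_gr_g4_mul (rt_gr_g4_sub hV2 hU2) (rt_gr_g4_add (rt_gr_g4_mul hρ (rt_gr_g4_sub hV2 hU2)) (rt_gr_g4_mul h2 ha2))))
  refine (rt_gr_g4_sub (rt_gr_g4_add (rt_gr_g4_add hγ t1) t2) t3).trans ?_
  norm_num

/-- the whole computation in real variables -/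
theorem rt_gr_g4_real (r rl l0 lf t : ℝ) (hr : 0 < r) (hl0 : 0 < l0) (hrl0 : 0 ≤ rl) (hrl : rl ≤ r) (hlf0 : 0 ≤ lf) (hlf : lf ≤ l0) (ht0 : 0 ≤ t) (ht : t ≤ l0)
    (As1 As2 bs1 bs2 ys Ac1 Ac2 bc1 bc2 yc V1 V2 X1 X2 Z U1 U2 Y1 Y2 Z' a1 a2 β1 β2 γ A1 A2 b1 b2 y A1' A2' b1' b2' y' : ℝ)
    (hV1 : |V1| ≤ 6) (hV2 : |V2| ≤ 6) (hX1 : |X1| ≤ 6) (hX2 : |X2| ≤ 6) (hZ : |Z| ≤ 6)
    (hU1 : |U1| ≤ 6) (hU2 : |U2| ≤ 6) (hY1 : |Y1| ≤ 6) (hY2 : |Y2| ≤ 6) (hZ' : |Z'| ≤ 6)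
    (ha1 : |a1| ≤ 1) (ha2 : |a2| ≤ 1) (hβ1 : |β1| ≤ 1) (hβ2 : |β2| ≤ 1) (hγ : |γ| ≤ 1)
    (eA1 : A1 = As1 + rl * V1) (eA2 : A2 = As2 + rl * V2) (eb1 : b1 = bs1 + lf * rl * X1 - t * A1) (eb2 : b2 = bs2 + lf * rl * X2 - t * A2)
    (ey : y = ys + 2 * (As1 * (lf * rl * X1) + As2 * (lf * rl * X2)) + lf * rl ^ 2 * Z - t * (A1 ^ 2 + A2 ^ 2))
    (eA1' : A1' = As1 + rl * U1) (eA2' : A2' = As2 + rl * U2) (eb1' : b1' = bs1 + lf * rl * Y1 - t * A1') (eb2' : b2' = bs2 + lf * rl * Y2 - t * A2')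
    (ey' : y' = ys + 2 * (As1 * (lf * rl * Y1) + As2 * (lf * rl * Y2)) + lf * rl ^ 2 * Z' - t * (A1' ^ 2 + A2' ^ 2))
    (cA1 : A1' = Ac1 + r * a1) (cA2 : A2' = Ac2 + r * a2) (cb1 : b1' = bc1 + l0 * r * β1) (cb2 : b2' = bc2 + l0 * r * β2)
    (cy : y' = yc + 2 * (Ac1 * (l0 * r * β1) + Ac2 * (l0 * r * β2)) + l0 * r ^ 2 * γ) :
    |(A1 - Ac1) / r| ≤ 13 ∧ |(A2 - Ac2) / r| ≤ 13 ∧ |(b1 - bc1) / (l0 * r)| ≤ 25 ∧ |(b2 - bc2) / (l0 * r)| ≤ 25 ∧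
      |(y - yc - 2 * (Ac1 * (b1 - bc1) + Ac2 * (b2 - bc2))) / (l0 * r ^ 2)| ≤ 685 := by
  obtain ⟨δ, hδ0, hδ1, rfl⟩ : ∃ δ, 0 ≤ δ ∧ δ ≤ 1 ∧ lf = δ * l0 := ⟨lf / l0, div_nonneg hlf0 hl0.le, (div_le_one hl0).2 hlf, by field_simp⟩
  obtain ⟨θ, hθ0, hθ1, rfl⟩ : ∃ θ, 0 ≤ θ ∧ θ ≤ 1 ∧ t = θ * l0 := ⟨t / l0, div_nonneg ht0 hl0.le, (div_le_one hl0).2 ht, by field_simp⟩
  obtain ⟨ρ, hρ0, hρ1, rfl⟩ : ∃ ρ, 0 ≤ ρ ∧ ρ ≤ 1 ∧ rl = ρ * r := ⟨rl / r, div_nonneg hrl0 hr.le, (div_le_one hr).2 hrl, by field_simp⟩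
  have hδ := rt_gr_g4_unit hδ0 hδ1
  have hθ := rt_gr_g4_unit hθ0 hθ1
  have hρ := rt_gr_g4_unit hρ0 hρ1
  have dA1 : Ac1 = A1' - r * a1 := by linarith
  have dA2 : Ac2 = A2' - r * a2 := by linarith
  have db1 : bc1 = b1' - l0 * r * β1 := by linarith
  have db2 : bc2 = b2' - l0 * r * β2 := by linarith
  have dy : yc = y' - 2 * (Ac1 * (l0 * r * β1) + Ac2 * (l0 * r * β2)) - l0 * r ^ 2 * γ := by linarith
  clear cA1 cA2 cb1 cb2 cy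
  subst dy db1 db2 dA1 dA2 ey ey' eb1 eb2 eb1' eb2' eA1 eA2 eA1' eA2'
  have hs : l0 * r ≠ 0 := (mul_pos hl0 hr).ne'
  have hs2 : l0 * r ^ 2 ≠ 0 := by positivity
  have f1 : (As1 + ρ * r * V1 - (As1 + ρ * r * U1 - r * a1)) / r = ρ * (V1 - U1) + a1 := by
    rw [div_eq_iff hr.ne']
    ring
  have f2 : (As2 + ρ * r * V2 - (As2 + ρ * r * U2 - r * a2)) / r = ρ * (V2 - U2) + a2 := by
    rw [div_eq_iff hr.ne']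
    ring
  have f3 : (bs1 + δ * l0 * (ρ * r) * X1 - θ * l0 * (As1 + ρ * r * V1) - (bs1 + δ * l0 * (ρ * r) * Y1 - θ * l0 * (As1 + ρ * r * U1) - l0 * r * β1)) / (l0 * r) =
      δ * ρ * (X1 - Y1) - θ * ρ * (V1 - U1) + β1 := by
    rw [div_eq_iff hs]
    ring
  have f4 : (bs2 + δ * l0 * (ρ * r) * X2 - θ * l0 * (As2 + ρ * r * V2) - (bs2 + δ * l0 * (ρ * r) * Y2 - θ * l0 * (As2 + ρ * r * U2) - l0 * r * β2)) / (l0 * r) =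
      δ * ρ * (X2 - Y2) - θ * ρ * (V2 - U2) + β2 := by
    rw [div_eq_iff hs]
    ring
  refine ⟨?_, ?_, ?_, ?_, ?_⟩
  · rw [f1]
    exact (rt_gr_g4_add (rt_gr_g4_mul hρ (rt_gr_g4_sub hV1 hU1)) ha1).trans (by norm_num)
  · rw [f2]
    exact (rt_gr_g4_add (rt_gr_g4_mul hρ (rt_gr_g4_sub hV2 hU2)) ha2).trans (by norm_num)
  · rw [f3]
    exact (rt_gr_g4_add (rt_gr_g4_sub (rt_gr_g4_mul (rt_gr_g4_mul hδ hρ) (rt_gr_g4_sub hX1 hY1)) (rt_gr_g4_mul (rt_gr_g4_mul hθ hρ) (rt_gr_g4_sub hV1 hU1))) hβ1).trans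
      (by norm_num)
  · rw [f4]
    exact (rt_gr_g4_add (rt_gr_g4_sub (rt_gr_g4_mul (rt_gr_g4_mul hδ hρ) (rt_gr_g4_sub hX2 hY2)) (rt_gr_g4_mul (rt_gr_g4_mul hθ hρ) (rt_gr_g4_sub hV2 hU2))) hβ2).trans
      (by norm_num)
  · refine le_trans (le_of_eq (congrArg _ ?_)) (rt_gr_g4_num δ ρ θ γ Z Z' a1 a2 U1 U2 V1 V2 X1 X2 Y1 Y2 hδ hρ hθ hγ hZ hZ' ha1 ha2 hU1 hU2 hV1 hV2 hX1 hX2 hY1 hY2)
    rw [div_eq_iff hs2]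
    ring

/-- normalised coordinates of a row of a predecessor set -/
theorem rt_gr_g4_pre (G : RtGrG) (hG : G.Ok) (l : Fin G.L) (q : RtRow) (hq : q ∈ G.Pre l) :
    ∃ V1 V2 X1 X2 Z : ℝ, |V1| ≤ 6 ∧ |V2| ≤ 6 ∧ |X1| ≤ 6 ∧ |X2| ≤ 6 ∧ |Z| ≤ 6 ∧
      q.A.1 = (G.Q l).As.1 + (G.Q l).r * V1 ∧ q.A.2 = (G.Q l).As.2 + (G.Q l).r * V2 ∧
      q.b.1 = (G.Q l).bs.1 + G.lf * (G.Q l).r * X1 - G.t l * q.A.1 ∧ q.b.2 = (G.Q l).bs.2 + G.lf * (G.Q l).r * X2 - G.t l * q.A.2 ∧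
      q.y = (G.Q l).ys + 2 * ((G.Q l).As.1 * (G.lf * (G.Q l).r * X1) + (G.Q l).As.2 * (G.lf * (G.Q l).r * X2)) + G.lf * (G.Q l).r ^ 2 * Z
        - G.t l * (q.A.1 ^ 2 + q.A.2 ^ 2) := by
  obtain ⟨⟨hx, hz, hV⟩, -, -⟩ := hq
  have hrl : (G.Q l).r ≠ 0 := by
    have h1 := (hG.lab_r l).1
    have h2 := hG.r_pos
    exact (by linarith : (0 : ℝ) < (G.Q l).r).ne'
  have hlf : G.lf ≠ 0 := (rt_gr_lf_pos G).ne'
  have e : rdLen (G.k0 + G.n) = G.lf := rfl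
  refine ⟨((G.τ l).V (q.flow (G.t l))).1, ((G.τ l).V (q.flow (G.t l))).2, ((G.τ l).x (q.flow (G.t l))).1, ((G.τ l).x (q.flow (G.t l))).2, (G.τ l).z (q.flow (G.t l)),
    (rt_gr_g4_comp (by norm_num) hV).1, (rt_gr_g4_comp (by norm_num) hV).2, (rt_gr_g4_comp (by norm_num) hx).1, (rt_gr_g4_comp (by norm_num) hx).2, hz, ?_, ?_, ?_, ?_, ?_⟩
  all_goals
    simp only [RtGrG.τ, RdTst.toT, RtTest.V, RtTest.x, RtTest.z, RtRow.flow, rtIp, rtSq, e, Prod.smul_fst, Prod.smul_snd, Prod.fst_sub, Prod.snd_sub, Prod.fst_add,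
      Prod.snd_add, smul_eq_mul]
    field_simp
    ring

/-- **L-256-RT-GR-G4** (250 l.)   two rows of one predecessor set are at bounded distance in the frame of the cell of the first one.
`q, q₁ ∈ Pre l`: both `q̃, q̃₁ ∈ τ.box 6`, `r_l ≤ r`, `ℓf ≤ ℓ₀`, `0 ≤ t ≤ ℓ₀`:   `|A - A₁| ≤ 12 r`;   `b - b₁ = (b̃ - b̃₁) - t (A - A₁)`: `≤ 24 ℓ₀ r`;
`(y - y₁) - 2A_c·(b - b₁) = [(ỹ - ỹ₁) - 2A_τ·(b̃ - b̃₁)] + 2(A_τ - A_c)·(b̃ - b̃₁) - t (A - A₁)·(A + A₁ - 2A_c)`: `≤ (12 + 192 + 180) ℓ₀ r²`   (`|A₁ - A_c| ≤ √2 r` by `rt_gr_cell_unit`).   `R = 400` is enough. -/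
theorem rt_gr_pre_box : ∃ R : ℝ, 1 ≤ R ∧ ∀ (G : RtGrG), G.Ok → ∀ (l : Fin G.L) (q₁ q : RtRow), q₁ ∈ G.Pre l → q ∈ G.Pre l →
    rtSq (G.nrm (G.cell q₁) q).A ≤ R ^ 2 ∧ rtSq (G.nrm (G.cell q₁) q).b ≤ R ^ 2 ∧ |(G.nrm (G.cell q₁) q).y| ≤ R := by
  refine ⟨1000, by norm_num, fun G hG l q₁ q hq₁ hq => ?_⟩
  obtain ⟨V1, V2, X1, X2, Z, hV1, hV2, hX1, hX2, hZ, eA1, eA2, eb1, eb2, ey⟩ := rt_gr_g4_pre G hG l q hq
  obtain ⟨U1, U2, Y1, Y2, Z', hU1, hU2, hY1, hY2, hZ', eA1', eA2', eb1', eb2', ey'⟩ := rt_gr_g4_pre G hG l q₁ hq₁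
  obtain ⟨⟨a10, a11⟩, ⟨a20, a21⟩, ⟨β10, β11⟩, ⟨β20, β21⟩, ⟨γ0, γ1⟩⟩ := rt_gr_cell_unit G hG.r_pos q₁
  have hr := hG.r_pos
  have hl0 := rt_gr_l0_pos G
  have hs : G.l0 * G.r ≠ 0 := (mul_pos hl0 hr).ne'
  have hs2 : G.l0 * G.r ^ 2 ≠ 0 := by positivity
  have hlf : G.lf ≤ G.l0 := by
    rw [rt_gr_lf_eq]
    exact mul_le_of_le_one_left hl0.le (pow_le_one₀ (by norm_num) (by norm_num))
  have hrl0 : 0 ≤ (G.Q l).r := by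
    have h1 := (hG.lab_r l).1
    linarith
  have cA1 : q₁.A.1 = G.r * (G.cell q₁ 0 : ℝ) + G.r * (G.nrm (G.cell q₁) q₁).A.1 := by
    rw [rt_gr_g3_A1]
    field_simp
    ring
  have cA2 : q₁.A.2 = G.r * (G.cell q₁ 1 : ℝ) + G.r * (G.nrm (G.cell q₁) q₁).A.2 := by
    rw [rt_gr_g3_A2]
    field_simp
    ring
  have cb1 : q₁.b.1 = G.l0 * G.r * (G.cell q₁ 2 : ℝ) + G.l0 * G.r * (G.nrm (G.cell q₁) q₁).b.1 := by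
    rw [rt_gr_g3_b1, mul_div_cancel₀ _ hs]
    ring
  have cb2 : q₁.b.2 = G.l0 * G.r * (G.cell q₁ 3 : ℝ) + G.l0 * G.r * (G.nrm (G.cell q₁) q₁).b.2 := by
    rw [rt_gr_g3_b2, mul_div_cancel₀ _ hs]
    ring
  have cy : q₁.y = G.l0 * G.r ^ 2 * (G.cell q₁ 4 : ℝ) + 2 * (G.r * (G.cell q₁ 0 : ℝ) * (G.l0 * G.r * (G.nrm (G.cell q₁) q₁).b.1) +
      G.r * (G.cell q₁ 1 : ℝ) * (G.l0 * G.r * (G.nrm (G.cell q₁) q₁).b.2)) + G.l0 * G.r ^ 2 * (G.nrm (G.cell q₁) q₁).y := by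
    rw [rt_gr_g3_y, rt_gr_g3_b1, rt_gr_g3_b2, mul_div_cancel₀ _ hs, mul_div_cancel₀ _ hs, mul_div_cancel₀ _ hs2]
    ring
  obtain ⟨k1, k2, k3, k4, k5⟩ := rt_gr_g4_real G.r (G.Q l).r G.l0 G.lf (G.t l) hr hl0 hrl0 (hG.lab_r l).2 (rt_gr_lf_pos G).le hlf (hG.t_nn l) (hG.t_le l)
    (G.Q l).As.1 (G.Q l).As.2 (G.Q l).bs.1 (G.Q l).bs.2 (G.Q l).ys (G.r * (G.cell q₁ 0 : ℝ)) (G.r * (G.cell q₁ 1 : ℝ)) (G.l0 * G.r * (G.cell q₁ 2 : ℝ))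
    (G.l0 * G.r * (G.cell q₁ 3 : ℝ)) (G.l0 * G.r ^ 2 * (G.cell q₁ 4 : ℝ)) V1 V2 X1 X2 Z U1 U2 Y1 Y2 Z'
    (G.nrm (G.cell q₁) q₁).A.1 (G.nrm (G.cell q₁) q₁).A.2 (G.nrm (G.cell q₁) q₁).b.1 (G.nrm (G.cell q₁) q₁).b.2 (G.nrm (G.cell q₁) q₁).y
    q.A.1 q.A.2 q.b.1 q.b.2 q.y q₁.A.1 q₁.A.2 q₁.b.1 q₁.b.2 q₁.y hV1 hV2 hX1 hX2 hZ hU1 hU2 hY1 hY2 hZ'
    (rt_gr_g4_unit a10 a11.le) (rt_gr_g4_unit a20 a21.le) (rt_gr_g4_unit β10 β11.le) (rt_gr_g4_unit β20 β21.le) (rt_gr_g4_unit γ0 γ1.le)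
    eA1 eA2 eb1 eb2 ey eA1' eA2' eb1' eb2' ey' cA1 cA2 cb1 cb2 cy
  rw [← rt_gr_g3_A1] at k1
  rw [← rt_gr_g3_A2] at k2
  rw [← rt_gr_g3_b1] at k3
  rw [← rt_gr_g3_b2] at k4
  rw [← rt_gr_g3_y] at k5
  exact ⟨(rt_gr_g4_sq k1 k2).trans (by norm_num), (rt_gr_g4_sq k3 k4).trans (by norm_num), k5.trans (by norm_num)⟩

/-- the floor of a number at distance `≤ R` of an integer -/
theorem rt_gr_floor_sub (a : ℝ) (m : ℤ) (R : ℝ) (N : ℕ) (hN : R + 1 ≤ N) (h : |a - m| ≤ R) : |⌊a⌋ - m| ≤ (N : ℤ) := by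
  obtain ⟨h1, h2⟩ := abs_le.1 h
  have f1 := Int.floor_le a
  have f2 := Int.lt_floor_add_one a
  rw [abs_le]
  constructor
  · have h3 : (-(N : ℝ)) < ((⌊a⌋ - m : ℤ) : ℝ) := by
      push_cast
      linarith
    have h4 : (-(N : ℤ)) < ⌊a⌋ - m := by exact_mod_cast h3
    exact h4.le
  · have h3 : ((⌊a⌋ - m : ℤ) : ℝ) ≤ (N : ℝ) := by
      push_cast
      linarith
    exact_mod_cast h3

theorem rt_gr_sq_abs {u : ℝ × ℝ} {R : ℝ} (hR : 0 ≤ R) (h : rtSq u ≤ R ^ 2) : |u.1| ≤ R ∧ |u.2| ≤ R := by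
  unfold rtSq at h
  exact ⟨abs_le_of_sq_le_sq (by nlinarith [sq_nonneg u.2]) hR, abs_le_of_sq_le_sq (by nlinarith [sq_nonneg u.1]) hR⟩

/-- **L-256-RT-GR-G5** (150 l.)   a predecessor set meets boundedly many cells, FIBRED form (the last coordinate is tilted by the first four):
from `rt_gr_pre_box` (`nrm (cell q₁) q` bounded) and `rt_gr_cell_unit` for `q`:   `cell q i - cell q₁ i = ⌊..⌋` of a bounded number for `i < 4`;   if the first four coordinates agree the frames differ only in `y_c`. -/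
theorem rt_gr_cell_cnt : ∃ N5 : ℕ, ∀ (G : RtGrG), G.Ok → ∀ (l : Fin G.L) (q₁ q : RtRow), q₁ ∈ G.Pre l → q ∈ G.Pre l →
    (∀ i : Fin 5, i ≠ 4 → |G.cell q i - G.cell q₁ i| ≤ N5) ∧ ((∀ i : Fin 5, i ≠ 4 → G.cell q i = G.cell q₁ i) → |G.cell q 4 - G.cell q₁ 4| ≤ N5) := by
  obtain ⟨R, hR1, hR⟩ := rt_gr_pre_box
  refine ⟨⌈R + 1⌉₊, fun G hG l q₁ q hq₁ hq => ?_⟩
  have hN : R + 1 ≤ (⌈R + 1⌉₊ : ℝ) := Nat.le_ceil _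
  have hR0 : 0 ≤ R := by linarith
  obtain ⟨hA, hb, hy⟩ := hR G hG l q₁ q hq₁ hq
  rw [rt_gr_nrm_eq] at hA hb hy
  have hr := hG.r_pos
  have hl0 := rt_gr_l0_pos G
  obtain ⟨hA1, hA2⟩ := rt_gr_sq_abs hR0 hA
  obtain ⟨hb1, hb2⟩ := rt_gr_sq_abs hR0 hb
  have h0 : |G.cell q 0 - G.cell q₁ 0| ≤ (⌈R + 1⌉₊ : ℤ) := by
    refine rt_gr_floor_sub (q.A.1 / G.r) _ R _ hN (le_trans (le_of_eq ?_) hA1)
    congr 1
    simp only [RtGrG.frm, Prod.smul_fst, Prod.fst_sub, smul_eq_mul]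
    field_simp
  have h1 : |G.cell q 1 - G.cell q₁ 1| ≤ (⌈R + 1⌉₊ : ℤ) := by
    refine rt_gr_floor_sub (q.A.2 / G.r) _ R _ hN (le_trans (le_of_eq ?_) hA2)
    congr 1
    simp only [RtGrG.frm, Prod.smul_snd, Prod.snd_sub, smul_eq_mul]
    field_simp
  have h2 : |G.cell q 2 - G.cell q₁ 2| ≤ (⌈R + 1⌉₊ : ℤ) := by
    refine rt_gr_floor_sub (q.b.1 / (G.l0 * G.r)) _ R _ hN (le_trans (le_of_eq ?_) hb1)
    congr 1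
    simp only [RtGrG.frm, Prod.smul_fst, Prod.fst_sub, smul_eq_mul]
    field_simp
  have h3 : |G.cell q 3 - G.cell q₁ 3| ≤ (⌈R + 1⌉₊ : ℤ) := by
    refine rt_gr_floor_sub (q.b.2 / (G.l0 * G.r)) _ R _ hN (le_trans (le_of_eq ?_) hb2)
    congr 1
    simp only [RtGrG.frm, Prod.smul_snd, Prod.snd_sub, smul_eq_mul]
    field_simp
  refine ⟨?_, fun he => ?_⟩
  · intro i hi
    fin_cases i
    · exact h0
    · exact h1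
    · exact h2
    · exact h3
    · exact absurd rfl hi
  · have e0 : (⌊q.A.1 / G.r⌋ : ℤ) = G.cell q₁ 0 := he 0 (by decide)
    have e1 : (⌊q.A.2 / G.r⌋ : ℤ) = G.cell q₁ 1 := he 1 (by decide)
    have e2 : (⌊q.b.1 / (G.l0 * G.r)⌋ : ℤ) = G.cell q₁ 2 := he 2 (by decide)
    have e3 : (⌊q.b.2 / (G.l0 * G.r)⌋ : ℤ) = G.cell q₁ 3 := he 3 (by decide)
    have e4 : G.cell q 4 = ⌊(q.y - 2 * rtIp (G.r * ⌊q.A.1 / G.r⌋, G.r * ⌊q.A.2 / G.r⌋)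
      (q.b - (G.l0 * G.r * ⌊q.b.1 / (G.l0 * G.r)⌋, G.l0 * G.r * ⌊q.b.2 / (G.l0 * G.r)⌋))) / (G.l0 * G.r ^ 2)⌋ := rfl
    rw [e4, e0, e1, e2, e3]
    refine rt_gr_floor_sub _ _ R _ hN (le_trans (le_of_eq ?_) hy)
    congr 1
    simp only [RtGrG.frm]
    field_simp
    ring

/-! ## 3. parents -/

/-- `0 < r_l`, `r / r_l ≤ 2`, `r_l / r ≤ 1` -/
theorem rt_gr_par_rho (G : RtGrG) (hG : G.Ok) (l : Fin G.L) : 0 < (G.Q l).r ∧ G.r / (G.Q l).r ≤ 2 ∧ 0 ≤ (G.Q l).r / G.r ∧ (G.Q l).r / G.r ≤ 1 := by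
  have h1 := (hG.lab_r l).1
  have h2 := (hG.lab_r l).2
  have h3 := hG.r_pos
  have h4 : 0 < (G.Q l).r := by linarith
  refine ⟨h4, ?_, (div_pos h4 h3).le, ?_⟩
  · rw [div_le_iff₀ h4]
    linarith
  · rw [div_le_one h3]
    exact h2

/-- `|k^ψ| ≤ 200 · 2^n` -/
theorem rt_gr_par_k_le (G : RtGrG) (hG : G.Ok) (c : Fin 5 → ℤ) (l : Fin G.L) : |(G.par c l).k| ≤ 200 * 2 ^ G.n := by
  obtain ⟨r1, r2, -, -⟩ := rt_gr_par_rho G hG l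
  have hk : |(G.Q l).n.k| ≤ 100 * 1 := (hG.adm l).bd.2.2.2.2
  have hl0 := rt_gr_l0_pos G
  have e : (G.par c l).k = (G.Q l).n.k * (2 ^ G.n * (G.r / (G.Q l).r)) := by
    rw [rt_gr_par_k, rt_gr_lf_eq, inv_pow]
    field_simp
  have hp : (0 : ℝ) < 2 ^ G.n := by positivity
  have hq : 0 ≤ G.r / (G.Q l).r := (div_pos hG.r_pos r1).le
  rw [e, abs_mul, abs_of_nonneg (mul_nonneg hp.le hq)]
  calc |(G.Q l).n.k| * (2 ^ G.n * (G.r / (G.Q l).r)) ≤ (100 * 1) * (2 ^ G.n * 2) :=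
        mul_le_mul hk (mul_le_mul_of_nonneg_left r2 hp.le) (mul_nonneg hp.le hq) (by norm_num)
    _ = 200 * 2 ^ G.n := by ring

/-- `|β^ψ + θ k^ψ| ≤ 200` -/
theorem rt_gr_par_be_le (G : RtGrG) (hG : G.Ok) (c : Fin 5 → ℤ) (l : Fin G.L) : |(G.par c l).be + G.t l / G.l0 * (G.par c l).k| ≤ 200 := by
  obtain ⟨r1, r2, -, -⟩ := rt_gr_par_rho G hG l
  have hk : |(G.Q l).n.be| ≤ 100 * 1 := (hG.adm l).bd.2.2.2.1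
  have hq : 0 ≤ G.r / (G.Q l).r := (div_pos hG.r_pos r1).le
  rw [rt_gr_par_be, mul_div_assoc, abs_mul, abs_of_nonneg hq]
  calc |(G.Q l).n.be| * (G.r / (G.Q l).r) ≤ (100 * 1) * 2 := mul_le_mul hk r2 hq (by norm_num)
    _ = 200 := by norm_num

theorem rt_gr_par_disc1 (G : RtGrG) (hG : G.Ok) (c : Fin 5 → ℤ) (l : Fin G.L) : (G.par c l).disc = 1 := by
  have h1 := (hG.lab_r l).1
  have h2 := hG.r_pos
  rw [rt_gr_par_disc G hG.r_pos.ne' c l (by linarith : (0 : ℝ) < (G.Q l).r).ne']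
  exact (hG.adm l).disc

/-- the coefficients of a parent, exact formulas -/
theorem rt_gr_pol_formula (l0 lf r t : ℝ) (hl0 : l0 ≠ 0) (hlf : lf ≠ 0) (hr : r ≠ 0) (Q : RdTst) (hrl : Q.r ≠ 0) (cen : RtRow)
    (a1 a2 b1 b2 yy : ℝ) (ha1 : a1 = (cen.A.1 - Q.As.1) / r) (ha2 : a2 = (cen.A.2 - Q.As.2) / r)
    (hb1 : b1 = (cen.b.1 - Q.bs.1 + t * Q.As.1) / (l0 * r)) (hb2 : b2 = (cen.b.2 - Q.bs.2 + t * Q.As.2) / (l0 * r))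
    (hy : yy = (cen.y - Q.ys - 2 * (Q.As.1 * (cen.b.1 - Q.bs.1) + Q.As.2 * (cen.b.2 - Q.bs.2)) - t * (Q.As.1 ^ 2 + Q.As.2 ^ 2)) / (l0 * r ^ 2)) :
    ((rtNrm l0 r cen).pol (rtGrM t lf Q)).al.1 = Q.n.al.1 + 2 * ((rtNrm l0 r cen).pol (rtGrM t lf Q)).be * a1 - 2 * ((rtNrm l0 r cen).pol (rtGrM t lf Q)).k * b1 ∧
    ((rtNrm l0 r cen).pol (rtGrM t lf Q)).al.2 = Q.n.al.2 + 2 * ((rtNrm l0 r cen).pol (rtGrM t lf Q)).be * a2 - 2 * ((rtNrm l0 r cen).pol (rtGrM t lf Q)).k * b2 ∧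
    ((rtNrm l0 r cen).pol (rtGrM t lf Q)).d = Q.r / r * Q.n.d + ((rtNrm l0 r cen).pol (rtGrM t lf Q)).k * yy
      + a1 * (Q.n.al.1 - 2 * ((rtNrm l0 r cen).pol (rtGrM t lf Q)).k * b1) + a2 * (Q.n.al.2 - 2 * ((rtNrm l0 r cen).pol (rtGrM t lf Q)).k * b2)
      + (a1 ^ 2 + a2 ^ 2) * ((rtNrm l0 r cen).pol (rtGrM t lf Q)).be ∧
    ((rtNrm l0 r cen).pol (rtGrM t lf Q)).c = lf / l0 * (Q.r / r) * Q.n.c - t / l0 * (Q.r / r) * Q.n.d + (Q.n.al.1 * b1 + Q.n.al.2 * b2)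
      + ((rtNrm l0 r cen).pol (rtGrM t lf Q)).be * yy - ((rtNrm l0 r cen).pol (rtGrM t lf Q)).k * (b1 ^ 2 + b2 ^ 2) := by
  subst ha1 ha2 hb1 hb2 hy
  obtain ⟨rl, f, As, bs, ys, n⟩ := Q
  obtain ⟨c, d, al, be, kk⟩ := n
  obtain ⟨cA, cb, cy⟩ := cen
  simp only [rtNrm, RtCh.comp, rtChSc, rtChCen, rtChTr, rtGrM, RtPoly.cen, RtPoly.F, RtPoly.G, RtPoly.g, rtIp, rtSq] at *
  refine ⟨?_, ?_, ?_, ?_⟩
  · simp
    field_simp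
    ring
  · simp
    field_simp
    ring
  · simp
    field_simp
    ring
  · simp
    field_simp
    ring

theorem rt_gr_g6_am {x y X Y : ℝ} (hx : |x| ≤ X) (hy : |y| ≤ Y) : |x * y| ≤ X * Y := by
  rw [abs_mul]
  exact mul_le_mul hx hy (abs_nonneg _) ((abs_nonneg _).trans hx)

theorem rt_gr_g6_unit {x : ℝ} (h : 0 ≤ x ∧ x < 1) : |x| ≤ 1 := abs_le.2 ⟨by linarith [h.1], h.2.le⟩

/-- the centre of the frame in the coordinates of the label is bounded -/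
theorem rt_gr_par_core1 (ρ δ θ V1 V2 X1 X2 Z u1 u2 v1 v2 wy a1 a2 b1 b2 yy : ℝ) (hρ : 0 ≤ ρ ∧ ρ ≤ 1) (hδ : 0 ≤ δ ∧ δ ≤ 1) (hθ : 0 ≤ θ ∧ θ ≤ 1)
    (hV : V1 ^ 2 + V2 ^ 2 ≤ 6 ^ 2) (hV1 : |V1| ≤ 6) (hV2 : |V2| ≤ 6) (hX1 : |X1| ≤ 6) (hX2 : |X2| ≤ 6) (hZ : |Z| ≤ 6) (hu1 : |u1| ≤ 1) (hu2 : |u2| ≤ 1) (hv1 : |v1| ≤ 1)
    (hv2 : |v2| ≤ 1) (hwy : |wy| ≤ 1) (ha1 : a1 = ρ * V1 - u1) (ha2 : a2 = ρ * V2 - u2) (hb1 : b1 = δ * ρ * X1 - v1 - θ * ρ * V1)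
    (hb2 : b2 = δ * ρ * X2 - v2 - θ * ρ * V2) (hy : yy = δ * ρ ^ 2 * Z - wy - 2 * (a1 * v1 + a2 * v2) - θ * ρ ^ 2 * (V1 ^ 2 + V2 ^ 2)) :
    |a1| ≤ 7 ∧ |a2| ≤ 7 ∧ |b1| ≤ 13 ∧ |b2| ≤ 13 ∧ |yy| ≤ 71 := by
  have aρ : |ρ| ≤ 1 := abs_le.2 ⟨by linarith [hρ.1], hρ.2⟩
  have aδ : |δ| ≤ 1 := abs_le.2 ⟨by linarith [hδ.1], hδ.2⟩
  have aθ : |θ| ≤ 1 := abs_le.2 ⟨by linarith [hθ.1], hθ.2⟩
  have p1 := rt_gr_g6_am aρ hV1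
  have p2 := rt_gr_g6_am aρ hV2
  have p3 := rt_gr_g6_am (rt_gr_g6_am aδ aρ) hX1
  have p4 := rt_gr_g6_am (rt_gr_g6_am aδ aρ) hX2
  have p5 := rt_gr_g6_am (rt_gr_g6_am aθ aρ) hV1
  have p6 := rt_gr_g6_am (rt_gr_g6_am aθ aρ) hV2
  have A1 : |a1| ≤ 7 := by
    rw [ha1]
    rw [abs_le] at p1 hu1 ⊢
    constructor <;> linarith [p1.1, p1.2, hu1.1, hu1.2]
  have A2 : |a2| ≤ 7 := by
    rw [ha2]
    rw [abs_le] at p2 hu2 ⊢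
    constructor <;> linarith [p2.1, p2.2, hu2.1, hu2.2]
  have B1 : |b1| ≤ 13 := by
    rw [hb1]
    rw [abs_le] at p3 p5 hv1 ⊢
    constructor <;> linarith [p3.1, p3.2, p5.1, p5.2, hv1.1, hv1.2]
  have B2 : |b2| ≤ 13 := by
    rw [hb2]
    rw [abs_le] at p4 p6 hv2 ⊢
    constructor <;> linarith [p4.1, p4.2, p6.1, p6.2, hv2.1, hv2.2]
  refine ⟨A1, A2, B1, B2, ?_⟩
  have q1 := rt_gr_g6_am (rt_gr_g6_am aδ (rt_gr_g6_am aρ aρ)) hZ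
  have q2 := rt_gr_g6_am A1 hv1
  have q3 := rt_gr_g6_am A2 hv2
  have hW : |V1 ^ 2 + V2 ^ 2| ≤ 36 := by
    rw [abs_of_nonneg (by positivity)]
    linarith
  have q4 := rt_gr_g6_am (rt_gr_g6_am aθ (rt_gr_g6_am aρ aρ)) hW
  have e : yy = δ * (ρ * ρ) * Z - wy - 2 * (a1 * v1 + a2 * v2) - θ * (ρ * ρ) * (V1 ^ 2 + V2 ^ 2) := by
    rw [hy]
    ring
  rw [e]
  rw [abs_le] at q1 q2 q3 q4 hwy ⊢
  constructor <;> linarith [q1.1, q1.2, q2.1, q2.2, q3.1, q3.2, q4.1, q4.2, hwy.1, hwy.2]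

/-- the coefficients are bounded -/
theorem rt_gr_par_core2 (ρ δ θ cQ dQ α1 α2 K B a1 a2 b1 b2 yy : ℝ) (hρ : 0 ≤ ρ ∧ ρ ≤ 1) (hδ : 0 ≤ δ ∧ δ ≤ 1) (hθ : 0 ≤ θ ∧ θ ≤ 1)
    (hc : |cQ| ≤ 100) (hd : |dQ| ≤ 100) (hα1 : |α1| ≤ 100) (hα2 : |α2| ≤ 100) (hB : |B| ≤ 200 + |K|)
    (A1 : |a1| ≤ 7) (A2 : |a2| ≤ 7) (B1 : |b1| ≤ 13) (B2 : |b2| ≤ 13) (hy : |yy| ≤ 71) :
    |α1 + 2 * B * a1 - 2 * K * b1| ≤ 2900 * (1 + |K|) ∧ |α2 + 2 * B * a2 - 2 * K * b2| ≤ 2900 * (1 + |K|) ∧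
    |ρ * dQ + K * yy + a1 * (α1 - 2 * K * b1) + a2 * (α2 - 2 * K * b2) + (a1 ^ 2 + a2 ^ 2) * B| ≤ 21100 * (1 + |K|) ∧
    |δ * ρ * cQ - θ * ρ * dQ + (α1 * b1 + α2 * b2) + B * yy - K * (b1 ^ 2 + b2 ^ 2)| ≤ 17000 * (1 + |K|) := by
  have aρ : |ρ| ≤ 1 := abs_le.2 ⟨by linarith [hρ.1], hρ.2⟩
  have aδ : |δ| ≤ 1 := abs_le.2 ⟨by linarith [hδ.1], hδ.2⟩
  have aθ : |θ| ≤ 1 := abs_le.2 ⟨by linarith [hθ.1], hθ.2⟩
  have hK : |K| ≤ |K| := le_rfl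
  have k0 : 0 ≤ |K| := abs_nonneg K
  have m1 := rt_gr_g6_am hB A1
  have m2 := rt_gr_g6_am hB A2
  have m3 := rt_gr_g6_am hK B1
  have m4 := rt_gr_g6_am hK B2
  refine ⟨?_, ?_, ?_, ?_⟩
  · rw [abs_le] at m1 m3 hα1 ⊢
    constructor <;> nlinarith [m1.1, m1.2, m3.1, m3.2, hα1.1, hα1.2]
  · rw [abs_le] at m2 m4 hα2 ⊢
    constructor <;> nlinarith [m2.1, m2.2, m4.1, m4.2, hα2.1, hα2.2]
  · have n1 := rt_gr_g6_am aρ hd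
    have n2 := rt_gr_g6_am hK hy
    have n3 := rt_gr_g6_am A1 hα1
    have n4 := rt_gr_g6_am A2 hα2
    have n5 := rt_gr_g6_am A1 m3
    have n6 := rt_gr_g6_am A2 m4
    have n7 := rt_gr_g6_am (rt_gr_g6_am A1 A1) hB
    have n8 := rt_gr_g6_am (rt_gr_g6_am A2 A2) hB
    have e : ρ * dQ + K * yy + a1 * (α1 - 2 * K * b1) + a2 * (α2 - 2 * K * b2) + (a1 ^ 2 + a2 ^ 2) * B
        = ρ * dQ + K * yy + a1 * α1 + a2 * α2 - 2 * (a1 * (K * b1)) - 2 * (a2 * (K * b2)) + a1 * a1 * B + a2 * a2 * B := by ring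
    rw [e]
    rw [abs_le] at n1 n2 n3 n4 n5 n6 n7 n8 ⊢
    constructor <;> linarith [n1.1, n1.2, n2.1, n2.2, n3.1, n3.2, n4.1, n4.2, n5.1, n5.2, n6.1, n6.2, n7.1, n7.2, n8.1, n8.2]
  · have n1 := rt_gr_g6_am (rt_gr_g6_am aδ aρ) hc
    have n2 := rt_gr_g6_am (rt_gr_g6_am aθ aρ) hd
    have n3 := rt_gr_g6_am hα1 B1
    have n4 := rt_gr_g6_am hα2 B2
    have n5 := rt_gr_g6_am hB hy
    have n6 := rt_gr_g6_am m3 B1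
    have n7 := rt_gr_g6_am m4 B2
    have e : δ * ρ * cQ - θ * ρ * dQ + (α1 * b1 + α2 * b2) + B * yy - K * (b1 ^ 2 + b2 ^ 2)
        = δ * ρ * cQ - θ * ρ * dQ + α1 * b1 + α2 * b2 + B * yy - K * b1 * b1 - K * b2 * b2 := by ring
    rw [e]
    rw [abs_le] at n1 n2 n3 n4 n5 n6 n7 ⊢
    constructor <;> linarith [n1.1, n1.2, n2.1, n2.2, n3.1, n3.2, n4.1, n4.2, n5.1, n5.2, n6.1, n6.2, n7.1, n7.2]

theorem rt_gr_par_geo1 (G : RtGrG) (hr' : G.r ≠ 0) (c : Fin 5 → ℤ) (l : Fin G.L) (hrl' : (G.Q l).r ≠ 0) (q₁ : RtRow) :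
    ((G.frm c).cen.A.1 - (G.Q l).As.1) / G.r = (G.Q l).r / G.r * ((G.τ l).V (q₁.flow (G.t l))).1 - (G.nrm c q₁).A.1 := by
  have hl0' : G.l0 ≠ 0 := (rt_gr_l0_pos G).ne'
  have hlf' : G.lf ≠ 0 := (rt_gr_lf_pos G).ne'
  have e : rdLen (G.k0 + G.n) = G.lf := rfl
  simp only [RtGrG.nrm, RtGrG.N, RtGrG.τ, RdTst.toT, rtNrm, RtCh.comp, rtChSc, rtChCen, RtTest.V, RtRow.flow, rtCfRowCen, RdFrm.cen]
  simp
  field_simp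
  ring

theorem rt_gr_par_geo2 (G : RtGrG) (hr' : G.r ≠ 0) (c : Fin 5 → ℤ) (l : Fin G.L) (hrl' : (G.Q l).r ≠ 0) (q₁ : RtRow) :
    ((G.frm c).cen.A.2 - (G.Q l).As.2) / G.r = (G.Q l).r / G.r * ((G.τ l).V (q₁.flow (G.t l))).2 - (G.nrm c q₁).A.2 := by
  have hl0' : G.l0 ≠ 0 := (rt_gr_l0_pos G).ne'
  have hlf' : G.lf ≠ 0 := (rt_gr_lf_pos G).ne'
  have e : rdLen (G.k0 + G.n) = G.lf := rfl
  simp only [RtGrG.nrm, RtGrG.N, RtGrG.τ, RdTst.toT, rtNrm, RtCh.comp, rtChSc, rtChCen, RtTest.V, RtRow.flow, rtCfRowCen, RdFrm.cen]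
  simp
  field_simp
  ring

theorem rt_gr_par_geo3 (G : RtGrG) (hr' : G.r ≠ 0) (c : Fin 5 → ℤ) (l : Fin G.L) (hrl' : (G.Q l).r ≠ 0) (q₁ : RtRow) :
    ((G.frm c).cen.b.1 - (G.Q l).bs.1 + G.t l * (G.Q l).As.1) / (G.l0 * G.r) = G.lf / G.l0 * ((G.Q l).r / G.r) * ((G.τ l).x (q₁.flow (G.t l))).1 - (G.nrm c q₁).b.1
    - G.t l / G.l0 * ((G.Q l).r / G.r) * ((G.τ l).V (q₁.flow (G.t l))).1 := by
  have hl0' : G.l0 ≠ 0 := (rt_gr_l0_pos G).ne'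
  have hlf' : G.lf ≠ 0 := (rt_gr_lf_pos G).ne'
  have e : rdLen (G.k0 + G.n) = G.lf := rfl
  simp only [RtGrG.nrm, RtGrG.N, RtGrG.τ, RdTst.toT, rtNrm, RtCh.comp, rtChSc, rtChCen, RtTest.V, RtTest.x, RtRow.flow, rtCfRowCen, RdFrm.cen, e]
  simp
  field_simp
  ring

theorem rt_gr_par_geo4 (G : RtGrG) (hr' : G.r ≠ 0) (c : Fin 5 → ℤ) (l : Fin G.L) (hrl' : (G.Q l).r ≠ 0) (q₁ : RtRow) :
    ((G.frm c).cen.b.2 - (G.Q l).bs.2 + G.t l * (G.Q l).As.2) / (G.l0 * G.r) = G.lf / G.l0 * ((G.Q l).r / G.r) * ((G.τ l).x (q₁.flow (G.t l))).2 - (G.nrm c q₁).b.2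
    - G.t l / G.l0 * ((G.Q l).r / G.r) * ((G.τ l).V (q₁.flow (G.t l))).2 := by
  have hl0' : G.l0 ≠ 0 := (rt_gr_l0_pos G).ne'
  have hlf' : G.lf ≠ 0 := (rt_gr_lf_pos G).ne'
  have e : rdLen (G.k0 + G.n) = G.lf := rfl
  simp only [RtGrG.nrm, RtGrG.N, RtGrG.τ, RdTst.toT, rtNrm, RtCh.comp, rtChSc, rtChCen, RtTest.V, RtTest.x, RtRow.flow, rtCfRowCen, RdFrm.cen, e]
  simp
  field_simp
  ring

theorem rt_gr_par_geo5 (G : RtGrG) (hr' : G.r ≠ 0) (c : Fin 5 → ℤ) (l : Fin G.L) (hrl' : (G.Q l).r ≠ 0) (q₁ : RtRow) :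
    ((G.frm c).cen.y - (G.Q l).ys - 2 * ((G.Q l).As.1 * ((G.frm c).cen.b.1 - (G.Q l).bs.1) + (G.Q l).As.2 * ((G.frm c).cen.b.2 - (G.Q l).bs.2))
      - G.t l * ((G.Q l).As.1 ^ 2 + (G.Q l).As.2 ^ 2)) / (G.l0 * G.r ^ 2)
    = G.lf / G.l0 * ((G.Q l).r / G.r) ^ 2 * ((G.τ l).z (q₁.flow (G.t l))) - (G.nrm c q₁).y
      - 2 * (((G.frm c).cen.A.1 - (G.Q l).As.1) / G.r * (G.nrm c q₁).b.1 + ((G.frm c).cen.A.2 - (G.Q l).As.2) / G.r * (G.nrm c q₁).b.2)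
      - G.t l / G.l0 * ((G.Q l).r / G.r) ^ 2 * (((G.τ l).V (q₁.flow (G.t l))).1 ^ 2 + ((G.τ l).V (q₁.flow (G.t l))).2 ^ 2) := by
  have hl0' : G.l0 ≠ 0 := (rt_gr_l0_pos G).ne'
  have hlf' : G.lf ≠ 0 := (rt_gr_lf_pos G).ne'
  have e : rdLen (G.k0 + G.n) = G.lf := rfl
  simp only [RtGrG.nrm, RtGrG.N, RtGrG.τ, RdTst.toT, rtNrm, RtCh.comp, rtChSc, rtChCen, RtTest.V, RtTest.z, RtRow.flow, rtCfRowCen, RdFrm.cen, rtIp, rtSq, e]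
  simp
  field_simp
  ring

theorem rt_gr_par_fin (n : RtPoly) (g1 : |n.al.1| ≤ 2900 * (1 + |n.k|)) (g2 : |n.al.2| ≤ 2900 * (1 + |n.k|)) (g3 : |n.d| ≤ 21100 * (1 + |n.k|))
    (g4 : |n.c| ≤ 17000 * (1 + |n.k|)) (hB : |n.be| ≤ 200 + |n.k|) : n.Bd (10 ^ 5 * (1 + |n.k|)) := by
  have k0 : 0 ≤ |n.k| := abs_nonneg _
  obtain ⟨K, hK⟩ : ∃ K, K = |n.k| := ⟨_, rfl⟩
  rw [← hK] at g1 g2 g3 g4 hB k0 ⊢
  refine ⟨g4.trans (by linarith), g3.trans (by linarith), ?_, hB.trans (by linarith), by rw [← hK]; linarith⟩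
  unfold rtSq
  have s1 : n.al.1 ^ 2 ≤ (2900 * (1 + K)) ^ 2 := by
    rw [← sq_abs]
    exact pow_le_pow_left₀ (abs_nonneg _) g1 2
  have s2 : n.al.2 ^ 2 ≤ (2900 * (1 + K)) ^ 2 := by
    rw [← sq_abs]
    exact pow_le_pow_left₀ (abs_nonneg _) g2 2
  have s3 : (2900 * (1 + K)) ^ 2 + (2900 * (1 + K)) ^ 2 ≤ (10 ^ 5 * (1 + K)) ^ 2 := by
    have : 0 ≤ (1 + K) ^ 2 := sq_nonneg _
    rw [mul_pow, mul_pow]
    nlinarith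
  linarith

/-- **L-256-RT-GR-G6** (300 l.)   all coefficients of a parent are `≲ 1 + |k^ψ|` in the frame of a cell met by the predecessor set.
Let `(A*, b*, y*)` = the centre of the frame `c` in the label-centred physical coordinates at the root time (`u* = -t`).   Unfolding `par` (as in `rt_gr_par_k`):
`α^ψ = α_Q + 2β^ψ (A*/r) - 2k^ψ (b*/(ℓ₀ r))`,   `d^ψ = ρ d_Q + k^ψ y*/(ℓ₀r²) + (A*/r)·(α_Q - 2k^ψ b*/(ℓ₀r)) + |A*/r|² β^ψ`,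
`c^ψ = δρ c_Q - θρ d_Q + α_Q·b*/(ℓ₀r) + (β_Q/ρ) y*/(ℓ₀r²) + k^ψ(-θ y*/(ℓ₀r²) - |b*/(ℓ₀r)|²)`,   `|β^ψ| ≤ 200 + |k^ψ|`;
`|A*/r|, |b*/(ℓ₀r)|, |y*/(ℓ₀r²)|` are bounded since `q₁ ∈ Pre l` is at distance `≤ 2` from the centre of the frame and `q̃₁ ∈ τ.box 6`.
ALTERNATIVE (shorter): evaluate `rt_gr_par_F`, `rt_gr_par_G` at a few explicit rows near `q₁` and solve for the coefficients. -/
theorem rt_gr_par_bd : ∃ CB : ℝ, 1 ≤ CB ∧ ∀ (G : RtGrG), G.Ok → ∀ (l : Fin G.L) (q₁ : RtRow), q₁ ∈ G.Pre l →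
    (G.par (G.cell q₁) l).Bd (CB * (1 + |(G.par (G.cell q₁) l).k|)) := by
  refine ⟨10 ^ 5, by norm_num, fun G hG l q₁ hq₁ => ?_⟩
  obtain ⟨c, hc⟩ : ∃ c, c = G.cell q₁ := ⟨_, rfl⟩
  have hu := rt_gr_cell_unit G hG.r_pos q₁
  rw [← hc] at hu ⊢
  have hr := hG.r_pos
  have hrl : 0 < (G.Q l).r := by linarith [(hG.lab_r l).1]
  have hl0 := rt_gr_l0_pos G
  have hlf := rt_gr_lf_pos G
  obtain ⟨hbx, hbz, hbV⟩ := hq₁.1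
  obtain ⟨hX1, hX2⟩ := rt_gr_sq_abs (by norm_num) hbx
  obtain ⟨hV1, hV2⟩ := rt_gr_sq_abs (by norm_num) hbV
  have hadm := (hG.adm l).bd
  have hn : (G.τ l).n = (G.Q l).n := rfl
  rw [hn, mul_one] at hadm
  obtain ⟨hcQ, hdQ, halQ, -, -⟩ := hadm
  obtain ⟨hα1, hα2⟩ := rt_gr_sq_abs (by norm_num) halQ
  have hρ : 0 ≤ (G.Q l).r / G.r ∧ (G.Q l).r / G.r ≤ 1 := ⟨(div_pos hrl hr).le, (div_le_one hr).2 (hG.lab_r l).2⟩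
  have hδ : 0 ≤ G.lf / G.l0 ∧ G.lf / G.l0 ≤ 1 := by
    refine ⟨(div_pos hlf hl0).le, (div_le_one hl0).2 ?_⟩
    rw [rt_gr_lf_eq]
    have : (2 : ℝ)⁻¹ ^ G.n ≤ 1 := pow_le_one₀ (by norm_num) (by norm_num)
    nlinarith
  have hθ : 0 ≤ G.t l / G.l0 ∧ G.t l / G.l0 ≤ 1 := ⟨div_nonneg (hG.t_nn l) hl0.le, (div_le_one hl0).2 (hG.t_le l)⟩
  have hB : |(G.par c l).be| ≤ 200 + |(G.par c l).k| := by
    have h1 := rt_gr_par_be_le G hG c l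
    have h2 : |G.t l / G.l0 * (G.par c l).k| ≤ 1 * |(G.par c l).k| :=
      rt_gr_g6_am (abs_le.2 ⟨by linarith [hθ.1], hθ.2⟩) le_rfl
    rw [abs_le] at h1 h2 ⊢
    constructor <;> linarith [h1.1, h1.2, h2.1, h2.2]
  have hform := rt_gr_pol_formula G.l0 G.lf G.r (G.t l) hl0.ne' hlf.ne' hr.ne' (G.Q l) hrl.ne' (G.frm c).cen _ _ _ _ _ rfl rfl rfl rfl rfl
  have hpar : (rtNrm G.l0 G.r (G.frm c).cen).pol (rtGrM (G.t l) G.lf (G.Q l)) = G.par c l := rfl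
  rw [hpar] at hform
  obtain ⟨f1, f2, f3, f4⟩ := hform
  have e : rdLen (G.k0 + G.n) = G.lf := rfl
  have hl0' := hl0.ne'
  have hlf' := hlf.ne'
  have hr' := hr.ne'
  have hrl' := hrl.ne'
  have i1 := rt_gr_par_geo1 G hr' c l hrl' q₁
  have i2 := rt_gr_par_geo2 G hr' c l hrl' q₁
  have i3 := rt_gr_par_geo3 G hr' c l hrl' q₁
  have i4 := rt_gr_par_geo4 G hr' c l hrl' q₁
  have i5 := rt_gr_par_geo5 G hr' c l hrl' q₁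
  obtain ⟨A1, A2, B1, B2, hyy⟩ := rt_gr_par_core1 ((G.Q l).r / G.r) (G.lf / G.l0) (G.t l / G.l0) ((G.τ l).V (q₁.flow (G.t l))).1 ((G.τ l).V (q₁.flow (G.t l))).2
    ((G.τ l).x (q₁.flow (G.t l))).1 ((G.τ l).x (q₁.flow (G.t l))).2 ((G.τ l).z (q₁.flow (G.t l))) (G.nrm c q₁).A.1 (G.nrm c q₁).A.2 (G.nrm c q₁).b.1 (G.nrm c q₁).b.2
    (G.nrm c q₁).y _ _ _ _ _ hρ hδ hθ hbV hV1 hV2 hX1 hX2 hbz (rt_gr_g6_unit hu.1) (rt_gr_g6_unit hu.2.1) (rt_gr_g6_unit hu.2.2.1) (rt_gr_g6_unit hu.2.2.2.1)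
    (rt_gr_g6_unit hu.2.2.2.2) i1 i2 i3 i4 i5
  obtain ⟨g1, g2, g3, g4⟩ := rt_gr_par_core2 ((G.Q l).r / G.r) (G.lf / G.l0) (G.t l / G.l0) (G.Q l).n.c (G.Q l).n.d (G.Q l).n.al.1 (G.Q l).n.al.2 (G.par c l).k (G.par c l).be
    _ _ _ _ _ hρ hδ hθ hcQ hdQ hα1 hα2 hB A1 A2 B1 B2 hyy
  rw [← f1] at g1
  rw [← f2] at g2
  rw [← f3] at g3
  rw [← f4] at g4
  exact rt_gr_par_fin _ g1 g2 g3 g4 hB

/-- on the predecessor set the parent is small: `|G^ψ| ≤ Mp f`, `|F^ψ| ≤ 2 Mp f`   (from `rt_gr_par_F`, `rt_gr_par_G`; `δ, ρ, θ ≤ 1`) -/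
theorem rt_gr_par_small (G : RtGrG) (hG : G.Ok) (c : Fin 5 → ℤ) (l : Fin G.L) (q : RtRow) (hq : q ∈ G.Pre l) :
    |(G.par c l).F 0 (G.nrm c q).b (G.nrm c q).y| ≤ 2 * G.Mp * G.f ∧ |(G.par c l).G 0 (G.nrm c q).b (G.nrm c q).y (G.nrm c q).A| ≤ 2 * G.Mp * G.f := by
  obtain ⟨r1, -, r3, r4⟩ := rt_gr_par_rho G hG l
  obtain ⟨-, hF, hGv⟩ := hq
  have hl0 := rt_gr_l0_pos G
  have hlf := rt_gr_lf_pos G
  have hB : 0 ≤ G.Mp * G.f := mul_nonneg (by linarith [hG.Mp_ge]) hG.f_pos.le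
  have d1 : 0 ≤ G.lf / G.l0 := (div_pos hlf hl0).le
  have d2 : G.lf / G.l0 ≤ 1 := by
    rw [div_le_one hl0, rt_gr_lf_eq]
    exact mul_le_of_le_one_left hl0.le (pow_le_one₀ (by norm_num) (by norm_num))
  have t1 : 0 ≤ G.t l / G.l0 := div_nonneg (hG.t_nn l) hl0.le
  have t2 : G.t l / G.l0 ≤ 1 := by
    rw [div_le_one hl0]
    exact hG.t_le l
  have g1 : |(G.Q l).r / G.r * (G.τ l).Gv (q.flow (G.t l))| ≤ G.Mp * G.f := by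
    rw [abs_mul, abs_of_nonneg r3]
    calc (G.Q l).r / G.r * |(G.τ l).Gv (q.flow (G.t l))| ≤ 1 * (G.Mp * G.f) := mul_le_mul r4 hGv (abs_nonneg _) (by norm_num)
      _ = _ := one_mul _
  have f1 : |(G.Q l).r / G.r * (G.τ l).Fv (q.flow (G.t l))| ≤ G.Mp * G.f := by
    rw [abs_mul, abs_of_nonneg r3]
    calc (G.Q l).r / G.r * |(G.τ l).Fv (q.flow (G.t l))| ≤ 1 * (G.Mp * G.f) := mul_le_mul r4 hF (abs_nonneg _) (by norm_num)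
      _ = _ := one_mul _
  constructor
  · rw [rt_gr_par_F G hG.r_pos.ne' c l r1.ne' q, mul_assoc, mul_assoc]
    have a1 : |G.lf / G.l0 * ((G.Q l).r / G.r * (G.τ l).Fv (q.flow (G.t l)))| ≤ G.Mp * G.f := by
      rw [abs_mul, abs_of_nonneg d1]
      calc G.lf / G.l0 * |(G.Q l).r / G.r * (G.τ l).Fv (q.flow (G.t l))| ≤ 1 * (G.Mp * G.f) := mul_le_mul d2 f1 (abs_nonneg _) (by norm_num)
        _ = _ := one_mul _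
    have a2 : |G.t l / G.l0 * ((G.Q l).r / G.r * (G.τ l).Gv (q.flow (G.t l)))| ≤ G.Mp * G.f := by
      rw [abs_mul, abs_of_nonneg t1]
      calc G.t l / G.l0 * |(G.Q l).r / G.r * (G.τ l).Gv (q.flow (G.t l))| ≤ 1 * (G.Mp * G.f) := mul_le_mul t2 g1 (abs_nonneg _) (by norm_num)
        _ = _ := one_mul _
    have := abs_sub (G.lf / G.l0 * ((G.Q l).r / G.r * (G.τ l).Fv (q.flow (G.t l)))) (G.t l / G.l0 * ((G.Q l).r / G.r * (G.τ l).Gv (q.flow (G.t l))))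
    linarith
  · rw [rt_gr_par_G G hG.r_pos.ne' c l r1.ne' q]
    linarith

/-! ## 4. the correspondences -/

/-- triangle inequality for `rtSq` (helper of G7) -/
theorem rt_gr_near_tri {u v : ℝ × ℝ} {a b : ℝ} (ha : 0 ≤ a) (hb : 0 ≤ b) (hu : rtSq u ≤ a ^ 2) (hv : rtSq (u - v) ≤ b ^ 2) :
    rtSq v ≤ (a + b) ^ 2 := by
  have h := abs_le.1 (rtIp_abs_le ha hb hu hv)
  have e : rtSq v = rtSq u - 2 * rtIp u (u - v) + rtSq (u - v) := by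
    simp only [rtSq, rtIp, Prod.fst_sub, Prod.snd_sub]
    ring
  rw [e]
  nlinarith [h.1, h.2]

/-- the correspondence in the units of a test (helper of G7) -/
theorem rt_gr_near_nrm (τ : RtTest) (hl : 0 < τ.l) (hr : 0 < τ.r) (p p' : RtRow) (a b c ε : ℝ) (h1 : rtSq (p'.A - p.A) ≤ a) (h2 : rtSq (p'.b - p.b) ≤ b)
    (h3 : |p'.y - p.y - 2 * rtIp p.A (p'.b - p.b)| ≤ c) (ha : a ≤ (τ.r * ε) ^ 2) (hb : b ≤ (τ.l * τ.r * ε) ^ 2) (hc : c ≤ τ.l * τ.r ^ 2 * ε ^ 2) :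
    RtNear 1 ε ε (ε ^ 2) ⟨τ.V p, τ.x p, τ.z p⟩ ⟨τ.V p', τ.x p', τ.z p'⟩ := by
  have hlr : 0 < τ.l * τ.r := mul_pos hl hr
  have hlr2 : 0 < τ.l * τ.r ^ 2 := by positivity
  refine ⟨?_, ?_, ?_⟩
  · show rtSq (τ.V p' - τ.V p) ≤ (1 * ε) ^ 2
    have e : rtSq (τ.V p' - τ.V p) = rtSq (p'.A - p.A) / τ.r ^ 2 := by
      simp only [RtTest.V, rtSq, Prod.fst_sub, Prod.snd_sub, Prod.smul_fst, Prod.smul_snd, smul_eq_mul]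
      field_simp
      ring
    rw [e, div_le_iff₀ (by positivity)]
    calc rtSq (p'.A - p.A) ≤ (τ.r * ε) ^ 2 := h1.trans ha
      _ = (1 * ε) ^ 2 * τ.r ^ 2 := by ring
  · show rtSq (τ.x p' - τ.x p) ≤ (1 * ε) ^ 2
    have e : rtSq (τ.x p' - τ.x p) = rtSq (p'.b - p.b) / (τ.l * τ.r) ^ 2 := by
      simp only [RtTest.x, rtSq, Prod.fst_sub, Prod.snd_sub, Prod.smul_fst, Prod.smul_snd, smul_eq_mul]
      field_simp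
      ring
    rw [e, div_le_iff₀ (by positivity)]
    calc rtSq (p'.b - p.b) ≤ (τ.l * τ.r * ε) ^ 2 := h2.trans hb
      _ = (1 * ε) ^ 2 * (τ.l * τ.r) ^ 2 := by ring
  · show |τ.z p' - τ.z p - 2 * rtIp (τ.V p) (τ.x p' - τ.x p)| ≤ 1 * ε ^ 2
    have e : τ.z p' - τ.z p - 2 * rtIp (τ.V p) (τ.x p' - τ.x p) = (p'.y - p.y - 2 * rtIp p.A (p'.b - p.b)) / (τ.l * τ.r ^ 2) := by
      simp only [RtTest.V, RtTest.x, RtTest.z, rtIp, Prod.fst_sub, Prod.snd_sub, Prod.smul_fst, Prod.smul_snd, smul_eq_mul]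
      field_simp
      ring
    rw [e, abs_div, abs_of_pos hlr2, div_le_iff₀ hlr2]
    calc |p'.y - p.y - 2 * rtIp p.A (p'.b - p.b)| ≤ τ.l * τ.r ^ 2 * ε ^ 2 := h3.trans hc
      _ = 1 * ε ^ 2 * (τ.l * τ.r ^ 2) := by ring

/-- **L-256-RT-GR-G7** (250 l.)   the `Λ`-predecessors of the rows of a label lie in `Pre l`.      In `τ`-units (`ℓf, r_l`):  `d_kf ≤ r_l f_l`,  `q_k0 = ℓf d_kf √(2^n)`,  `H = ℓf d_kf²`: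
`|ΔV| ≤ Λ f`,  `|Δx| ≤ Λ f √(2^n) =: ε ≤ 1`,  `|Δz| ≤ Λ f² + 2|V| ε`;   so `q̃ ∈ box 6` (`|V|, |x| ≤ 2`, `|z| ≤ 1 + 1 + 4`), and `|ΔF|, |ΔG| ≤ 100 · 13 · 6 ε` (`rt_gr_lip` with the roles of `w, w'` as you like). -/
theorem rt_gr_near (G : RtGrG) (hG : G.Ok) (l : Fin G.L) (Λ H : ℝ) (hΛ : 1 ≤ Λ) (hH : 0 ≤ H) (hd : rdD H (G.k0 + G.n) ≤ (G.Q l).r * (G.Q l).f)
    (hsm : Λ * G.f * Real.sqrt (2 ^ G.n) ≤ 1) (hMp : 10 ^ 4 * Λ * Real.sqrt (2 ^ G.n) ≤ G.Mp) (q p' : RtRow) (hp' : p' ∈ (G.Q l).rows (G.k0 + G.n))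
    (hn : RtNear Λ (rdD H (G.k0 + G.n)) (rdQ H G.k0) H (q.flow (G.t l)) p') : q ∈ G.Pre l := by
  have adm := hG.adm l
  have hl : 0 < (G.τ l).l := adm.l_pos
  have hr : 0 < (G.τ l).r := adm.r_pos
  have hfl0 : 0 < (G.τ l).f := adm.f_pos
  have hfl : (G.τ l).f ≤ G.f := (hG.lab_f l).2
  have hf0 : 0 < G.f := hG.f_pos
  have hd' : rdD H (G.k0 + G.n) ≤ (G.τ l).r * (G.τ l).f := hd
  have hp2 : p' ∈ (G.τ l).set 1 := hp'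
  have hlf : (G.τ l).l = G.lf := rfl
  -- the scales
  have hd0 : 0 ≤ rdD H (G.k0 + G.n) := Real.sqrt_nonneg _
  have hdsq : rdD H (G.k0 + G.n) ^ 2 = H / (G.τ l).l := Real.sq_sqrt (div_nonneg hH hl.le)
  have hHeq : H = (G.τ l).l * rdD H (G.k0 + G.n) ^ 2 := by
    rw [hdsq]
    field_simp
  have hs1 : 1 ≤ Real.sqrt (2 ^ G.n) := by
    rw [Real.one_le_sqrt]
    exact one_le_pow₀ (by norm_num)
  have hssq : Real.sqrt (2 ^ G.n) ^ 2 = 2 ^ G.n := Real.sq_sqrt (by positivity)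
  have hl0 : G.l0 = 2 ^ G.n * (G.τ l).l := by
    rw [hlf, rt_gr_lf_eq, ← mul_assoc, ← mul_pow]
    norm_num
  have hqsq : rdQ H G.k0 ^ 2 = ((G.τ l).l * rdD H (G.k0 + G.n) * Real.sqrt (2 ^ G.n)) ^ 2 := by
    have e1 : rdQ H G.k0 ^ 2 = H * G.l0 := Real.sq_sqrt (mul_nonneg hH (rt_gr_l0_pos G).le)
    rw [e1, hl0, mul_pow, mul_pow, hssq]
    nth_rewrite 1 [hHeq]
    ring
  generalize rdD H (G.k0 + G.n) = d at *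
  generalize rdQ H G.k0 = Qk at *
  generalize Real.sqrt (2 ^ G.n) = s at *
  generalize hτ : G.τ l = τ at *
  generalize hp : q.flow (G.t l) = p at *
  obtain ⟨n1, n2, n3⟩ := hn
  have hε0 : 0 ≤ Λ * G.f * s := by positivity
  have hdf : d ≤ τ.r * G.f := hd'.trans (mul_le_mul_of_nonneg_left hfl hr.le)
  have hΛ0 : 0 ≤ Λ := by linarith
  have near : RtNear 1 (Λ * G.f * s) (Λ * G.f * s) ((Λ * G.f * s) ^ 2) ⟨τ.V p, τ.x p, τ.z p⟩ ⟨τ.V p', τ.x p', τ.z p'⟩ := by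
    refine rt_gr_near_nrm τ hl hr p p' _ _ _ _ n1 n2 n3 ?_ ?_ ?_
    · refine pow_le_pow_left₀ (by positivity) ?_ 2
      calc Λ * d ≤ Λ * (τ.r * G.f) := mul_le_mul_of_nonneg_left hdf hΛ0
        _ = τ.r * (Λ * G.f * 1) := by ring
        _ ≤ τ.r * (Λ * G.f * s) := by gcongr
    · rw [mul_pow, hqsq, ← mul_pow]
      refine pow_le_pow_left₀ (by positivity) ?_ 2
      calc Λ * (τ.l * d * s) ≤ Λ * (τ.l * (τ.r * G.f) * s) := by gcongr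
        _ = τ.l * τ.r * (Λ * G.f * s) := by ring
    · rw [hHeq]
      calc Λ * (τ.l * d ^ 2) ≤ Λ * (τ.l * (τ.r * G.f) ^ 2) := by gcongr
        _ = τ.l * τ.r ^ 2 * (1 * G.f ^ 2 * 1 * Λ) := by ring
        _ ≤ τ.l * τ.r ^ 2 * (Λ * G.f ^ 2 * s ^ 2 * Λ) := by
          have : (1 : ℝ) ≤ s ^ 2 := one_le_pow₀ hs1
          gcongr
        _ = τ.l * τ.r ^ 2 * (Λ * G.f * s) ^ 2 := by ring
  generalize hε : Λ * G.f * s = ε at *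
  obtain ⟨⟨bx, bz, bV⟩, bF, bG⟩ := hp2
  obtain ⟨m1, m2, m3⟩ := near
  have m1' : rtSq (τ.V p' - τ.V p) ≤ ε ^ 2 := by simpa using m1
  have m2' : rtSq (τ.x p' - τ.x p) ≤ ε ^ 2 := by simpa using m2
  have m3' : |τ.z p' - τ.z p - 2 * rtIp (τ.V p) (τ.x p' - τ.x p)| ≤ ε ^ 2 := by simpa using m3
  have hV : rtSq (τ.V p) ≤ 2 ^ 2 := by
    refine (rt_gr_near_tri zero_le_one hε0 bV m1').trans ?_
    exact pow_le_pow_left₀ (by positivity) (by linarith) 2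
  have hx : rtSq (τ.x p) ≤ 2 ^ 2 := by
    refine (rt_gr_near_tri zero_le_one hε0 bx m2').trans ?_
    exact pow_le_pow_left₀ (by positivity) (by linarith) 2
  have hz : |τ.z p| ≤ 6 := by
    have i1 := abs_le.1 (rtIp_abs_le (by norm_num : (0 : ℝ) ≤ 2) hε0 hV m2')
    have i2 := abs_le.1 m3'
    have i3 := abs_le.1 bz
    have i4 : ε ^ 2 ≤ 1 := pow_le_one₀ hε0 hsm
    rw [abs_le]
    constructor <;> linarith [i1.1, i1.2, i2.1, i2.2, i3.1, i3.2]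
  have lip := rt_gr_lip (n := τ.n) (M := 100 * 1) (R := 2) (ε := ε) (w := ⟨τ.V p, τ.x p, τ.z p⟩) (w' := ⟨τ.V p', τ.x p', τ.z p'⟩)
    (by norm_num) (by norm_num) adm.bd hε0 hsm hV hx ⟨m1, m2, m3⟩
  obtain ⟨lF, lG⟩ := lip
  have lF' : |τ.Fv p' - τ.Fv p| ≤ 7 * 2 * (100 * 1) * ε := lF
  have lG' : |τ.Gv p' - τ.Gv p| ≤ 13 * 2 * (100 * 1) * ε := lG
  have hbig : G.f + 2600 * ε ≤ G.Mp * G.f := by
    have : (10 ^ 4 * Λ * s) * G.f ≤ G.Mp * G.f := mul_le_mul_of_nonneg_right hMp hf0.le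
    have h1 : G.f ≤ ε := by
      rw [← hε]
      calc G.f = 1 * G.f * 1 := by ring
        _ ≤ Λ * G.f * s := by gcongr
    have h2 : (10 ^ 4 * Λ * s) * G.f = 10 ^ 4 * ε := by rw [← hε]; ring
    linarith
  have hq : q ∈ G.Pre l ↔ (p ∈ τ.box 6 ∧ |τ.Fv p| ≤ G.Mp * G.f ∧ |τ.Gv p| ≤ G.Mp * G.f) := by
    rw [← hτ, ← hp]
    rfl
  rw [hq]
  refine ⟨⟨hx.trans (by norm_num), hz, hV.trans (by norm_num)⟩, ?_, ?_⟩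
  · have i1 := abs_le.1 lF'
    have i2 := abs_le.1 bF
    rw [abs_le]
    constructor <;> linarith [i1.1, i1.2, i2.1, i2.2]
  · have i1 := abs_le.1 lG'
    have i2 := abs_le.1 bG
    rw [abs_le]
    constructor <;> linarith [i1.1, i1.2, i2.1, i2.2]

/-- **L-256-RT-GR-G8** (100 l.)   the correspondence at ONE cut is covariant under a normalising chart: `ε = Λ d_k/r`, `q_k = ℓ d_k`, `H = ℓ d_k²` (`ℓ = rdLen k`);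
`Δz = [(y'-y-2A·Δb) + 2(A - A_c)·Δb]/(ℓ r²)`, so `Δz - 2V·Δx = (y'-y-2A·Δb)/(ℓr²)`, `≤ Λ d²/r² ≤ ε²`. -/
theorem rt_gr_same (k : ℕ) (r Λ H : ℝ) (hr : 0 < r) (hΛ : 1 ≤ Λ) (hH : 0 ≤ H) (cen p p' : RtRow) (hn : RtNear Λ (rdD H k) (rdQ H k) H p p') :
    RtNear 1 (Λ * rdD H k / r) (Λ * rdD H k / r) ((Λ * rdD H k / r) ^ 2) ((rtNrm (rdLen k) r cen).row p) ((rtNrm (rdLen k) r cen).row p') := by
  have hl : 0 < rdLen k := rdLen_pos k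
  have hd2 : rdD H k ^ 2 = H / rdLen k := Real.sq_sqrt (div_nonneg hH hl.le)
  have hq2 : rdQ H k ^ 2 = H * rdLen k := Real.sq_sqrt (mul_nonneg hH hl.le)
  obtain ⟨n1, n2, n3⟩ := hn
  generalize rdD H k = d at *
  generalize rdQ H k = q at *
  generalize rdLen k = l at *
  have hH' : H = d ^ 2 * l := by
    rw [hd2]
    field_simp
  have e1 : rtSq (((rtNrm l r cen).row p').A - ((rtNrm l r cen).row p).A) = rtSq (p'.A - p.A) / r ^ 2 := by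
    simp only [rtNrm, RtCh.comp, rtChSc, rtChCen, rtCfRowCen, rtSq, Prod.fst_sub, Prod.snd_sub, Prod.smul_fst, Prod.smul_snd, smul_eq_mul]
    field_simp
    ring
  have e2 : rtSq (((rtNrm l r cen).row p').b - ((rtNrm l r cen).row p).b) = rtSq (p'.b - p.b) / (l * r) ^ 2 := by
    simp only [rtNrm, RtCh.comp, rtChSc, rtChCen, rtCfRowCen, rtSq, Prod.fst_sub, Prod.snd_sub, Prod.smul_fst, Prod.smul_snd, smul_eq_mul]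
    field_simp
    ring
  have e3 : ((rtNrm l r cen).row p').y - ((rtNrm l r cen).row p).y
      - 2 * rtIp ((rtNrm l r cen).row p).A (((rtNrm l r cen).row p').b - ((rtNrm l r cen).row p).b)
      = (p'.y - p.y - 2 * rtIp p.A (p'.b - p.b)) / (l * r ^ 2) := by
    simp only [rtNrm, RtCh.comp, rtChSc, rtChCen, rtCfRowCen, rtIp, Prod.fst_sub, Prod.snd_sub, Prod.smul_fst, Prod.smul_snd, smul_eq_mul]
    field_simp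
    ring
  refine ⟨?_, ?_, ?_⟩
  · rw [e1, one_mul, div_pow]
    exact div_le_div_of_nonneg_right n1 (by positivity)
  · rw [e2, one_mul, div_pow, div_le_div_iff₀ (by positivity) (by positivity)]
    calc rtSq (p'.b - p.b) * r ^ 2 ≤ (Λ * q) ^ 2 * r ^ 2 := mul_le_mul_of_nonneg_right n2 (by positivity)
      _ = (Λ * d) ^ 2 * (l * r) ^ 2 := by
        rw [mul_pow, hq2, hH']
        ring
  · rw [e3, one_mul, abs_div, abs_of_pos (by positivity : 0 < l * r ^ 2), div_pow, div_le_div_iff₀ (by positivity) (by positivity)]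
    have hd0 : 0 ≤ d ^ 2 := sq_nonneg d
    calc |p'.y - p.y - 2 * rtIp p.A (p'.b - p.b)| * r ^ 2 ≤ Λ * H * r ^ 2 := mul_le_mul_of_nonneg_right n3 (by positivity)
      _ = Λ * (d ^ 2 * (l * r ^ 2)) := by
        rw [hH']
        ring
      _ ≤ Λ ^ 2 * (d ^ 2 * (l * r ^ 2)) := by
        apply mul_le_mul_of_nonneg_right _ (by positivity)
        nlinarith
      _ = (Λ * d) ^ 2 * (l * r ^ 2) := by ring

/-- **L-256-RT-GR-G9** (120 l.)   stability of the patch under the correspondence (`rt_gr_lip` with `R = 2`;   `w'.y - p₀.y - 2p₀.A·(w'.b - p₀.b) = [same for w] + [Δz - 2w.A·Δx] + 2(w.A - p₀.A)·Δx`) -/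
theorem rt_gr_in_stab (d : RtPd) (Pp Mb fs ε : ℝ) (hP : 1 ≤ Pp) (hMb : 0 ≤ Mb) (hbd : d.nL.Bd Mb) (hε0 : 0 ≤ ε) (h1 : 4 * ε ≤ rtChRho Pp / 4) (h2 : 26 * Mb * ε ≤ fs / 2) {w w' : RtRow}
    (hA : rtSq w.A ≤ 2 ^ 2) (hb : rtSq w.b ≤ 2 ^ 2) (hw : w ∈ rtBx d.p0 1 (rtChRho Pp / 4)) (hF : |d.nL.F 0 w.b w.y| ≤ fs / 2)
    (hGv : |d.nL.G 0 w.b w.y w.A| ≤ fs / 2) (hnear : RtNear 1 ε ε (ε ^ 2) w w') : w' ∈ d.In Pp fs := by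
  obtain ⟨hρ0, -, -, hρ1, -⟩ := rt_chp_rho hP
  have hε1 : ε ≤ 1 := by linarith
  obtain ⟨l1, l2⟩ := rt_gr_lip (n := d.nL) (M := Mb) (R := 2) (ε := ε) (by norm_num) hMb hbd hε0 hε1 hA hb hnear
  obtain ⟨n1, n2, n3⟩ := hnear
  obtain ⟨w1, w2, w3⟩ := hw
  rw [one_mul] at n1 n2 n3
  rw [mul_one] at w1 w3
  rw [one_pow, mul_one] at w2
  have hMε : 0 ≤ Mb * ε := mul_nonneg hMb hε0
  refine ⟨⟨?_, ?_, ?_⟩, ?_, ?_⟩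
  · have e : w'.b - d.p0.b = (w'.b - w.b) + (w.b - d.p0.b) := by abel
    rw [e, mul_one]
    refine (rt_chp_sq_add hε0 (by linarith) n2 w1).trans ?_
    exact pow_le_pow_left₀ (by linarith) (by linarith) 2
  · have e : w'.y - d.p0.y - 2 * rtIp d.p0.A (w'.b - d.p0.b) = (w.y - d.p0.y - 2 * rtIp d.p0.A (w.b - d.p0.b))
        + (w'.y - w.y - 2 * rtIp w.A (w'.b - w.b)) + 2 * rtIp (w.A - d.p0.A) (w'.b - w.b) := by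
      simp only [rtIp, Prod.fst_sub, Prod.snd_sub]
      ring
    have k := rtIp_abs_le (by linarith : 0 ≤ rtChRho Pp / 4) hε0 w3 n2
    rw [e, one_pow, mul_one]
    have a1 := abs_le.1 w2
    have a2 := abs_le.1 n3
    have a3 := abs_le.1 k
    have hsq : ε ^ 2 ≤ ε := by nlinarith
    have hre : rtChRho Pp / 4 * ε ≤ ε := by nlinarith
    rw [abs_le]
    constructor <;> linarith [a1.1, a1.2, a2.1, a2.2, a3.1, a3.2]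
  · have e : w'.A - d.p0.A = (w'.A - w.A) + (w.A - d.p0.A) := by abel
    rw [e, mul_one]
    refine (rt_chp_sq_add hε0 (by linarith) n1 w3).trans ?_
    exact pow_le_pow_left₀ (by linarith) (by linarith) 2
  · have a1 := abs_le.1 l1
    have a2 := abs_le.1 hF
    rw [abs_le]
    constructor <;> nlinarith [a1.1, a1.2, a2.1, a2.2]
  · have a1 := abs_le.1 l2
    have a2 := abs_le.1 hGv
    rw [abs_le]
    constructor <;> nlinarith [a1.1, a1.2, a2.1, a2.2]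

theorem rt_gr_patch_fl {h x y : ℝ} (hh : 0 < h) (e : ⌊x / h⌋ = ⌊y / h⌋) : |x - y| ≤ h := by
  have := Int.abs_sub_lt_one_of_floor_eq_floor e
  have e2 : x / h - y / h = (x - y) / h := by ring
  rw [e2, abs_div, abs_of_pos hh, div_lt_one hh] at this
  exact this.le

/-- **L-256-RT-GR-G10** (200 l.)   one fine cell lies in one chart patch.      `rt_chart_ray` at the witness `w₀` gives the exact ray `p₀` (`|p₀.b - w₀.b|, |p₀.A - w₀.A| ≤ 2φ`, `p₀.y - w₀.y = 2w₀.A·(p₀.b - w₀.b)`), `rt_chart_ok` the chart;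
`|w.b - p₀.b|, |w.A - p₀.A| ≤ 2hg + 2φ`,   `w.y - p₀.y - 2p₀.A·(w.b - p₀.b) = (w.y - w₀.y) - 2w₀.A·(p₀.b - w₀.b) - 2p₀.A·(w.b - p₀.b)`: `≤ hg + 8φ + 6(2hg + 2φ)`. -/
theorem rt_gr_patch_box (n : RtPoly) (Pp φ hg : ℝ) (hP : 2 ≤ Pp) (hd : n.disc = 1) (hn : n.Bd Pp) (hφ0 : 0 ≤ φ) (hφ : Pp * φ ≤ 1 / 16) (hhg : 0 < hg) (w₀ : RtRow)
    (hu : (0 ≤ w₀.A.1 ∧ w₀.A.1 < 1) ∧ (0 ≤ w₀.A.2 ∧ w₀.A.2 < 1) ∧ (0 ≤ w₀.b.1 ∧ w₀.b.1 < 1) ∧ (0 ≤ w₀.b.2 ∧ w₀.b.2 < 1) ∧ (0 ≤ w₀.y ∧ w₀.y < 1))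
    (hF : |n.F 0 w₀.b w₀.y| ≤ φ) (hGv : |n.G 0 w₀.b w₀.y w₀.A| ≤ φ) :
    ∃ p₀ : RtRow, RtChartOk Pp n p₀ ∧ ∀ w : RtRow, rtGrRnd hg w = rtGrRnd hg w₀ → w ∈ rtBx p₀ 1 (13 * hg + 20 * φ) := by
  obtain ⟨⟨u1, u1'⟩, ⟨u2, u2'⟩, ⟨u3, u3'⟩, ⟨u4, u4'⟩, ⟨u5, u5'⟩⟩ := hu
  have hφ1 : φ ≤ 1 / 32 := by nlinarith
  have hbe := hn.2.2.2.1
  have hk := hn.2.2.2.2
  obtain ⟨p₀, pF, pG, pb, py, pA⟩ := rt_chart_ray n hd w₀ ((rt_chp_mul hbe hGv).trans hφ) ((rt_chp_mul hk hF).trans hφ)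
  have pb' : rtSq (p₀.b - w₀.b) ≤ (2 * φ) ^ 2 := pb.trans (pow_le_pow_left₀ (by positivity) (by linarith) 2)
  have pA' : rtSq (p₀.A - w₀.A) ≤ (2 * φ) ^ 2 := pA.trans (pow_le_pow_left₀ (by positivity) (by linarith) 2)
  have wA : rtSq w₀.A ≤ 2 ^ 2 := by
    unfold rtSq
    nlinarith
  have wb : rtSq w₀.b ≤ 2 ^ 2 := by
    unfold rtSq
    nlinarith
  have h2φ : (0 : ℝ) ≤ 2 * φ := by positivity
  have p0A : rtSq p₀.A ≤ 3 ^ 2 := by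
    have e : p₀.A = (p₀.A - w₀.A) + w₀.A := by abel
    rw [e]
    exact (rt_chp_sq_add h2φ (by norm_num) pA' wA).trans (pow_le_pow_left₀ (by linarith) (by linarith) 2)
  have p0b : rtSq p₀.b ≤ 3 ^ 2 := by
    have e : p₀.b = (p₀.b - w₀.b) + w₀.b := by abel
    rw [e]
    exact (rt_chp_sq_add h2φ (by norm_num) pb' wb).trans (pow_le_pow_left₀ (by linarith) (by linarith) 2)
  have kip := rtIp_abs_le (by norm_num : (0 : ℝ) ≤ 2) h2φ wA pb'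
  have p0y : |p₀.y| ≤ 2 := by
    have a := abs_le.1 kip
    rw [abs_le]
    constructor <;> linarith [a.1, a.2]
  have h3P : (3 : ℝ) ^ 2 ≤ (2 * Pp) ^ 2 := pow_le_pow_left₀ (by norm_num) (by linarith) 2
  refine ⟨p₀, rt_chart_ok (by linarith) n hd hn p₀ pF pG (p0A.trans h3P) (p0b.trans h3P) (p0y.trans (by linarith)), ?_⟩
  intro w hw
  have c0 := congrFun hw 0
  have c1 := congrFun hw 1
  have c2 := congrFun hw 2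
  have c3 := congrFun hw 3
  have c4 := congrFun hw 4
  simp [rtGrRnd] at c0 c1 c2 c3 c4
  have d0 := rt_gr_patch_fl hhg c0
  have d1 := rt_gr_patch_fl hhg c1
  have d2 := rt_gr_patch_fl hhg c2
  have d3 := rt_gr_patch_fl hhg c3
  have d4 := rt_gr_patch_fl hhg c4
  have h2g : (0 : ℝ) ≤ 2 * hg := by positivity
  have dA : rtSq (w.A - w₀.A) ≤ (2 * hg) ^ 2 := by
    have e : w.A - w₀.A = (w.A.1 - w₀.A.1, w.A.2 - w₀.A.2) := rfl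
    rw [e]
    exact rt_chp_sq_mk d0 d1 (by nlinarith)
  have db : rtSq (w.b - w₀.b) ≤ (2 * hg) ^ 2 := by
    have e : w.b - w₀.b = (w.b.1 - w₀.b.1, w.b.2 - w₀.b.2) := rfl
    rw [e]
    exact rt_chp_sq_mk d2 d3 (by nlinarith)
  have qb : rtSq (w.b - p₀.b) ≤ (2 * hg + 2 * φ) ^ 2 := by
    have e : w.b - p₀.b = (w.b - w₀.b) - (p₀.b - w₀.b) := by abel
    rw [e]
    exact rt_chp_sq_sub h2g h2φ db pb'
  have qA : rtSq (w.A - p₀.A) ≤ (2 * hg + 2 * φ) ^ 2 := by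
    have e : w.A - p₀.A = (w.A - w₀.A) - (p₀.A - w₀.A) := by abel
    rw [e]
    exact rt_chp_sq_sub h2g h2φ dA pA'
  have hmono : (2 * hg + 2 * φ) ^ 2 ≤ ((13 * hg + 20 * φ) * 1) ^ 2 := pow_le_pow_left₀ (by positivity) (by linarith) 2
  refine ⟨qb.trans hmono, ?_, qA.trans hmono⟩
  have k2 := rtIp_abs_le (by norm_num : (0 : ℝ) ≤ 3) (by positivity : (0 : ℝ) ≤ 2 * hg + 2 * φ) p0A qb
  have e : w.y - p₀.y - 2 * rtIp p₀.A (w.b - p₀.b) = (w.y - w₀.y) - 2 * rtIp w₀.A (p₀.b - w₀.b) - 2 * rtIp p₀.A (w.b - p₀.b) := by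
    linarith
  rw [e, one_pow, mul_one]
  have a1 := abs_le.1 d4
  have a2 := abs_le.1 kip
  have a3 := abs_le.1 k2
  rw [abs_le]
  constructor <;> linarith [a1.1, a1.2, a2.1, a2.2, a3.1, a3.2]

end Claimed.Agent.R256
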