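-- KEEP
import Claimed.Agent.R256.Rt.Grp.Geo

/-!
# Row 256 (LS paper), folder Rt, block GROUP, file Grp/Key : THE KEYS (logic, groups, counting, measurability)          (architect helper111; prefix `rt_gr_`)          CONTRACT: the `sorry`s are the leaves `L-256-RT-GR-K*`

MODEL FREE.   Prove a leaf IN PLACE, statement verbatim.   Black boxes: `Rt/Grp/Geo.lean`.
-/

set_option autoImplicit false

namespace Claimed.Agent.R256

open MeasureTheory

/-! ## 1. the logic of the first key -/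

theorem rt_gr_mem_hit (G : RtGrG) (q : RtRow) (l : Fin G.L) : l ∈ G.hit q ↔ q ∈ G.Pre l := by
  classical
  simp [RtGrG.hit]

/-- the four cases of the first key -/
theorem rt_gr_key_cases (G : RtGrG) (q : RtRow) :
    (¬ (G.hit q).Nonempty ∧ G.key q = (0, 0, 0)) ∨
    ∃ h : (G.hit q).Nonempty,
      ((∃ l ∈ G.hit q, ∃ l' ∈ G.hit q, G.Far (G.cell q) l l') ∧ G.key q = (1, 0, 0)) ∨
      ((¬ ∃ l ∈ G.hit q, ∃ l' ∈ G.hit q, G.Far (G.cell q) l l') ∧ G.kb < |(G.rep (G.cell q) (G.lat (G.cell q) ((G.hit q).min' h))).k| ∧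
        G.key q = (2, G.cell q, G.lat (G.cell q) ((G.hit q).min' h))) ∨
      ((¬ ∃ l ∈ G.hit q, ∃ l' ∈ G.hit q, G.Far (G.cell q) l l') ∧ ¬ G.kb < |(G.rep (G.cell q) (G.lat (G.cell q) ((G.hit q).min' h))).k| ∧
        G.key q = (3, G.cell q, G.lat (G.cell q) ((G.hit q).min' h))) := by
  classical
  by_cases h : (G.hit q).Nonempty
  · refine Or.inr ⟨h, ?_⟩
    by_cases h1 : ∃ l ∈ G.hit q, ∃ l' ∈ G.hit q, G.Far (G.cell q) l l'
    · refine Or.inl ⟨h1, ?_⟩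
      unfold RtGrG.key RtGrG.keyOf
      rw [dif_pos h, if_pos h1]
    · by_cases h2 : G.kb < |(G.rep (G.cell q) (G.lat (G.cell q) ((G.hit q).min' h))).k|
      · refine Or.inr (Or.inl ⟨h1, h2, ?_⟩)
        unfold RtGrG.key RtGrG.keyOf
        rw [dif_pos h, if_neg h1, if_pos h2]
      · refine Or.inr (Or.inr ⟨h1, h2, ?_⟩)
        unfold RtGrG.key RtGrG.keyOf
        rw [dif_pos h, if_neg h1, if_neg h2]
  · refine Or.inl ⟨h, ?_⟩
    unfold RtGrG.key RtGrG.keyOf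
    rw [dif_neg h]

/-- **L-256-RT-GR-K1** (120 l., with the next three)   unfold `key`, `keyOf`; `split_ifs`; `Finset.min'_mem` -/
theorem rt_gr_key_tag (G : RtGrG) (q : RtRow) : (G.key q = (0, 0, 0) ∧ ∀ l, q ∉ G.Pre l) ∨ G.key q = (1, 0, 0) ∨
    G.key q = (2, G.cell q, (G.key q).2.2) ∨ G.key q = (3, G.cell q, (G.key q).2.2) := by
  rcases rt_gr_key_cases G q with ⟨h, e⟩ | ⟨h, ⟨-, e⟩ | ⟨-, -, e⟩ | ⟨-, -, e⟩⟩
  · exact Or.inl ⟨e, fun l hl => h ⟨l, (rt_gr_mem_hit G q l).2 hl⟩⟩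
  · exact Or.inr (Or.inl e)
  · refine Or.inr (Or.inr (Or.inl ?_))
    rw [e]
  · refine Or.inr (Or.inr (Or.inr ?_))
    rw [e]

/-- a row of a predecessor set has a tag `≠ 0` -/
theorem rt_gr_key_ne0 (G : RtGrG) (q : RtRow) (l : Fin G.L) (hq : q ∈ G.Pre l) : (G.key q).1 ≠ 0 := by
  rcases rt_gr_key_cases G q with ⟨h, -⟩ | ⟨h, ⟨-, e⟩ | ⟨-, -, e⟩ | ⟨-, -, e⟩⟩
  · exact absurd ⟨l, (rt_gr_mem_hit G q l).2 hq⟩ h
  all_goals
    rw [e]
    norm_num

/-- ambiguous rows -/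
theorem rt_gr_key_amb (G : RtGrG) (q : RtRow) (h : G.key q = (1, 0, 0)) : ∃ l l', q ∈ G.Pre l ∧ q ∈ G.Pre l' ∧ G.Far (G.cell q) l l' := by
  rcases rt_gr_key_cases G q with ⟨-, e⟩ | ⟨hne, ⟨⟨l, hl, l', hl', hF⟩, -⟩ | ⟨-, -, e⟩ | ⟨-, -, e⟩⟩
  · rw [e] at h
    exact absurd (congrArg Prod.fst h) (by norm_num)
  · exact ⟨l, l', (rt_gr_mem_hit G q l).1 hl, (rt_gr_mem_hit G q l').1 hl', hF⟩
  · rw [e] at h
    exact absurd (congrArg Prod.fst h) (by norm_num)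
  · rw [e] at h
    exact absurd (congrArg Prod.fst h) (by norm_num)

/-- rows of a group: the attached label `la` -/
theorem rt_gr_key_grp (G : RtGrG) (q : RtRow) (tg : ℕ) (c : Fin 5 → ℤ) (Lx : Fin 6 → ℤ) (h : G.key q = (tg, c, Lx)) (htg : tg = 2 ∨ tg = 3) :
    G.cell q = c ∧ (∃ la, q ∈ G.Pre la ∧ G.lat c la = Lx) ∧ (∀ l l', q ∈ G.Pre l → q ∈ G.Pre l' → ¬ G.Far c l l') ∧ (tg = 2 ↔ G.kb < |(G.rep c Lx).k|) := by
  rcases rt_gr_key_cases G q with ⟨-, e⟩ | ⟨hne, ⟨-, e⟩ | ⟨hF, hk, e⟩ | ⟨hF, hk, e⟩⟩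
  · rw [e] at h
    have := congrArg Prod.fst h
    simp only at this
    omega
  · rw [e] at h
    have := congrArg Prod.fst h
    simp only at this
    omega
  · rw [e] at h
    have e1 : 2 = tg := congrArg Prod.fst h
    have e2 : G.cell q = c := congrArg (fun z : RtGrK => z.2.1) h
    have e3 : G.lat (G.cell q) ((G.hit q).min' hne) = Lx := congrArg (fun z : RtGrK => z.2.2) h
    rw [e3, e2] at hk
    rw [e2] at e3 hF
    exact ⟨e2, ⟨_, (rt_gr_mem_hit G q _).1 (Finset.min'_mem _ hne), e3⟩,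
      fun l l' hl hl' hfar => hF ⟨l, (rt_gr_mem_hit G q l).2 hl, l', (rt_gr_mem_hit G q l').2 hl', hfar⟩, fun _ => hk, fun _ => e1.symm⟩
  · rw [e] at h
    have e1 : 3 = tg := congrArg Prod.fst h
    have e2 : G.cell q = c := congrArg (fun z : RtGrK => z.2.1) h
    have e3 : G.lat (G.cell q) ((G.hit q).min' hne) = Lx := congrArg (fun z : RtGrK => z.2.2) h
    rw [e3, e2] at hk
    rw [e2] at e3 hF
    exact ⟨e2, ⟨_, (rt_gr_mem_hit G q _).1 (Finset.min'_mem _ hne), e3⟩,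
      fun l l' hl hl' hfar => hF ⟨l, (rt_gr_mem_hit G q l).2 hl, l', (rt_gr_mem_hit G q l').2 hl', hfar⟩, fun h2 => by omega, fun h2 => absurd h2 hk⟩

/-! ## 2. groups -/

theorem rt_gr_floor_close {h a b : ℝ} (hh : 0 < h) (e : ⌊a / h⌋ = ⌊b / h⌋) : |a - b| ≤ h := by
  have h1 := Int.abs_sub_lt_one_of_floor_eq_floor e
  rw [← sub_div, abs_div, abs_of_pos hh, div_lt_one hh] at h1
  exact h1.le

theorem rt_gr_bd_add {n n' : RtPoly} {a b : ℝ} (ha : 0 ≤ a) (hb : 0 ≤ b) (h : n.Bd a) (h' : n'.Bd b) : (RtPoly.comb 1 n 1 n').Bd (a + b) := by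
  obtain ⟨a1, a2, a3, a4, a5⟩ := h
  obtain ⟨b1, b2, b3, b4, b5⟩ := h'
  unfold RtPoly.comb RtPoly.Bd
  simp only [one_mul, one_smul]
  exact ⟨rt_chp_add a1 b1, rt_chp_add a2 b2, rt_chp_sq_add ha hb a3 b3, rt_chp_add a4 b4, rt_chp_add a5 b5⟩

/-- same rounding: the coefficients differ by less than `h` -/
theorem rt_gr_vec_close {h : ℝ} (hh : 0 < h) {n n' : RtPoly} (e : rtGrVec h n = rtGrVec h n') : (RtPoly.comb 1 n (-1) n').Bd (2 * h) := by
  have e0 : ⌊n.c / h⌋ = ⌊n'.c / h⌋ := by simpa [rtGrVec] using congrFun e 0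
  have e1 : ⌊n.d / h⌋ = ⌊n'.d / h⌋ := by simpa [rtGrVec] using congrFun e 1
  have e2 : ⌊n.al.1 / h⌋ = ⌊n'.al.1 / h⌋ := by simpa [rtGrVec] using congrFun e 2
  have e3 : ⌊n.al.2 / h⌋ = ⌊n'.al.2 / h⌋ := by simpa [rtGrVec] using congrFun e 3
  have e4 : ⌊n.be / h⌋ = ⌊n'.be / h⌋ := by simpa [rtGrVec] using congrFun e 4
  have e5 : ⌊n.k / h⌋ = ⌊n'.k / h⌋ := by simpa [rtGrVec] using congrFun e 5
  have f0 := rt_gr_floor_close hh e0
  have f1 := rt_gr_floor_close hh e1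
  have f2 := rt_gr_floor_close hh e2
  have f3 := rt_gr_floor_close hh e3
  have f4 := rt_gr_floor_close hh e4
  have f5 := rt_gr_floor_close hh e5
  have r : ∀ a b : ℝ, 1 * a + -1 * b = a - b := fun a b => by ring
  unfold RtPoly.comb RtPoly.Bd
  simp only [r]
  refine ⟨by linarith, by linarith, ?_, by linarith, by linarith⟩
  unfold rtSq
  simp only [Prod.fst_add, Prod.snd_add, Prod.smul_fst, Prod.smul_snd, smul_eq_mul, r]
  have g2 := sq_le_sq' (abs_le.1 f2).1 (abs_le.1 f2).2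
  have g3 := sq_le_sq' (abs_le.1 f3).1 (abs_le.1 f3).2
  nlinarith [sq_nonneg h]

/-- the group polynomial is the parent of a label with the same rounding -/
theorem rt_gr_rep_spec (G : RtGrG) (c : Fin 5 → ℤ) (la : Fin G.L) : ∃ lr, G.rep c (G.lat c la) = G.par c lr ∧ G.lat c lr = G.lat c la := by
  classical
  have hex : ∃ l, G.lat c l = G.lat c la := ⟨la, rfl⟩
  refine ⟨hex.choose, ?_, hex.choose_spec⟩
  unfold RtGrG.rep
  rw [dif_pos hex]

/-- **L-256-RT-GR-K2** (150 l., with the two lemmas above)   a label connected to a group has its parent within `Ka + 2h` of `± n_L`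
(`q ∈ Pre l`, attached `la`: `¬ Far c la l`;   `par c la - n_L` is `Bd (2h)`;   triangle inequality for `Bd`: `rt_chp_add`, `rt_chp_sq_add`) -/
theorem rt_gr_con (G : RtGrG) (hG : G.Ok) (q : RtRow) (l : Fin G.L) (hq : q ∈ G.Pre l) (tg : ℕ) (c : Fin 5 → ℤ) (Lx : Fin 6 → ℤ) (h : G.key q = (tg, c, Lx))
    (htg : tg = 2 ∨ tg = 3) :
    (RtPoly.comb 1 (G.par c l) (-1) (G.rep c Lx)).Bd (G.Ka + 2 * G.h) ∨ (RtPoly.comb 1 (G.par c l) 1 (G.rep c Lx)).Bd (G.Ka + 2 * G.h) := by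
  obtain ⟨-, ⟨la, hla, hlat⟩, hfar, -⟩ := rt_gr_key_grp G q tg c Lx h htg
  obtain ⟨lr, hrep, hlr⟩ := rt_gr_rep_spec G c la
  rw [hlat] at hrep
  have hK := hG.Ka_pos.le
  have h2 : (0 : ℝ) ≤ 2 * G.h := by have := hG.h_pos; linarith
  have hnf := hfar la l hla hq
  unfold RtGrG.Far at hnf
  rw [hrep]
  by_cases h1 : (RtPoly.comb 1 (G.par c l) (-1) (G.par c la)).Bd G.Ka
  · left
    have c1 : (RtPoly.comb 1 (G.par c la) (-1) (G.par c lr)).Bd (2 * G.h) := rt_gr_vec_close hG.h_pos hlr.symm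
    have := rt_gr_bd_add hK h2 h1 c1
    have e : RtPoly.comb 1 (RtPoly.comb 1 (G.par c l) (-1) (G.par c la)) 1 (RtPoly.comb 1 (G.par c la) (-1) (G.par c lr))
        = RtPoly.comb 1 (G.par c l) (-1) (G.par c lr) := by
      unfold RtPoly.comb
      ext <;> simp
    rwa [e] at this
  · right
    have h3 : (RtPoly.comb 1 (G.par c l) 1 (G.par c la)).Bd G.Ka := by
      by_contra h3
      exact hnf ⟨h1, h3⟩
    have c1 : (RtPoly.comb 1 (G.par c lr) (-1) (G.par c la)).Bd (2 * G.h) := rt_gr_vec_close hG.h_pos hlr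
    have := rt_gr_bd_add hK h2 h3 c1
    have e : RtPoly.comb 1 (RtPoly.comb 1 (G.par c l) 1 (G.par c la)) 1 (RtPoly.comb 1 (G.par c lr) (-1) (G.par c la))
        = RtPoly.comb 1 (G.par c l) 1 (G.par c lr) := by
      unfold RtPoly.comb
      ext <;> simp <;> ring
    rwa [e] at this

theorem rt_gr_bd_tri {n n' : RtPoly} {M M' : ℝ} (hM : 0 ≤ M) (hM' : 0 ≤ M') (h : n'.Bd M) (hd : (RtPoly.comb 1 n (-1) n').Bd M') : n.Bd (M + M') := by
  obtain ⟨a1, a2, a3, a4, a5⟩ := h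
  obtain ⟨b1, b2, b3, b4, b5⟩ := hd
  simp only [RtPoly.comb, one_mul, neg_mul, one_smul, neg_smul] at b1 b2 b3 b4 b5
  refine ⟨?_, ?_, ?_, ?_, ?_⟩
  · have := rt_chp_add a1 b1
    rwa [show n'.c + (n.c + -n'.c) = n.c by ring] at this
  · have := rt_chp_add a2 b2
    rwa [show n'.d + (n.d + -n'.d) = n.d by ring] at this
  · have := rt_chp_sq_add hM hM' a3 b3
    rwa [show n'.al + (n.al + -n'.al) = n.al by abel] at this
  · have := rt_chp_add a4 b4
    rwa [show n'.be + (n.be + -n'.be) = n.be by ring] at this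
  · have := rt_chp_add a5 b5
    rwa [show n'.k + (n.k + -n'.k) = n.k by ring] at this

/-- **L-256-RT-GR-K3** (120 l.)   the group polynomial: discriminant one, small on the rows of the group, bounded by `CB (2 + |k_L|) + 1`
(attached label `la`: `rt_gr_par_small`, `rt_gr_par_bd` at `q`, `rt_gr_cell_unit` (`R = 2`), `rt_gr_eval` for the difference `Bd (2h)`: `|ΔF| ≤ 32 h`, `|ΔG| ≤ 48 h`) -/
theorem rt_gr_rep_facts : ∃ CB : ℝ, 1 ≤ CB ∧ ∀ (G : RtGrG), G.Ok → G.h ≤ 1 / 2 → ∀ (q : RtRow) (tg : ℕ) (c : Fin 5 → ℤ) (Lx : Fin 6 → ℤ), G.key q = (tg, c, Lx) → (tg = 2 ∨ tg = 3) →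
    (G.rep c Lx).disc = 1 ∧ (G.rep c Lx).Bd (CB * (2 + |(G.rep c Lx).k|)) ∧
    |(G.rep c Lx).F 0 (G.nrm c q).b (G.nrm c q).y| ≤ 2 * G.Mp * G.f + 48 * G.h ∧
    |(G.rep c Lx).G 0 (G.nrm c q).b (G.nrm c q).y (G.nrm c q).A| ≤ 2 * G.Mp * G.f + 48 * G.h := by
  obtain ⟨CB0, hCB0, H⟩ := rt_gr_par_bd
  refine ⟨CB0 + 1, by linarith, fun G hG hh q tg c Lx hkey htg => ?_⟩
  obtain ⟨hc, ⟨la, hla, hlat⟩, -, -⟩ := rt_gr_key_grp G q tg c Lx hkey htg
  obtain ⟨lr, hrep, hlr⟩ := rt_gr_rep_spec G c la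
  rw [hlat] at hrep hlr
  have hh0 := hG.h_pos
  have hclose : (RtPoly.comb 1 (G.par c lr) (-1) (G.par c la)).Bd (2 * G.h) := rt_gr_vec_close hh0 (hlr.trans hlat.symm)
  have hbd := H G hG la q hla
  rw [hc] at hbd
  rw [hrep]
  have hk : |(G.par c la).k| ≤ |(G.par c lr).k| + 1 := by
    have h5 := hclose.2.2.2.2
    simp only [RtPoly.comb, one_mul, neg_mul] at h5
    have h6 : |(G.par c la).k| ≤ |(G.par c lr).k| + |(G.par c lr).k + -(G.par c la).k| := by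
      have := abs_sub_abs_le_abs_sub (G.par c la).k (G.par c lr).k
      rw [abs_sub_comm] at this
      rw [← sub_eq_add_neg]
      linarith
    linarith
  have hu := rt_gr_cell_unit G hG.r_pos q
  rw [hc] at hu
  obtain ⟨⟨u1, u2⟩, ⟨u3, u4⟩, ⟨u5, u6⟩, ⟨u7, u8⟩, u9, u10⟩ := hu
  have hA : rtSq (G.nrm c q).A ≤ 2 ^ 2 := by
    unfold rtSq
    nlinarith
  have hb : rtSq (G.nrm c q).b ≤ 2 ^ 2 := by
    unfold rtSq
    nlinarith
  have hy : |(G.nrm c q).y| ≤ 2 := by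
    rw [abs_of_nonneg u9]
    linarith
  obtain ⟨e1, e2⟩ := rt_gr_eval (R := 2) (by norm_num) (by linarith : (0 : ℝ) ≤ 2 * G.h) hclose hA hb hy
  rw [rt_gr_comb_F] at e1
  rw [rt_gr_comb_G] at e2
  obtain ⟨s1, s2⟩ := rt_gr_par_small G hG c la q hla
  refine ⟨rt_gr_par_disc1 G hG c lr, ?_, ?_, ?_⟩
  · have hk0 := abs_nonneg (G.par c la).k
    have hk1 := abs_nonneg (G.par c lr).k
    refine rt_chp_bd_mono (by positivity) ?_ (rt_gr_bd_tri (by positivity) (by linarith : (0 : ℝ) ≤ 2 * G.h) hbd hclose)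
    have : CB0 * (1 + |(G.par c la).k|) ≤ CB0 * (2 + |(G.par c lr).k|) := mul_le_mul_of_nonneg_left (by linarith) (by linarith)
    nlinarith
  · obtain ⟨a1, a2⟩ := abs_le.1 e1
    obtain ⟨b1, b2⟩ := abs_le.1 s1
    rw [abs_le]
    constructor <;> linarith
  · obtain ⟨a1, a2⟩ := abs_le.1 e2
    obtain ⟨b1, b2⟩ := abs_le.1 s2
    rw [abs_le]
    constructor <;> linarith

/-- one label connected to a group: `|β_L + θ k_L| ≤ 202` -/
theorem rt_gr_big_time_one (G : RtGrG) (hG : G.Ok) (hs : G.Ka + 2 * G.h ≤ 1) (c : Fin 5 → ℤ) (Lx : Fin 6 → ℤ) (l : Fin G.L) (hl : (2, c, Lx) ∈ G.Jset l) :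
    |(G.rep c Lx).be + G.t l / G.l0 * (G.rep c Lx).k| ≤ 202 ∧ G.kb < |(G.rep c Lx).k| := by
  obtain ⟨q, hq, hk⟩ := hl
  have hkb : G.kb < |(G.rep c Lx).k| := ((rt_gr_key_grp G q 2 c Lx hk (Or.inl rfl)).2.2.2).1 rfl
  refine ⟨?_, hkb⟩
  have hl0 := rt_gr_l0_pos G
  have hθ0 : 0 ≤ G.t l / G.l0 := div_nonneg (hG.t_nn l) hl0.le
  have hθ1 : G.t l / G.l0 ≤ 1 := (div_le_one hl0).2 (hG.t_le l)
  have hbe := rt_gr_par_be_le G hG c l
  generalize G.t l / G.l0 = θ at *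
  rcases rt_gr_con G hG q l hq 2 c Lx hk (Or.inl rfl) with h | h
  · obtain ⟨-, -, -, h4, h5⟩ := h
    simp only [RtPoly.comb] at h4 h5
    rw [abs_le] at *
    constructor <;> nlinarith
  · obtain ⟨-, -, -, h4, h5⟩ := h
    simp only [RtPoly.comb] at h4 h5
    rw [abs_le] at *
    constructor <;> nlinarith

/-- **L-256-RT-GR-K4** (100 l.)   BIG K: the labels connected to one group with `kb < |k_L|` are read at nearby times:
`|β_L + θ_l k_L| ≤ 200 + 2 (Ka + 2h) ≤ 202` (`rt_gr_con`, `rt_gr_par_be_le`, `0 ≤ θ ≤ 1`), the same for `l'`, subtract: `|θ_l - θ_l'| |k_L| ≤ 404` -/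
theorem rt_gr_big_time (G : RtGrG) (hG : G.Ok) (hs : G.Ka + 2 * G.h ≤ 1) (c : Fin 5 → ℤ) (Lx : Fin 6 → ℤ) (l l' : Fin G.L) (hl : (2, c, Lx) ∈ G.Jset l) (hl' : (2, c, Lx) ∈ G.Jset l') :
    |G.t l - G.t l'| ≤ G.l0 * (404 / G.kb) := by
  obtain ⟨h1, hkb⟩ := rt_gr_big_time_one G hG hs c Lx l hl
  obtain ⟨h2, -⟩ := rt_gr_big_time_one G hG hs c Lx l' hl'
  have hl0 := rt_gr_l0_pos G
  have hkb0 : 0 < G.kb := lt_of_lt_of_le one_pos hG.kb_ge
  have h3 : |(G.t l / G.l0 - G.t l' / G.l0) * (G.rep c Lx).k| ≤ 404 := by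
    have e : (G.t l / G.l0 - G.t l' / G.l0) * (G.rep c Lx).k
        = ((G.rep c Lx).be + G.t l / G.l0 * (G.rep c Lx).k) - ((G.rep c Lx).be + G.t l' / G.l0 * (G.rep c Lx).k) := by ring
    rw [e]
    refine (abs_sub _ _).trans ?_
    linarith
  rw [abs_mul] at h3
  have h4 : |G.t l / G.l0 - G.t l' / G.l0| * G.kb ≤ 404 :=
    (mul_le_mul_of_nonneg_left hkb.le (abs_nonneg _)).trans h3
  have h5 : |G.t l / G.l0 - G.t l' / G.l0| ≤ 404 / G.kb := (le_div_iff₀ hkb0).2 h4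
  have e : G.t l - G.t l' = G.l0 * (G.t l / G.l0 - G.t l' / G.l0) := by
    field_simp
  rw [e, abs_mul, abs_of_pos hl0]
  exact mul_le_mul_of_nonneg_left h5 hl0.le

/-! ## 3. counting -/

/-- **L-256-RT-GR-K5** (60 l.)   integer vectors at mutual distance `≤ N`   (subset of `Finset.Icc (x₀ - N) (x₀ + N)`, `Pi.card_Icc`, `Int.card_Icc`) -/
theorem rt_gr_card_box {d : ℕ} (S : Set (Fin d → ℤ)) (N : ℕ) (h : ∀ x ∈ S, ∀ y ∈ S, ∀ i, |x i - y i| ≤ N) : S.Finite ∧ S.ncard ≤ (2 * N + 1) ^ d := by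
  rcases S.eq_empty_or_nonempty with rfl | ⟨x₀, hx₀⟩
  · exact ⟨Set.finite_empty, by simp⟩
  · have hsub : S ⊆ ↑(Finset.Icc (fun i => x₀ i - (N : ℤ)) (fun i => x₀ i + (N : ℤ))) := by
      intro x hx
      rw [Finset.coe_Icc, Set.mem_Icc]
      constructor
      · intro i
        have := abs_le.1 (h x hx x₀ hx₀ i)
        show x₀ i - (N : ℤ) ≤ x i
        linarith [this.1]
      · intro i
        have := abs_le.1 (h x hx x₀ hx₀ i)
        show x i ≤ x₀ i + (N : ℤ)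
        linarith [this.2]
    have hcard : (Finset.Icc (fun i => x₀ i - (N : ℤ)) (fun i => x₀ i + (N : ℤ))).card = (2 * N + 1) ^ d := by
      rw [Pi.card_Icc]
      have : ∀ i : Fin d, (Finset.Icc (x₀ i - (N : ℤ)) (x₀ i + (N : ℤ))).card = 2 * N + 1 := by
        intro i
        rw [Int.card_Icc]
        have : x₀ i + (N : ℤ) + 1 - (x₀ i - (N : ℤ)) = ((2 * N + 1 : ℕ) : ℤ) := by
          push_cast
          ring
        rw [this, Int.toNat_natCast]
      simp only [this, Finset.prod_const, Finset.card_univ, Fintype.card_fin]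
    refine ⟨(Finset.finite_toSet _).subset hsub, ?_⟩
    calc S.ncard ≤ (↑(Finset.Icc (fun i => x₀ i - (N : ℤ)) (fun i => x₀ i + (N : ℤ))) : Set (Fin d → ℤ)).ncard :=
          Set.ncard_le_ncard hsub (Finset.finite_toSet _)
      _ = _ := by rw [Set.ncard_coe_finset, hcard]

/-- **L-256-RT-GR-K6** (60 l.)   finite base, finite fibres   (`S ⊆ ⋃ y ∈ T, S ∩ π⁻¹ y`; `Set.Finite.biUnion`, `Set.ncard` of a finite union `≤` sum) -/
theorem rt_gr_card_fib {α β : Type} (S : Set α) (π : α → β) (T : Set β) (a m : ℕ) (hT : T.Finite ∧ T.ncard ≤ a) (hπ : ∀ x ∈ S, π x ∈ T)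
    (hf : ∀ y ∈ T, (S ∩ π ⁻¹' {y}).Finite ∧ (S ∩ π ⁻¹' {y}).ncard ≤ m) : S.Finite ∧ S.ncard ≤ a * m := by
  classical
  have hS : S.Finite := by
    refine (Set.Finite.biUnion hT.1 (fun y hy => (hf y hy).1)).subset ?_
    intro x hx
    simp only [Set.mem_iUnion]
    exact ⟨π x, hπ x hx, hx, rfl⟩
  refine ⟨hS, ?_⟩
  rw [Set.ncard_eq_toFinset_card S hS]
  have h1 : hS.toFinset.card ≤ m * hT.1.toFinset.card := by
    refine Finset.card_le_mul_card_image_of_maps_to (f := π) ?_ m ?_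
    · intro x hx
      exact hT.1.mem_toFinset.mpr (hπ x (hS.mem_toFinset.mp hx))
    · intro y hy
      have hy' := hT.1.mem_toFinset.mp hy
      have h3 := (hf y hy').2
      rw [Set.ncard_eq_toFinset_card _ (hf y hy').1] at h3
      refine le_trans (Finset.card_le_card ?_) h3
      intro x hx
      rw [Finset.mem_filter] at hx
      rw [Set.Finite.mem_toFinset]
      exact ⟨hS.mem_toFinset.mp hx.1, hx.2⟩
  have h2 : hT.1.toFinset.card ≤ a := by
    rw [← Set.ncard_eq_toFinset_card T hT.1]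
    exact hT.2
  calc hS.toFinset.card ≤ m * hT.1.toFinset.card := h1
    _ ≤ m * a := Nat.mul_le_mul_left _ h2
    _ = a * m := Nat.mul_comm _ _

/-- the cells met by a predecessor set -/
def RtGrG.cells (G : RtGrG) (l : Fin G.L) : Set (Fin 5 → ℤ) := {c | ∃ q ∈ G.Pre l, G.cell q = c}

theorem rt_gr_cells_eqns_cite : True := by
  have := @RtGrG.cells.eq_1
  trivial

/-- **L-256-RT-GR-K7** (120 l.)   boundedly many cells: `rt_gr_cell_cnt` + `rt_gr_card_fib` (`π` = the first four coordinates) + `rt_gr_card_box` -/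
theorem rt_gr_cells_card : ∃ C5 : ℕ, ∀ (G : RtGrG), G.Ok → ∀ l, (G.cells l).Finite ∧ (G.cells l).ncard ≤ C5 := by
  obtain ⟨N5, hN⟩ := rt_gr_cell_cnt
  refine ⟨(2 * N5 + 1) ^ 4 * (2 * N5 + 1) ^ 5, fun G hG l => ?_⟩
  refine rt_gr_card_fib (G.cells l) (fun c (i : Fin 4) => c i.castSucc) ((fun c (i : Fin 4) => c i.castSucc) '' G.cells l) _ _ ?_ ?_ ?_
  · refine rt_gr_card_box _ N5 ?_
    rintro _ ⟨_, ⟨q, hq, rfl⟩, rfl⟩ _ ⟨_, ⟨q₁, hq₁, rfl⟩, rfl⟩ i
    exact (hN G hG l q₁ q hq₁ hq).1 i.castSucc (Fin.castSucc_lt_last i).ne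
  · intro x hx
    exact ⟨x, hx, rfl⟩
  · intro y _
    refine rt_gr_card_box _ N5 ?_
    rintro _ ⟨⟨q, hq, rfl⟩, e⟩ _ ⟨⟨q₁, hq₁, rfl⟩, e₁⟩ i
    have e2 : (fun i : Fin 4 => G.cell q i.castSucc) = fun i : Fin 4 => G.cell q₁ i.castSucc := Eq.trans e (Eq.symm e₁)
    have hag : ∀ i : Fin 5, i ≠ 4 → G.cell q i = G.cell q₁ i := by
      intro i hi
      obtain ⟨j, rfl⟩ := Fin.exists_castSucc_eq.mpr hi
      exact congrFun e2 j
    by_cases hi : i = 4
    · subst hi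
      exact (hN G hG l q₁ q hq₁ hq).2 hag
    · rw [hag i hi, sub_self, abs_zero]
      positivity

theorem rt_gr_floor_near {h a b : ℝ} (hh : 0 < h) (e : |a - b| ≤ h) : |⌊a / h⌋ - ⌊b / h⌋| ≤ 1 := by
  have e1 := (abs_le.1 e).1
  have e2 := (abs_le.1 e).2
  have h1 : a / h ≤ b / h + 1 := by
    rw [div_add_one hh.ne']
    exact div_le_div_of_nonneg_right (by linarith) hh.le
  have h2 : b / h ≤ a / h + 1 := by
    rw [div_add_one hh.ne']
    exact div_le_div_of_nonneg_right (by linarith) hh.le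
  have g1 : ⌊a / h⌋ ≤ ⌊b / h⌋ + 1 := by
    rw [← Int.floor_add_one]
    exact Int.floor_le_floor h1
  have g2 : ⌊b / h⌋ ≤ ⌊a / h⌋ + 1 := by
    rw [← Int.floor_add_one]
    exact Int.floor_le_floor h2
  rw [abs_le]
  constructor <;> linarith

/-- coefficients within `h`: the roundings differ by at most one -/
theorem rt_gr_vec_near {h : ℝ} (hh : 0 < h) {n n' : RtPoly} (hb : (RtPoly.comb 1 n (-1) n').Bd h) (i : Fin 6) :
    |rtGrVec h n i - rtGrVec h n' i| ≤ 1 := by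
  obtain ⟨b1, b2, b3, b4, b5⟩ := hb
  have r : ∀ a b : ℝ, 1 * a + -1 * b = a - b := fun a b => by ring
  simp only [RtPoly.comb, r] at b1 b2 b3 b4 b5
  unfold rtSq at b3
  simp only [Prod.fst_add, Prod.snd_add, Prod.smul_fst, Prod.smul_snd, smul_eq_mul, r] at b3
  have c1 : |n.al.1 - n'.al.1| ≤ h := abs_le_of_sq_le_sq (by nlinarith [sq_nonneg (n.al.2 - n'.al.2)]) hh.le
  have c2 : |n.al.2 - n'.al.2| ≤ h := abs_le_of_sq_le_sq (by nlinarith [sq_nonneg (n.al.1 - n'.al.1)]) hh.le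
  fin_cases i
  · simpa [rtGrVec] using rt_gr_floor_near hh b1
  · simpa [rtGrVec] using rt_gr_floor_near hh b2
  · simpa [rtGrVec] using rt_gr_floor_near hh c1
  · simpa [rtGrVec] using rt_gr_floor_near hh c2
  · simpa [rtGrVec] using rt_gr_floor_near hh b4
  · simpa [rtGrVec] using rt_gr_floor_near hh b5

theorem rt_gr_bx_card (v : Fin 6 → ℤ) : (Finset.Icc (fun i => v i - 1) (fun i => v i + 1)).card = 3 ^ 6 := by
  rw [Pi.card_Icc]
  have : ∀ i : Fin 6, (Finset.Icc (v i - 1) (v i + 1)).card = 3 := by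
    intro i
    rw [Int.card_Icc]
    have : v i + 1 + 1 - (v i - 1) = 3 := by ring
    rw [this]
    rfl
  simp [this]

theorem rt_gr_bx_mem {v x : Fin 6 → ℤ} (h : ∀ i, |x i - v i| ≤ 1) : x ∈ Finset.Icc (fun i => v i - 1) (fun i => v i + 1) := by
  rw [Finset.mem_Icc]
  constructor
  · intro i
    have := (abs_le.1 (h i)).1
    show v i - 1 ≤ x i
    linarith
  · intro i
    have := (abs_le.1 (h i)).2
    show x i ≤ v i + 1
    linarith

theorem rt_gr_bd_mono {n : RtPoly} {a b : ℝ} (ha : 0 ≤ a) (hab : a ≤ b) (h : n.Bd a) : n.Bd b := by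
  obtain ⟨a1, a2, a3, a4, a5⟩ := h
  exact ⟨a1.trans hab, a2.trans hab, a3.trans (pow_le_pow_left₀ ha hab 2), a4.trans hab, a5.trans hab⟩

/-- the finite set of keys that contains `Jset l` -/
noncomputable def rtGrJF (G : RtGrG) (l : Fin G.L) (Cs : Finset (Fin 5 → ℤ)) : Finset RtGrK :=
  open Classical in
  insert (1, 0, 0) ((({2, 3} : Finset ℕ) ×ˢ Cs).biUnion fun y =>
    ((Finset.Icc (fun i => G.lat y.2 l i - 1) (fun i => G.lat y.2 l i + 1)) ∪
      (Finset.Icc (fun i => rtGrVec G.h (RtPoly.comb (-1) (G.par y.2 l) 0 (G.par y.2 l)) i - 1)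
        (fun i => rtGrVec G.h (RtPoly.comb (-1) (G.par y.2 l) 0 (G.par y.2 l)) i + 1))).image fun Lx => (y.1, y.2, Lx))

theorem rt_gr_jf_eqns_cite : True := by
  have := @rtGrJF.eq_1
  trivial

theorem rt_gr_JF_card (G : RtGrG) (l : Fin G.L) (Cs : Finset (Fin 5 → ℤ)) : (rtGrJF G l Cs).card ≤ 1 + (2 * Cs.card) * (2 * 3 ^ 6) := by
  classical
  unfold rtGrJF
  refine (Finset.card_insert_le _ _).trans ?_
  rw [add_comm]
  refine Nat.add_le_add_left ?_ 1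
  have h1 : (({2, 3} : Finset ℕ) ×ˢ Cs).card = 2 * Cs.card := by
    rw [Finset.card_product]
    rfl
  rw [← h1]
  refine Finset.card_biUnion_le_card_mul _ _ _ fun y _ => ?_
  refine Finset.card_image_le.trans ?_
  refine (Finset.card_union_le _ _).trans ?_
  rw [rt_gr_bx_card, rt_gr_bx_card]
  omega

theorem rt_gr_J_sub (G : RtGrG) (hG : G.Ok) (hKa : G.Ka ≤ G.h) (l : Fin G.L) (Cs : Finset (Fin 5 → ℤ)) (hCs : ∀ c, c ∈ G.cells l → c ∈ Cs) :
    G.Jset l ⊆ ↑(rtGrJF G l Cs) := by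
  classical
  rintro j ⟨q, hq, rfl⟩
  have key : ∀ tg : ℕ, (tg = 2 ∨ tg = 3) → G.key q = (tg, G.cell q, (G.key q).2.2) → G.key q ∈ rtGrJF G l Cs := by
    intro tg htg hk
    obtain ⟨-, ⟨la, hla, hlat⟩, hfar, -⟩ := rt_gr_key_grp G q tg (G.cell q) _ hk htg
    have hnf := hfar l la hq hla
    unfold rtGrJF
    rw [Finset.mem_insert]
    right
    rw [Finset.mem_biUnion]
    refine ⟨(tg, G.cell q), ?_, ?_⟩
    · rw [Finset.mem_product]
      refine ⟨?_, hCs _ ⟨q, hq, rfl⟩⟩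
      rcases htg with rfl | rfl <;> simp
    · rw [Finset.mem_image]
      refine ⟨(G.key q).2.2, ?_, hk.symm⟩
      rw [Finset.mem_union, ← hlat]
      unfold RtGrG.Far at hnf
      by_cases h1 : (RtPoly.comb 1 (G.par (G.cell q) la) (-1) (G.par (G.cell q) l)).Bd G.Ka
      · left
        exact rt_gr_bx_mem fun i => rt_gr_vec_near hG.h_pos (rt_gr_bd_mono hG.Ka_pos.le hKa h1) i
      · right
        have h3 : (RtPoly.comb 1 (G.par (G.cell q) la) 1 (G.par (G.cell q) l)).Bd G.Ka := by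
          by_contra h3
          exact hnf ⟨h1, h3⟩
        have e : RtPoly.comb 1 (G.par (G.cell q) la) (-1) (RtPoly.comb (-1) (G.par (G.cell q) l) 0 (G.par (G.cell q) l))
            = RtPoly.comb 1 (G.par (G.cell q) la) 1 (G.par (G.cell q) l) := by
          unfold RtPoly.comb
          ext <;> simp
        refine rt_gr_bx_mem fun i => rt_gr_vec_near hG.h_pos ?_ i
        rw [e]
        exact rt_gr_bd_mono hG.Ka_pos.le hKa h3
  rcases rt_gr_key_tag G q with h | h | h | h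
  · exact absurd hq (h.2 l)
  · rw [h]
    unfold rtGrJF
    exact Finset.mem_insert_self _ _
  · exact key 2 (Or.inl rfl) h
  · exact key 3 (Or.inr rfl) h

/-- **L-256-RT-GR-K8** (250 l.)   A LABEL IS CONNECTED TO BOUNDEDLY MANY KEYS.      `j ∈ Jset l`: tag `1` (one key) or `(tg, c, Lx)`, `tg ∈ {2,3}`, `c ∈ cells l`, and (`rt_gr_key_grp`: attached `la`, `¬ Far c la l`)
`par c la` is within `Ka ≤ h` of `± par c l`, so every coordinate of `Lx = lat c la` is within `2` of the rounding of `± par c l`: `≤ 2 · 5⁶` values.   `B0 = 1 + 2 · C5 · 2 · 5⁶`. -/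
theorem rt_gr_J_card : ∃ B0 : ℕ, ∀ (G : RtGrG), G.Ok → G.Ka ≤ G.h → ∀ l, (G.Jset l).Finite ∧ (G.J l).card ≤ B0 := by
  classical
  obtain ⟨C5, hC5⟩ := rt_gr_cells_card
  refine ⟨1 + (2 * C5) * (2 * 3 ^ 6), fun G hG hKa l => ?_⟩
  obtain ⟨hfin, hcard⟩ := hC5 G hG l
  have hsub := rt_gr_J_sub G hG hKa l hfin.toFinset (fun c hc => hfin.mem_toFinset.2 hc)
  have hf : (G.Jset l).Finite := (Finset.finite_toSet _).subset hsub
  refine ⟨hf, ?_⟩
  have h1 : G.J l ⊆ rtGrJF G l hfin.toFinset := by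
    intro j hj
    have : j ∈ G.Jset l := by
      unfold RtGrG.J at hj
      rw [dif_pos hf] at hj
      exact hf.mem_toFinset.1 hj
    exact hsub this
  refine (Finset.card_le_card h1).trans ((rt_gr_JF_card G l _).trans ?_)
  have h2 : hfin.toFinset.card ≤ C5 := by
    rw [← Set.ncard_eq_toFinset_card _ hfin]
    exact hcard
  gcongr

theorem rt_gr_mem_J (G : RtGrG) (l : Fin G.L) (hf : (G.Jset l).Finite) (j : RtGrK) : j ∈ G.J l ↔ j ∈ G.Jset l := by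
  classical
  unfold RtGrG.J
  rw [dif_pos hf]
  exact hf.mem_toFinset

theorem rt_gr_mem_Sl (G : RtGrG) (j : RtGrK) (l : Fin G.L) : l ∈ G.Sl j ↔ j ∈ G.Jset l := by
  classical
  simp [RtGrG.Sl]

/-- **L-256-RT-GR-K9** (80 l.)   the second key takes values in the box `[0, Ng]^5`   (`rt_gr_cell_unit`: coordinates in `[0,1)`; `Int.floor` of `x/hg ∈ [0, 1/hg)`) -/
theorem rt_gr_fine_box (G : RtGrG) (hG : G.Ok) (Ng : ℕ) (hN : 1 / G.hg ≤ Ng) (q : RtRow) : G.fine q ∈ Finset.Icc (0 : Fin 5 → ℤ) (fun _ => (Ng : ℤ)) := by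
  have key : ∀ x : ℝ, 0 ≤ x ∧ x < 1 → (0 : ℤ) ≤ ⌊x / G.hg⌋ ∧ ⌊x / G.hg⌋ ≤ (Ng : ℤ) := by
    intro x hx
    refine ⟨Int.floor_nonneg.mpr (div_nonneg hx.1 hG.hg_pos.le), ?_⟩
    have h1 : x / G.hg ≤ (Ng : ℝ) := (div_le_div_of_nonneg_right hx.2.le hG.hg_pos.le).trans hN
    have h2 : ((⌊x / G.hg⌋ : ℤ) : ℝ) ≤ ((Ng : ℤ) : ℝ) := by
      push_cast
      exact (Int.floor_le _).trans h1
    exact_mod_cast h2
  obtain ⟨u0, u1, u2, u3, u4⟩ := rt_gr_cell_unit G hG.r_pos q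
  rw [Finset.mem_Icc]
  constructor
  · intro i
    fin_cases i
    · exact (key _ u0).1
    · exact (key _ u1).1
    · exact (key _ u2).1
    · exact (key _ u3).1
    · exact (key _ u4).1
  · intro i
    fin_cases i
    · exact (key _ u0).2
    · exact (key _ u1).2
    · exact (key _ u2).2
    · exact (key _ u3).2
    · exact (key _ u4).2

theorem rt_gr_fine_card (Ng : ℕ) : (Finset.Icc (0 : Fin 5 → ℤ) (fun _ => (Ng : ℤ))).card = (Ng + 1) ^ 5 := by
  rw [Pi.card_Icc]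
  simp only [Int.card_Icc, Pi.zero_apply, sub_zero, Finset.prod_const, Finset.card_univ, Fintype.card_fin]
  congr 1

/-! ## 4. measurability -/

section meas

variable {X : Type} [MeasurableSpace X] (ρ : X → RtRow) (hρ : Measurable fun x => ((ρ x).A, (ρ x).b, (ρ x).y))

include hρ

omit hρ in
/-- the five functionals of a test along the flow are measurable functions of the five coordinates -/
theorem rt_gr_ms_test (τ : RtTest) (t : ℝ) :
    Measurable (fun w : (ℝ × ℝ) × (ℝ × ℝ) × ℝ => rtSq (τ.x ((⟨w.1, w.2.1, w.2.2⟩ : RtRow).flow t))) ∧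
    Measurable (fun w : (ℝ × ℝ) × (ℝ × ℝ) × ℝ => τ.z ((⟨w.1, w.2.1, w.2.2⟩ : RtRow).flow t)) ∧
    Measurable (fun w : (ℝ × ℝ) × (ℝ × ℝ) × ℝ => rtSq (τ.V ((⟨w.1, w.2.1, w.2.2⟩ : RtRow).flow t))) ∧
    Measurable (fun w : (ℝ × ℝ) × (ℝ × ℝ) × ℝ => τ.Fv ((⟨w.1, w.2.1, w.2.2⟩ : RtRow).flow t)) ∧
    Measurable (fun w : (ℝ × ℝ) × (ℝ × ℝ) × ℝ => τ.Gv ((⟨w.1, w.2.1, w.2.2⟩ : RtRow).flow t)) := by
  refine ⟨?_, ?_, ?_, ?_, ?_⟩
  · simp only [RtTest.x, RtRow.flow, rtSq, Prod.smul_fst, Prod.smul_snd, Prod.fst_sub, Prod.snd_sub, Prod.fst_add, Prod.snd_add, smul_eq_mul]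
    fun_prop
  · simp only [RtTest.z, RtRow.flow, rtSq, rtIp, Prod.smul_fst, Prod.smul_snd, Prod.fst_sub, Prod.snd_sub, Prod.fst_add, Prod.snd_add, smul_eq_mul]
    fun_prop
  · simp only [RtTest.V, RtRow.flow, rtSq, Prod.smul_fst, Prod.smul_snd, Prod.fst_sub, Prod.snd_sub, Prod.fst_add, Prod.snd_add, smul_eq_mul]
    fun_prop
  · simp only [RtTest.Fv, RtPoly.F, RtTest.x, RtTest.z, RtRow.flow, rtSq, rtIp, Prod.smul_fst, Prod.smul_snd, Prod.fst_sub, Prod.snd_sub,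
      Prod.fst_add, Prod.snd_add, smul_eq_mul]
    fun_prop
  · simp only [RtTest.Gv, RtPoly.G, RtTest.x, RtTest.z, RtTest.V, RtRow.flow, rtSq, rtIp, Prod.smul_fst, Prod.smul_snd, Prod.fst_sub, Prod.snd_sub,
      Prod.fst_add, Prod.snd_add, smul_eq_mul]
    fun_prop

omit hρ in
/-- a box and two sublevels of a test along the flow -/
theorem rt_gr_ms_box (τ : RtTest) (t M a b : ℝ) :
    MeasurableSet {w : (ℝ × ℝ) × (ℝ × ℝ) × ℝ | (⟨w.1, w.2.1, w.2.2⟩ : RtRow).flow t ∈ τ.box M ∧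
      |τ.Fv ((⟨w.1, w.2.1, w.2.2⟩ : RtRow).flow t)| ≤ a ∧ |τ.Gv ((⟨w.1, w.2.1, w.2.2⟩ : RtRow).flow t)| ≤ b} := by
  obtain ⟨h1, h2, h3, h4, h5⟩ := rt_gr_ms_test τ t
  exact ((measurableSet_le h1 measurable_const).inter ((measurableSet_le h2.abs measurable_const).inter
    (measurableSet_le h3 measurable_const))).inter ((measurableSet_le h4.abs measurable_const).inter
      (measurableSet_le h5.abs measurable_const))

/-- **L-256-RT-GR-K10** (100 l., with the next two)   enlarged tests are measurable (closed conditions on polynomials of the five measurable coordinates: `measurableSet_le`, `Measurable.pow_const`, ..) -/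
theorem rt_gr_meas_set (τ : RtTest) (M : ℝ) (t : ℝ) : MeasurableSet {x | (ρ x).flow t ∈ τ.set M} := by
  exact hρ (rt_gr_ms_box τ t M (M * τ.f) (M * τ.f))

theorem rt_gr_meas_pre (G : RtGrG) (l : Fin G.L) : MeasurableSet {x | ρ x ∈ G.Pre l} := by
  exact hρ (rt_gr_ms_box (G.τ l) (G.t l) 6 (G.Mp * G.f) (G.Mp * G.f))

omit hρ in
/-- the normalised patch in the five coordinates -/
theorem rt_gr_ms_in (d : RtPd) (l r : ℝ) (cen : RtRow) (Pp fs : ℝ) :
    MeasurableSet {w : (ℝ × ℝ) × (ℝ × ℝ) × ℝ | (rtNrm l r cen).row (⟨w.1, w.2.1, w.2.2⟩ : RtRow) ∈ d.In Pp fs} := by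
  have h1 : Measurable fun w : (ℝ × ℝ) × (ℝ × ℝ) × ℝ => rtSq (((rtNrm l r cen).row (⟨w.1, w.2.1, w.2.2⟩ : RtRow)).b - d.p0.b) := by
    simp only [rtNrm, RtCh.comp, rtChSc, rtChCen, rtCfRowCen, rtSq, rtIp, Prod.smul_fst, Prod.smul_snd, Prod.fst_sub, Prod.snd_sub, smul_eq_mul]
    fun_prop
  have h2 : Measurable fun w : (ℝ × ℝ) × (ℝ × ℝ) × ℝ => ((rtNrm l r cen).row (⟨w.1, w.2.1, w.2.2⟩ : RtRow)).y - d.p0.y
      - 2 * rtIp d.p0.A (((rtNrm l r cen).row (⟨w.1, w.2.1, w.2.2⟩ : RtRow)).b - d.p0.b) := by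
    simp only [rtNrm, RtCh.comp, rtChSc, rtChCen, rtCfRowCen, rtSq, rtIp, Prod.smul_fst, Prod.smul_snd, Prod.fst_sub, Prod.snd_sub, smul_eq_mul]
    fun_prop
  have h3 : Measurable fun w : (ℝ × ℝ) × (ℝ × ℝ) × ℝ => rtSq (((rtNrm l r cen).row (⟨w.1, w.2.1, w.2.2⟩ : RtRow)).A - d.p0.A) := by
    simp only [rtNrm, RtCh.comp, rtChSc, rtChCen, rtCfRowCen, rtSq, rtIp, Prod.smul_fst, Prod.smul_snd, Prod.fst_sub, Prod.snd_sub, smul_eq_mul]
    fun_prop
  have h4 : Measurable fun w : (ℝ × ℝ) × (ℝ × ℝ) × ℝ => d.nL.F 0 ((rtNrm l r cen).row (⟨w.1, w.2.1, w.2.2⟩ : RtRow)).b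
      ((rtNrm l r cen).row (⟨w.1, w.2.1, w.2.2⟩ : RtRow)).y := by
    simp only [RtPoly.F, rtNrm, RtCh.comp, rtChSc, rtChCen, rtCfRowCen, rtSq, rtIp, Prod.smul_fst, Prod.smul_snd, Prod.fst_sub, Prod.snd_sub,
      smul_eq_mul]
    fun_prop
  have h5 : Measurable fun w : (ℝ × ℝ) × (ℝ × ℝ) × ℝ => d.nL.G 0 ((rtNrm l r cen).row (⟨w.1, w.2.1, w.2.2⟩ : RtRow)).b
      ((rtNrm l r cen).row (⟨w.1, w.2.1, w.2.2⟩ : RtRow)).y ((rtNrm l r cen).row (⟨w.1, w.2.1, w.2.2⟩ : RtRow)).A := by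
    simp only [RtPoly.G, rtNrm, RtCh.comp, rtChSc, rtChCen, rtCfRowCen, rtSq, rtIp, Prod.smul_fst, Prod.smul_snd, Prod.fst_sub, Prod.snd_sub,
      smul_eq_mul]
    fun_prop
  exact ((measurableSet_le h1 measurable_const).inter ((measurableSet_le h2.abs measurable_const).inter
    (measurableSet_le h3 measurable_const))).inter ((measurableSet_le h4.abs measurable_const).inter
      (measurableSet_le h5.abs measurable_const))

theorem rt_gr_meas_in (d : RtPd) (l r : ℝ) (cen : RtRow) (Pp fs : ℝ) : MeasurableSet {x | (rtNrm l r cen).row (ρ x) ∉ d.In Pp fs} := by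
  exact (hρ (rt_gr_ms_in d l r cen Pp fs)).compl

omit hρ in
/-- the cell map in the five coordinates -/
theorem rt_gr_ms_cell (G : RtGrG) : Measurable fun w : (ℝ × ℝ) × (ℝ × ℝ) × ℝ => G.cell (⟨w.1, w.2.1, w.2.2⟩ : RtRow) := by
  have hc : Measurable (fun n : ℤ => (n : ℝ)) := measurable_from_top
  have f1 : Measurable fun w : (ℝ × ℝ) × (ℝ × ℝ) × ℝ => ⌊w.1.1 / G.r⌋ := Measurable.floor (by fun_prop)
  have f2 : Measurable fun w : (ℝ × ℝ) × (ℝ × ℝ) × ℝ => ⌊w.1.2 / G.r⌋ := Measurable.floor (by fun_prop)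
  have f3 : Measurable fun w : (ℝ × ℝ) × (ℝ × ℝ) × ℝ => ⌊w.2.1.1 / (G.l0 * G.r)⌋ := Measurable.floor (by fun_prop)
  have f4 : Measurable fun w : (ℝ × ℝ) × (ℝ × ℝ) × ℝ => ⌊w.2.1.2 / (G.l0 * G.r)⌋ := Measurable.floor (by fun_prop)
  have g1 := hc.comp f1
  have g2 := hc.comp f2
  have g3 := hc.comp f3
  have g4 := hc.comp f4
  simp only [Function.comp_def] at g1 g2 g3 g4
  have f5 : Measurable fun w : (ℝ × ℝ) × (ℝ × ℝ) × ℝ => ⌊(w.2.2 - 2 * rtIp (G.r * ⌊w.1.1 / G.r⌋, G.r * ⌊w.1.2 / G.r⌋)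
      (w.2.1 - (G.l0 * G.r * ⌊w.2.1.1 / (G.l0 * G.r)⌋, G.l0 * G.r * ⌊w.2.1.2 / (G.l0 * G.r)⌋))) / (G.l0 * G.r ^ 2)⌋ := by
    refine Measurable.floor ?_
    simp only [rtIp, Prod.fst_sub, Prod.snd_sub]
    fun_prop
  refine measurable_pi_lambda _ fun i => ?_
  fin_cases i
  · exact f1
  · exact f2
  · exact f3
  · exact f4
  · exact f5

/-- **L-256-RT-GR-K11** (100 l.)   `Int.floor` of measurable functions (`Int.measurable_floor`/`Measurable.floor`); a fibre is the intersection of five fibres -/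
theorem rt_gr_meas_cell (G : RtGrG) (c : Fin 5 → ℤ) : MeasurableSet {x | G.cell (ρ x) = c} := by
  exact ((rt_gr_ms_cell G).comp hρ) (measurableSet_singleton c)

/-- the fibres of the hit set -/
theorem rt_gr_ms_hit (G : RtGrG) (H : Finset (Fin G.L)) : MeasurableSet {x | G.hit (ρ x) = H} := by
  have e : {x | G.hit (ρ x) = H} = ⋂ l : Fin G.L, {x | l ∈ H ↔ ρ x ∈ G.Pre l} := by
    ext x
    simp only [Set.mem_ofPred_eq, Set.mem_iInter]
    constructor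
    · intro h l
      rw [← h, rt_gr_mem_hit]
    · intro h
      ext l
      rw [rt_gr_mem_hit]
      exact (h l).symm
  rw [e]
  refine MeasurableSet.iInter fun l => ?_
  have hl := rt_gr_meas_pre ρ hρ G l
  by_cases hH : l ∈ H
  · have e2 : {x | l ∈ H ↔ ρ x ∈ G.Pre l} = {x | ρ x ∈ G.Pre l} := by
      ext x
      simp [hH]
    rw [e2]
    exact hl
  · have e2 : {x | l ∈ H ↔ ρ x ∈ G.Pre l} = {x | ρ x ∈ G.Pre l}ᶜ := by
      ext x
      simp [hH]
    rw [e2]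
    exact hl.compl

/-- **L-256-RT-GR-K12** (150 l.)   `key (ρ x) = keyOf (hit (ρ x)) (cell (ρ x))`: the fibre is the COUNTABLE union over `(H, c)` with `keyOf H c = j` of `{hit = H} ∩ {cell = c}`;
`{hit = H} = ⋂_{l ∈ H} {ρ x ∈ Pre l} ∩ ⋂_{l ∉ H} {ρ x ∉ Pre l}` -/
theorem rt_gr_meas_key (G : RtGrG) (j : RtGrK) : MeasurableSet {x | G.key (ρ x) = j} := by
  have e : {x | G.key (ρ x) = j} = ⋃ (H : Finset (Fin G.L)) (c : Fin 5 → ℤ) (_ : G.keyOf H c = j),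
      ({x | G.hit (ρ x) = H} ∩ {x | G.cell (ρ x) = c}) := by
    ext x
    simp only [Set.mem_ofPred_eq, Set.mem_iUnion, Set.mem_inter_iff, exists_prop]
    constructor
    · intro h
      exact ⟨G.hit (ρ x), G.cell (ρ x), h, rfl, rfl⟩
    · rintro ⟨H, c, h, h1, h2⟩
      unfold RtGrG.key
      rw [h1, h2]
      exact h
  rw [e]
  refine MeasurableSet.iUnion fun H => MeasurableSet.iUnion fun c => MeasurableSet.iUnion fun _ => ?_
  exact (rt_gr_ms_hit ρ hρ G H).inter (rt_gr_meas_cell ρ hρ G c)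

/-- **L-256-RT-GR-K13** (100 l.)   countable union over the cells `c` of `{cell = c} ∩ {rtGrRnd hg (nrm c (ρ x)) = g}` -/
theorem rt_gr_meas_fine (G : RtGrG) (g : Fin 5 → ℤ) : MeasurableSet {x | G.fine (ρ x) = g} := by
  have hA1 : Measurable fun x => (ρ x).A.1 := measurable_fst.comp (measurable_fst.comp hρ)
  have hA2 : Measurable fun x => (ρ x).A.2 := measurable_snd.comp (measurable_fst.comp hρ)
  have hb1 : Measurable fun x => (ρ x).b.1 := measurable_fst.comp (measurable_fst.comp (measurable_snd.comp hρ))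
  have hb2 : Measurable fun x => (ρ x).b.2 := measurable_snd.comp (measurable_fst.comp (measurable_snd.comp hρ))
  have hy : Measurable fun x => (ρ x).y := measurable_snd.comp (measurable_snd.comp hρ)
  have hc : ∀ c : Fin 5 → ℤ, MeasurableSet {x | rtGrRnd G.hg (G.nrm c (ρ x)) = g} := by
    intro c
    have hm : Measurable fun x => rtGrRnd G.hg (G.nrm c (ρ x)) := by
      rw [measurable_pi_iff]
      intro i
      fin_cases i
      · show Measurable fun x => ⌊(G.r⁻¹ * ((ρ x).A.1 - (G.frm c).As.1)) / G.hg⌋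
        exact (((hA1.sub_const _).const_mul _).div_const _).floor
      · show Measurable fun x => ⌊(G.r⁻¹ * ((ρ x).A.2 - (G.frm c).As.2)) / G.hg⌋
        exact (((hA2.sub_const _).const_mul _).div_const _).floor
      · show Measurable fun x => ⌊((G.l0 * G.r)⁻¹ * ((ρ x).b.1 - (G.frm c).bs.1)) / G.hg⌋
        exact (((hb1.sub_const _).const_mul _).div_const _).floor
      · show Measurable fun x => ⌊((G.l0 * G.r)⁻¹ * ((ρ x).b.2 - (G.frm c).bs.2)) / G.hg⌋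
        exact (((hb2.sub_const _).const_mul _).div_const _).floor
      · show Measurable fun x => ⌊(((ρ x).y - (G.frm c).ys - 2 * ((G.frm c).As.1 * ((ρ x).b.1 - (G.frm c).bs.1) + (G.frm c).As.2 * ((ρ x).b.2 - (G.frm c).bs.2))) / (G.l0 * G.r ^ 2)) / G.hg⌋
        exact (((((hy.sub_const _).sub ((((hb1.sub_const _).const_mul _).add ((hb2.sub_const _).const_mul _)).const_mul _))).div_const _).div_const _).floor
    exact hm (measurableSet_singleton g)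
  have e : {x | G.fine (ρ x) = g} = ⋃ c : Fin 5 → ℤ, {x | G.cell (ρ x) = c} ∩ {x | rtGrRnd G.hg (G.nrm c (ρ x)) = g} := by
    ext x
    simp [RtGrG.fine]
  rw [e]
  exact MeasurableSet.iUnion fun c => (rt_gr_meas_cell ρ hρ G c).inter (hc c)

end meas

end Claimed.Agent.R256
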