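-- KEEP
import Claimed.Agent.R256.Rt.Grp.Key
import Claimed.Agent.R256.Rt.Grp.Dec

/-!
# Row 256 (LS paper), folder Rt, block GROUP, file Grp/Mod : UNIFORM EXPERIMENTS OF A ROUND-TYPE MODEL          (architect helper111; prefix `rt_gr_`)          CONTRACT: the `sorry`s are the leaves `L-256-RT-GR-M*`

* `RtGrU Y p E C D' r f`      `E` is a UNIFORM free experiment: all labels heavy (`m ≥ s⁴ κ w`), widths in `[r/2, r]`, thicknesses in `[f/2, f]`, `κ r⁴ ≈ e` and `f` polynomial (exponent `D'`).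
* `rtGrStd Y p E r f D D1 b0`      THE geometry with the standard parameters  `Mp = s^-1`,  `Ka = s^-D f`,  `h = s^-D1 f/100`,  `kb = s^-(min b0 1/2)`,  `hg = ρ(s^-b0)/100`.
* `rt_gr_std_ok`, `rt_gr_mass` (covering ⇒ root mass), `rt_gr_std_pre` (correspondence ⇒ `Pre`), `rt_gr_std_far`, `rt_gr_count`, `rt_gr_err`.
Black boxes: `Rt/Grp/Geo.lean`, `Rt/Grp/Key.lean`, `Rt/Grp/Dec.lean`, fields of `RtMd.Ok` (`Rt/PatchDefs.lean`).   Prove a leaf IN PLACE, statement verbatim.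
-/

set_option autoImplicit false

namespace Claimed.Agent.R256

open MeasureTheory

variable {η : ℝ}

/-- a uniform free experiment -/
structure RtGrU (Y : RtMd η) (p : Y.M.Par) (E : Xp (Y.M.sys p)) (C D' : ℕ) (r f : ℝ) : Prop where
  gd : Y.M.gd p
  vl : E.Valid
  gen : E.GenLe C
  free : E.st = []
  heavy : ∀ l, E.s ^ (4 : ℝ) * (E.ka * E.w l) ≤ E.m l
  r_pos : 0 < r
  lab_r : ∀ l, r / 2 ≤ (Y.tq p (E.ts l)).r ∧ (Y.tq p (E.ts l)).r ≤ r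
  lab_f : ∀ l, f / 2 ≤ (Y.tq p (E.ts l)).f ∧ (Y.tq p (E.ts l)).f ≤ f
  r_lo : E.s ^ (D' : ℝ) * E.e ≤ E.ka * r ^ 4
  r_hi : E.ka * r ^ 4 ≤ E.s ^ (-(D' : ℝ)) * E.e
  f_lo : E.s ^ (D' : ℝ) ≤ f

/-- the geometry with the standard parameters -/
noncomputable abbrev rtGrStd (Y : RtMd η) (p : Y.M.Par) (E : Xp (Y.M.sys p)) (r f D D1 b0 : ℝ) : RtGrG :=
  rtGrOf Y p E r f (E.s ^ (-1 : ℝ)) (E.s ^ (-D) * f) (E.s ^ (-D1) * f / 100) (E.s ^ (-(min b0 1 / 2))) (rtChRho (E.s ^ (-b0)) / 100)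

/-- the root time -/
noncomputable abbrev rtGrT0 {P : PkSys} (E : Xp P) : ℝ := tmL E.k0 E.i0

/-- **L-256-RT-GR-M1** (120 l.)   `adm`: `Valid.ts_ok` + `hY.ok_iff`;   `t_nn`, `t_le`: `gn_cutle_anc` + `Valid.iv_in` (`rdLen k = (2⁻¹)^k`);   parameters: `gn_s_pos`, `gn_s_le_one`, `Real.one_le_rpow_of_pos_of_le_one_of_nonpos` -/
theorem rt_gr_std_ok (Y : RtMd η) (hY : Y.Ok) {p : Y.M.Par} {E : Xp (Y.M.sys p)} {C D' : ℕ} {r f : ℝ} (hU : RtGrU Y p E C D' r f) (hf : f ≤ 1) (D D1 b0 : ℝ) (hb0 : 0 < b0) :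
    (rtGrStd Y p E r f D D1 b0).Ok := by
  have hs := gn_s_pos E
  have hs1 := gn_s_le_one E
  have hf0 : 0 < f := lt_of_lt_of_le (Real.rpow_pos_of_pos hs _) hU.f_lo
  have hcut : ∀ l : Fin E.L, CutLe (tmL E.k0 E.i0) E.k0 (tmL E.kf (E.iv l)) E.kf := fun l => by
    have h := gn_cutle_anc (k := E.k0) (k' := E.kf) (Nat.le_add_right _ _) (E.iv l)
    rwa [hU.vl.iv_in l] at h
  refine ⟨hU.r_pos, hf0, hf, fun l => ((hY.ok_iff p (E.ts l) E.kf).1 (hU.vl.ts_ok l)).1, hU.lab_r, hU.lab_f, fun l => ?_, fun l => ?_, ?_, ?_, ?_, ?_, ?_⟩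
  · show 0 ≤ tmL E.kf (E.iv l) - tmL E.k0 E.i0
    linarith [(hcut l).2.1]
  · show tmL E.kf (E.iv l) - tmL E.k0 E.i0 ≤ rdLen E.k0
    have := (hcut l).2.2
    unfold rdLen
    linarith
  · show 1 ≤ E.s ^ (-1 : ℝ)
    exact Real.one_le_rpow_of_pos_of_le_one_of_nonpos hs hs1 (by norm_num)
  · show 0 < E.s ^ (-D) * f
    exact mul_pos (Real.rpow_pos_of_pos hs _) hf0
  · show 0 < E.s ^ (-D1) * f / 100
    exact div_pos (mul_pos (Real.rpow_pos_of_pos hs _) hf0) (by norm_num)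
  · show 1 ≤ E.s ^ (-(min b0 1 / 2))
    refine Real.one_le_rpow_of_pos_of_le_one_of_nonpos hs hs1 ?_
    have : 0 < min b0 1 := lt_min hb0 one_pos
    linarith
  · show 0 < rtChRho (E.s ^ (-b0)) / 100
    have := Real.rpow_pos_of_pos hs (-b0)
    unfold rtChRho
    positivity

/-- **L-256-RT-GR-M2** (120 l.)   A COVERING BOUNDS THE MASS OF A REGULAR STATE.      `σ i` of the covering: `Q_i = ⟨r, f, As, bs, ys, n⟩`, `Q_i.toT k = σ i` (as `(σ i).l = rdLen k`), test `Y.qt p Q_i` (`tq_qt`), `ok` by `ok_iff`, `cell` by `cell_eq`, weight by `wt_eq`;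
`ms S ≤ ms (⋃ cells) ≤ Σ ms (cell) ≤ κ Σ w` (`gn_ms_mono`, `gn_ms_iUnion_le`, `Tight.cellM`). -/
theorem rt_gr_mass (Y : RtMd η) (hY : Y.Ok) (p : Y.M.Par) (hp : Y.M.gd p) (T : ℝ) (k b : ℕ) (κ : ℝ) (hκ : 0 ≤ κ) (v : (Y.M.sys p).Kc) (hreg : (Y.M.sys p).Reg T k b κ v)
    (S : Set RtRow) (W : ℝ) (hS : MeasurableSet {x | Y.co p T x ∈ S}) (hc : RtCover S (rdLen k) (rdD (Y.H p) k) η W) :
    (Y.M.sys p).ms T k b {x | Y.co p T x ∈ S} v ≤ κ * W := by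
  obtain ⟨m, σ, hσ, hcov, hW⟩ := hc
  have hT := hY.gen.tight p hp
  obtain ⟨Q, hQ⟩ : ∃ Q : Fin m → RdTst, Q = fun i => ⟨(σ i).r, (σ i).f, (σ i).As, (σ i).bs, (σ i).ys, (σ i).n⟩ := ⟨_, rfl⟩
  have hto : ∀ i, (Q i).toT k = σ i := by
    intro i
    rw [hQ]
    unfold RdTst.toT
    rw [← (hσ i).2.1]
  have htq : ∀ i, Y.tq p (Y.qt p (Q i)) = Q i := fun i => hY.tq_qt p (Q i)
  have hok : ∀ i, (Y.M.sys p).ok (Y.qt p (Q i)) k := by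
    intro i
    rw [hY.ok_iff, htq, hto]
    refine ⟨(hσ i).1, ?_⟩
    have := (hσ i).2.2
    rw [hQ]
    exact this
  have hcell : ∀ i, (Y.M.sys p).cell (Y.qt p (Q i)) T k = {x | Y.co p T x ∈ (σ i).set 1} := by
    intro i
    rw [hY.cell_eq, htq]
    unfold RdTst.rows
    rw [hto]
  have hwt : ∀ i, (Y.M.sys p).wt (Y.qt p (Q i)) = (σ i).w η := by
    intro i
    rw [hY.wt_eq, htq, hQ]
    rfl
  have hM : ∀ i, MeasurableSet ((Y.M.sys p).cell (Y.qt p (Q i)) T k) := fun i => hT.cellM _ _ _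
  have hsub : {x | Y.co p T x ∈ S} ⊆ ⋃ i, (Y.M.sys p).cell (Y.qt p (Q i)) T k := by
    intro x hx
    obtain ⟨i, hi⟩ := Set.mem_iUnion.1 (hcov hx)
    refine Set.mem_iUnion.2 ⟨i, ?_⟩
    rw [hcell]
    exact hi
  calc (Y.M.sys p).ms T k b {x | Y.co p T x ∈ S} v
      ≤ (Y.M.sys p).ms T k b (⋃ i, (Y.M.sys p).cell (Y.qt p (Q i)) T k) v := gn_ms_mono _ _ _ hS (MeasurableSet.iUnion hM) hsub _
    _ ≤ ∑ i, (Y.M.sys p).ms T k b ((Y.M.sys p).cell (Y.qt p (Q i)) T k) v := gn_ms_iUnion_le _ _ _ _ hM _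
    _ ≤ ∑ i, κ * (σ i).w η := Finset.sum_le_sum fun i _ => by
        rw [← hwt]
        exact hreg _ (hok i)
    _ = κ * ∑ i, (σ i).w η := by rw [Finset.mul_sum]
    _ ≤ κ * W := mul_le_mul_of_nonneg_left hW hκ

/-- the aperture at the root is below the uncertainty width `r f`   (`ok_iff` at `kf` for any label, `rdD H k0 ≤ rdD H kf`; no label: not needed, hence the hypothesis `l`) -/
theorem rt_gr_unc (Y : RtMd η) (hY : Y.Ok) {p : Y.M.Par} {E : Xp (Y.M.sys p)} {C D' : ℕ} {r f : ℝ} (hU : RtGrU Y p E C D' r f) (l : Fin E.L) :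
    rdD (Y.H p) E.kf ≤ r * f ∧ rdD (Y.H p) E.k0 = E.s ^ (1 / 2 : ℝ) * rdD (Y.H p) E.kf := by
  have hs := gn_s_pos E
  constructor
  · have h1 := ((hY.ok_iff p (E.ts l) E.kf).1 (hU.vl.ts_ok l)).2
    have hf : 0 < f := lt_of_lt_of_le (Real.rpow_pos_of_pos hs _) hU.f_lo
    have hfl : 0 ≤ (Y.tq p (E.ts l)).f := le_trans (by positivity) (hU.lab_f l).1
    exact h1.trans (mul_le_mul (hU.lab_r l).2 (hU.lab_f l).2 hfl hU.r_pos.le)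
  · unfold rdD
    have e : rdLen E.kf = E.s * rdLen E.k0 := by
      unfold rdLen Xp.kf Xp.s
      rw [pow_add]
      ring
    have h0 := rdLen_pos E.k0
    have e2 : Y.H p / rdLen E.k0 = E.s * (Y.H p / rdLen E.kf) := by
      rw [e]
      field_simp
    rw [e2, Real.sqrt_mul hs.le, Real.sqrt_eq_rpow]

/-- **L-256-RT-GR-M3** (120 l.)   `cn_near` + `cell_eq` + `rt_gr_near` with `Λ = 2^(n/4)`:   `Λ f √(2^n) ≤ 2^(3n/4) s ≤ 1`,   `10⁴ Λ √(2^n) ≤ 2^n = s^-1` for `n ≥ 56` -/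
theorem rt_gr_std_pre (Y : RtMd η) (hY : Y.Ok) {p : Y.M.Par} {E : Xp (Y.M.sys p)} {C D' : ℕ} {r f : ℝ} (hU : RtGrU Y p E C D' r f) (hf : f ≤ E.s) (hn : 56 ≤ E.n) (D D1 b0 : ℝ) (hb0 : 0 < b0)
    (l : Fin E.L) (x x' : (Y.M.sys p).X) (hx' : x' ∈ (Y.M.sys p).cell (E.ts l) (tmL E.kf (E.iv l)) E.kf)
    (hc : Y.L.cn p (2 ^ ((E.n : ℝ) / 4)) (rtGrT0 E) E.k0 (tmL E.kf (E.iv l)) E.kf x x') :
    Y.co p (rtGrT0 E) x ∈ (rtGrStd Y p E r f D D1 b0).Pre l := by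
  have hs := gn_s_pos E
  have hf0 : 0 < f := lt_of_lt_of_le (Real.rpow_pos_of_pos hs _) hU.f_lo
  have hOk : (rtGrStd Y p E r f D D1 b0).Ok := rt_gr_std_ok Y hY hU (hf.trans (gn_s_le_one E)) D D1 b0 hb0
  have hn' : (56 : ℝ) ≤ E.n := by exact_mod_cast hn
  have hsq : Real.sqrt ((2 : ℝ) ^ E.n) = 2 ^ ((E.n : ℝ) / 2) := by
    rw [Real.sqrt_eq_rpow, ← Real.rpow_natCast, ← Real.rpow_mul (by norm_num)]
    congr 1
    ring
  have hse : E.s = 2 ^ (-(E.n : ℝ)) := by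
    have := gn_s_rpow E 1
    rw [Real.rpow_one, one_mul] at this
    exact this
  refine rt_gr_near (rtGrStd Y p E r f D D1 b0) hOk l (2 ^ ((E.n : ℝ) / 4)) (Y.H p) ?_ (hY.H_nn p) ?_ ?_ ?_ _ (Y.co p (tmL E.kf (E.iv l)) x') ?_ ?_
  · exact Real.one_le_rpow (by norm_num) (by linarith)
  · exact ((hY.ok_iff p (E.ts l) E.kf).1 (hU.vl.ts_ok l)).2
  · show (2 : ℝ) ^ ((E.n : ℝ) / 4) * f * Real.sqrt (2 ^ E.n) ≤ 1
    rw [hsq]
    have h1 : (2 : ℝ) ^ ((E.n : ℝ) / 4) * f * 2 ^ ((E.n : ℝ) / 2) ≤ 2 ^ ((E.n : ℝ) / 4) * 2 ^ (-(E.n : ℝ)) * 2 ^ ((E.n : ℝ) / 2) := by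
      rw [← hse]
      gcongr
    refine h1.trans ?_
    rw [← Real.rpow_add (by norm_num), ← Real.rpow_add (by norm_num)]
    exact Real.rpow_le_one_of_one_le_of_nonpos (by norm_num) (by linarith)
  · show (10 : ℝ) ^ 4 * 2 ^ ((E.n : ℝ) / 4) * Real.sqrt (2 ^ E.n) ≤ E.s ^ (-1 : ℝ)
    rw [hsq, gn_s_rpow]
    have h1 : (10 : ℝ) ^ 4 ≤ 2 ^ ((E.n : ℝ) / 4) := by
      calc (10 : ℝ) ^ 4 ≤ 2 ^ (14 : ℝ) := by norm_num
        _ ≤ 2 ^ ((E.n : ℝ) / 4) := Real.rpow_le_rpow_of_exponent_le (by norm_num) (by linarith)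
    calc (10 : ℝ) ^ 4 * 2 ^ ((E.n : ℝ) / 4) * 2 ^ ((E.n : ℝ) / 2) ≤ 2 ^ ((E.n : ℝ) / 4) * 2 ^ ((E.n : ℝ) / 4) * 2 ^ ((E.n : ℝ) / 2) := by gcongr
      _ = 2 ^ (-(-1 * (E.n : ℝ))) := by
        rw [← Real.rpow_add (by norm_num), ← Real.rpow_add (by norm_num)]
        congr 1
        ring
  · rw [hY.cell_eq] at hx'
    exact hx'
  · exact hY.cn_near p _ _ _ _ _ x x' hc

/-- the ambiguity threshold is below the lattice side -/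
theorem rt_gr_std_Ka {P : PkSys} (E : Xp P) (hn : 1 ≤ E.n) {f : ℝ} (hf0 : 0 ≤ f) {D D1 : ℝ} (hD : D + 7 ≤ D1) :
    E.s ^ (-D) * f ≤ E.s ^ (-D1) * f / 100 := by
  have hs := gn_s_pos E
  have h7 : (100 : ℝ) ≤ E.s ^ (-7 : ℝ) := by
    rw [gn_s_rpow]
    have h1 : (7 : ℝ) ≤ -(-7 * (E.n : ℝ)) := by
      have : (1 : ℝ) ≤ E.n := by exact_mod_cast hn
      linarith
    calc (100 : ℝ) ≤ 2 ^ (7 : ℝ) := by norm_num
      _ ≤ 2 ^ (-(-7 * (E.n : ℝ))) := Real.rpow_le_rpow_of_exponent_le (by norm_num) h1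
  have h2 : E.s ^ (-D) * E.s ^ (-7 : ℝ) ≤ E.s ^ (-D1) := by
    rw [← Real.rpow_add hs]
    exact gn_s_anti E (by linarith)
  have h3 : E.s ^ (-D) * 100 ≤ E.s ^ (-D1) := le_trans (mul_le_mul_of_nonneg_left h7 (by positivity)) h2
  rw [le_div_iff₀ (by norm_num)]
  calc E.s ^ (-D) * f * 100 = (E.s ^ (-D) * 100) * f := by ring
    _ ≤ E.s ^ (-D1) * f := mul_le_mul_of_nonneg_right h3 hf0

/-- rows whose key avoids a finite set -/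
theorem rt_gr_meas_nkey {X : Type} [MeasurableSpace X] (ρ : X → RtRow) (hρ : Measurable fun x => ((ρ x).A, (ρ x).b, (ρ x).y)) (G : RtGrG) (J : Finset RtGrK) :
    MeasurableSet {x | G.key (ρ x) ∉ J} := by
  have e : {x | G.key (ρ x) ∉ J} = (⋃ j ∈ J, {x | G.key (ρ x) = j})ᶜ := by
    ext x
    simp
  rw [e]
  exact (Finset.measurableSet_biUnion _ fun j _ => rt_gr_meas_key ρ hρ G j).compl

/-- **L-256-RT-GR-M4** (100 l.)   rows whose key is not connected to `l` have no correspondence with the cell of `l` (`rt_gr_std_pre`, `rt_gr_mem_J`, `rt_gr_J_card`), `rt_gr_far`; measurability: `rt_gr_meas_key` + finite union -/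
theorem rt_gr_std_far (Y : RtMd η) (hY : Y.Ok) (C N' : ℕ) : ∃ n0 : ℕ, ∀ (p : Y.M.Par) (E : Xp (Y.M.sys p)) (D' : ℕ) (r f : ℝ), RtGrU Y p E C D' r f → n0 ≤ E.n → f ≤ E.s →
    ∀ (D D1 b0 : ℝ), 0 < b0 → D + 7 ≤ D1 → ∀ l : Fin E.L,
      rtGrMl E l (rtGrRm E {x | (rtGrStd Y p E r f D D1 b0).key (Y.co p (rtGrT0 E) x) ∉ (rtGrStd Y p E r f D D1 b0).J l}) ≤ E.s ^ (N' : ℝ) * E.e := by
  obtain ⟨n1, hn1⟩ := rt_gr_far Y.M 1 Y.L (fun p hp => hY.gen.tight p hp) C N'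
  obtain ⟨B0, hB0⟩ := rt_gr_J_card
  refine ⟨max n1 56, fun p E D' r f hU hn hf D D1 b0 hb0 hD l => ?_⟩
  have hn1' : n1 ≤ E.n := le_trans (le_max_left _ _) hn
  have hn56 : 56 ≤ E.n := le_trans (le_max_right _ _) hn
  have hs := gn_s_pos E
  have hf0 : 0 < f := lt_of_lt_of_le (Real.rpow_pos_of_pos hs _) hU.f_lo
  have hOk : (rtGrStd Y p E r f D D1 b0).Ok := rt_gr_std_ok Y hY hU (hf.trans (gn_s_le_one E)) D D1 b0 hb0
  have hKa : (rtGrStd Y p E r f D D1 b0).Ka ≤ (rtGrStd Y p E r f D D1 b0).h := rt_gr_std_Ka E (by omega) hf0.le hD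
  have hfin : ((rtGrStd Y p E r f D D1 b0).Jset l).Finite := (hB0 (rtGrStd Y p E r f D D1 b0) hOk hKa l).1
  have hρ := hY.co_meas p hU.gd (rtGrT0 E)
  have hS := rt_gr_meas_nkey (Y.co p (rtGrT0 E)) hρ (rtGrStd Y p E r f D D1 b0) ((rtGrStd Y p E r f D D1 b0).J l)
  refine hn1 p E hU.gd hU.vl hU.gen hn1' _ l hS fun x hx x' hx' hc => hx ?_
  have hpre := rt_gr_std_pre Y hY hU hf hn56 D D1 b0 hb0 l x x' hx' hc
  exact (rt_gr_mem_J (rtGrStd Y p E r f D D1 b0) l hfin _).2 ⟨_, hpre, rfl⟩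

/-- the weights of the labels: `r⁴ f^(1-η)/32 ≤ w_l ≤ r⁴ f^(1-η)`   (`wt_eq`, `RdTst.wt`) -/
theorem rt_gr_w (Y : RtMd η) (hY : Y.Ok) (h0 : 0 < η) (h1 : η < 1) {p : Y.M.Par} {E : Xp (Y.M.sys p)} {C D' : ℕ} {r f : ℝ} (hU : RtGrU Y p E C D' r f) (l : Fin E.L) :
    r ^ 4 * f ^ (1 - η) / 32 ≤ E.w l ∧ E.w l ≤ r ^ 4 * f ^ (1 - η) := by
  have hw : E.w l = (Y.tq p (E.ts l)).r ^ 4 * (Y.tq p (E.ts l)).f ^ (1 - η) := hY.wt_eq p (E.ts l)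
  have hr := hU.r_pos
  have hf : 0 < f := lt_of_lt_of_le (Real.rpow_pos_of_pos (gn_s_pos E) _) hU.f_lo
  obtain ⟨r1, r2⟩ := hU.lab_r l
  obtain ⟨f1, f2⟩ := hU.lab_f l
  have he : 0 ≤ 1 - η := by linarith
  have hrl : 0 ≤ (Y.tq p (E.ts l)).r := le_trans (by positivity) r1
  have hfl : 0 ≤ (Y.tq p (E.ts l)).f := le_trans (by positivity) f1
  rw [hw]
  constructor
  · have a1 : (r / 2) ^ 4 ≤ (Y.tq p (E.ts l)).r ^ 4 := pow_le_pow_left₀ (by positivity) r1 4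
    have a2 : (f / 2) ^ (1 - η) ≤ (Y.tq p (E.ts l)).f ^ (1 - η) := Real.rpow_le_rpow (by positivity) f1 he
    have a3 : f ^ (1 - η) / 2 ≤ (f / 2) ^ (1 - η) := by
      rw [Real.div_rpow hf.le (by norm_num)]
      have : (2 : ℝ) ^ (1 - η) ≤ 2 := by
        calc (2 : ℝ) ^ (1 - η) ≤ 2 ^ (1 : ℝ) := Real.rpow_le_rpow_of_exponent_le (by norm_num) (by linarith)
          _ = 2 := Real.rpow_one 2
      exact div_le_div_of_nonneg_left (by positivity) (by positivity) this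
    calc r ^ 4 * f ^ (1 - η) / 32 = (r / 2) ^ 4 * (f ^ (1 - η) / 2) := by ring
      _ ≤ (Y.tq p (E.ts l)).r ^ 4 * (Y.tq p (E.ts l)).f ^ (1 - η) :=
        mul_le_mul a1 (a3.trans a2) (by positivity) (by positivity)
  · exact mul_le_mul (pow_le_pow_left₀ hrl r2 4) (Real.rpow_le_rpow hfl f2 he) (by positivity) (by positivity)

/-- **L-256-RT-GR-M5** (120 l., with `rt_gr_w`)   the number of labels: `L s⁴ κ r⁴ f^(1-η)/32 ≤ Σ m_l ≤ 2^n e` (`gn_total`) -/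
theorem rt_gr_count (Y : RtMd η) (hY : Y.Ok) (h0 : 0 < η) (h1 : η < 1) {p : Y.M.Par} {E : Xp (Y.M.sys p)} {C D' : ℕ} {r f : ℝ} (hU : RtGrU Y p E C D' r f) :
    (E.L : ℝ) * (E.ka * (r ^ 4 * f ^ (1 - η))) ≤ 32 * E.s ^ (-5 : ℝ) * E.e ∧ (E.L : ℝ) ≤ 32 * E.s ^ (-(5 + 2 * (D' : ℝ))) := by
  have hT := hY.gen.tight p hU.gd
  have hs := gn_s_pos E
  have he := hU.vl.e_pos
  have hk := hU.vl.ka_pos
  have hr := hU.r_pos
  have hf : 0 < f := lt_of_lt_of_le (Real.rpow_pos_of_pos hs _) hU.f_lo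
  have htot := gn_total hT E hU.vl
  unfold Xp.tm at htot
  have h2n : (2 : ℝ) ^ E.n = E.s ^ (-1 : ℝ) := by
    rw [gn_s_rpow, ← Real.rpow_natCast]
    congr 1
    ring
  set W : ℝ := r ^ 4 * f ^ (1 - η) with hW
  have hWp : 0 < W := by positivity
  have hlow : (E.L : ℝ) * (E.s ^ (4 : ℝ) * (E.ka * (W / 32))) ≤ ∑ l, E.m l := by
    have : ∑ _l : Fin E.L, E.s ^ (4 : ℝ) * (E.ka * (W / 32)) ≤ ∑ l, E.m l := by
      refine Finset.sum_le_sum fun l _ => le_trans ?_ (hU.heavy l)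
      exact mul_le_mul_of_nonneg_left (mul_le_mul_of_nonneg_left (rt_gr_w Y hY h0 h1 hU l).1 hk.le) (by positivity)
    simpa using this
  have hfirst : (E.L : ℝ) * (E.ka * W) ≤ 32 * E.s ^ (-5 : ℝ) * E.e := by
    have h5 : E.s ^ (-5 : ℝ) = E.s ^ (-4 : ℝ) * E.s ^ (-1 : ℝ) := by
      rw [← Real.rpow_add hs]; norm_num
    have h4 : E.s ^ (-4 : ℝ) * E.s ^ (4 : ℝ) = 1 := by
      rw [← Real.rpow_add hs]; norm_num
    have hm := mul_le_mul_of_nonneg_left (hlow.trans htot) (by positivity : 0 ≤ 32 * E.s ^ (-4 : ℝ))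
    calc (E.L : ℝ) * (E.ka * W) = (E.s ^ (-4 : ℝ) * E.s ^ (4 : ℝ)) * ((E.L : ℝ) * (E.ka * W)) := by rw [h4, one_mul]
      _ = 32 * E.s ^ (-4 : ℝ) * ((E.L : ℝ) * (E.s ^ (4 : ℝ) * (E.ka * (W / 32)))) := by ring
      _ ≤ 32 * E.s ^ (-4 : ℝ) * (2 ^ E.n * E.e) := hm
      _ = 32 * E.s ^ (-5 : ℝ) * E.e := by rw [h2n, h5]; ring
  refine ⟨hfirst, ?_⟩
  have hfe : E.s ^ (D' : ℝ) ≤ f ^ (1 - η) := by
    calc E.s ^ (D' : ℝ) ≤ E.s ^ ((D' : ℝ) * (1 - η)) := by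
          apply gn_s_anti
          have : (0 : ℝ) ≤ D' := Nat.cast_nonneg _
          nlinarith
      _ = (E.s ^ (D' : ℝ)) ^ (1 - η) := Real.rpow_mul hs.le _ _
      _ ≤ f ^ (1 - η) := Real.rpow_le_rpow (by positivity) hU.f_lo (by linarith)
  have hkw : E.s ^ (2 * (D' : ℝ)) * E.e ≤ E.ka * W := by
    have e2 : E.s ^ (2 * (D' : ℝ)) = E.s ^ (D' : ℝ) * E.s ^ (D' : ℝ) := by
      rw [← Real.rpow_add hs]; congr 1; ring
    calc E.s ^ (2 * (D' : ℝ)) * E.e = (E.s ^ (D' : ℝ) * E.e) * E.s ^ (D' : ℝ) := by rw [e2]; ring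
      _ ≤ (E.ka * r ^ 4) * f ^ (1 - η) := mul_le_mul hU.r_lo hfe (by positivity) (by positivity)
      _ = E.ka * W := by rw [hW]; ring
  have hL : (E.L : ℝ) * (E.s ^ (2 * (D' : ℝ)) * E.e) ≤ 32 * E.s ^ (-5 : ℝ) * E.e :=
    (mul_le_mul_of_nonneg_left hkw (Nat.cast_nonneg _)).trans hfirst
  have e3 : E.s ^ (-(5 + 2 * (D' : ℝ))) * E.s ^ (2 * (D' : ℝ)) = E.s ^ (-5 : ℝ) := by
    rw [← Real.rpow_add hs]; congr 1; ring
  have hpos : 0 < E.s ^ (2 * (D' : ℝ)) * E.e := by positivity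
  refine le_of_mul_le_mul_right ?_ hpos
  calc (E.L : ℝ) * (E.s ^ (2 * (D' : ℝ)) * E.e) ≤ 32 * E.s ^ (-5 : ℝ) * E.e := hL
    _ = 32 * E.s ^ (-(5 + 2 * (D' : ℝ))) * (E.s ^ (2 * (D' : ℝ)) * E.e) := by rw [← e3]; ring

theorem rt_gr_err_aux (s e κ a : ℝ) (hs : 0 < s) (hs1 : s ≤ 1) (he : 0 < e) (hκ : 0 < κ) (D' N' : ℝ) (L : ℕ) (w : Fin L → ℝ)
    (hw : ∀ l, s ^ (2 * D') * e / 32 ≤ κ * w l) (hL : (L : ℝ) ≤ 32 * s ^ (-(5 + 2 * D'))) (ha : a = s ^ (-(1 / 2 : ℝ))) :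
    a / (e * Real.sqrt κ) * ∑ l, Real.sqrt (s ^ N' * e) ^ 3 / Real.sqrt (w l) ≤ 200 * s ^ (3 * N' / 2 - 3 * D' - 6) := by
  set x := Real.sqrt e with hx
  set y := Real.sqrt κ with hy
  have hx0 : 0 < x := Real.sqrt_pos.2 he
  have hy0 : 0 < y := Real.sqrt_pos.2 hκ
  have hxe : x ^ 2 = e := Real.sq_sqrt he.le
  have hT : Real.sqrt (s ^ N' * e) = s ^ (N' / 2) * x := by
    rw [Real.sqrt_mul (Real.rpow_nonneg hs.le _), Real.sqrt_eq_rpow, ← Real.rpow_mul hs.le]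
    congr 2; ring
  have h32 : Real.sqrt 32 ≤ 6 := by
    rw [Real.sqrt_le_iff]; norm_num
  have h32p : 0 < Real.sqrt 32 := Real.sqrt_pos.2 (by norm_num)
  have hsD : 0 < s ^ D' := Real.rpow_pos_of_pos hs _
  have hsN : 0 < s ^ (N' / 2) := Real.rpow_pos_of_pos hs _
  have hterm : ∀ l, Real.sqrt (s ^ N' * e) ^ 3 / Real.sqrt (w l) ≤ (s ^ (N' / 2) * x) ^ 3 * (Real.sqrt 32 * y) / (s ^ D' * x) := by
    intro l
    have h1 : s ^ D' * x / Real.sqrt 32 ≤ y * Real.sqrt (w l) := by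
      have h3 : Real.sqrt (s ^ (2 * D') * e / 32) ≤ Real.sqrt (κ * w l) := Real.sqrt_le_sqrt (hw l)
      rw [Real.sqrt_mul hκ.le, Real.sqrt_div (by positivity), Real.sqrt_mul (by positivity)] at h3
      have h2 : Real.sqrt (s ^ (2 * D')) = s ^ D' := by
        rw [Real.sqrt_eq_rpow, ← Real.rpow_mul hs.le]; congr 1; ring
      rwa [h2] at h3
    have h4 : s ^ D' * x / (Real.sqrt 32 * y) ≤ Real.sqrt (w l) := by
      rw [div_le_iff₀ (by positivity)]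
      rw [div_le_iff₀ h32p] at h1
      nlinarith
    rw [hT]
    calc (s ^ (N' / 2) * x) ^ 3 / Real.sqrt (w l) ≤ (s ^ (N' / 2) * x) ^ 3 / (s ^ D' * x / (Real.sqrt 32 * y)) :=
          div_le_div_of_nonneg_left (by positivity) (by positivity) h4
      _ = (s ^ (N' / 2) * x) ^ 3 * (Real.sqrt 32 * y) / (s ^ D' * x) := by
          field_simp
  have hsum : ∑ l, Real.sqrt (s ^ N' * e) ^ 3 / Real.sqrt (w l) ≤ (L : ℝ) * ((s ^ (N' / 2) * x) ^ 3 * (Real.sqrt 32 * y) / (s ^ D' * x)) := by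
    calc ∑ l, Real.sqrt (s ^ N' * e) ^ 3 / Real.sqrt (w l) ≤ ∑ _l : Fin L, ((s ^ (N' / 2) * x) ^ 3 * (Real.sqrt 32 * y) / (s ^ D' * x)) :=
          Finset.sum_le_sum fun l _ => hterm l
      _ = _ := by simp
  have ha0 : 0 < a := by rw [ha]; exact Real.rpow_pos_of_pos hs _
  have hN3 : (s ^ (N' / 2)) ^ 3 = s ^ (3 * N' / 2) := by
    rw [← Real.rpow_natCast, ← Real.rpow_mul hs.le]; congr 1; push_cast; ring
  calc a / (e * y) * ∑ l, Real.sqrt (s ^ N' * e) ^ 3 / Real.sqrt (w l)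
      ≤ a / (e * y) * ((L : ℝ) * ((s ^ (N' / 2) * x) ^ 3 * (Real.sqrt 32 * y) / (s ^ D' * x))) :=
        mul_le_mul_of_nonneg_left hsum (by positivity)
    _ = a * (L : ℝ) * (s ^ (N' / 2)) ^ 3 * Real.sqrt 32 * (s ^ D')⁻¹ := by
        rw [← hxe]; field_simp
    _ ≤ a * (32 * s ^ (-(5 + 2 * D'))) * (s ^ (N' / 2)) ^ 3 * 6 * (s ^ D')⁻¹ := by
        gcongr
    _ = 192 * s ^ (3 * N' / 2 - 3 * D' - 11 / 2) := by
        rw [ha, hN3, ← Real.rpow_neg hs.le]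
        have : s ^ (3 * N' / 2 - 3 * D' - 11 / 2) = s ^ (-(1 / 2 : ℝ)) * s ^ (-(5 + 2 * D')) * s ^ (3 * N' / 2) * s ^ (-D') := by
          rw [← Real.rpow_add hs, ← Real.rpow_add hs, ← Real.rpow_add hs]; congr 1; ring
        rw [this]; ring
    _ ≤ 200 * s ^ (3 * N' / 2 - 3 * D' - 6) := by
        have h5 : s ^ (3 * N' / 2 - 3 * D' - 11 / 2) ≤ s ^ (3 * N' / 2 - 3 * D' - 6) :=
          Real.rpow_le_rpow_of_exponent_ge hs hs1 (by linarith)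
        have h6 : 0 < s ^ (3 * N' / 2 - 3 * D' - 6) := Real.rpow_pos_of_pos hs _
        linarith

/-- **L-256-RT-GR-M6** (120 l.)   the error term of the decomposition: `w_l ≥ r⁴ f/32 ≥ s^(2D') e/(32 κ)`, `L ≤ 32 s^-(5+2D')` -/
theorem rt_gr_err (Y : RtMd η) (hY : Y.Ok) (h0 : 0 < η) (h1 : η < 1) {p : Y.M.Par} {E : Xp (Y.M.sys p)} {C D' : ℕ} {r f : ℝ} (hU : RtGrU Y p E C D' r f) (hf : f ≤ 1) (N' : ℕ) :
    2 ^ ((E.n : ℝ) / 2) / (E.e * Real.sqrt E.ka) * ∑ l, Real.sqrt (E.s ^ (N' : ℝ) * E.e) ^ 3 / Real.sqrt (E.w l) ≤ 200 * E.s ^ (3 * (N' : ℝ) / 2 - 3 * D' - 6) := by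
  have hs : 0 < E.s := gn_s_pos E
  have hs1 : E.s ≤ 1 := gn_s_le_one E
  have hsD : 0 < E.s ^ (D' : ℝ) := Real.rpow_pos_of_pos hs _
  have hf0 : 0 < f := lt_of_lt_of_le hsD hU.f_lo
  refine rt_gr_err_aux E.s E.e E.ka _ hs hs1 hU.vl.e_pos hU.vl.ka_pos (D' : ℝ) (N' : ℝ) E.L E.w ?_ (rt_gr_count Y hY h0 h1 hU).2 ?_
  · intro l
    have hw := (rt_gr_w Y hY h0 h1 hU l).1
    have hff : f ≤ f ^ (1 - η) := by
      calc f = f ^ (1 : ℝ) := (Real.rpow_one f).symm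
        _ ≤ f ^ (1 - η) := Real.rpow_le_rpow_of_exponent_ge hf0 hf (by linarith)
    have hr4 : 0 < r ^ 4 := by have := hU.r_pos; positivity
    have hk := hU.vl.ka_pos
    have he := hU.vl.e_pos
    have h2 : E.s ^ (2 * (D' : ℝ)) = E.s ^ (D' : ℝ) * E.s ^ (D' : ℝ) := by
      rw [← Real.rpow_add hs]; congr 1; ring
    rw [h2]
    calc E.s ^ (D' : ℝ) * E.s ^ (D' : ℝ) * E.e / 32 = (E.s ^ (D' : ℝ) * E.e) * E.s ^ (D' : ℝ) / 32 := by ring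
      _ ≤ (E.ka * r ^ 4) * f / 32 := by
          have := hU.r_lo
          have := hU.f_lo
          gcongr
      _ ≤ (E.ka * r ^ 4) * f ^ (1 - η) / 32 := by gcongr
      _ = E.ka * (r ^ 4 * f ^ (1 - η) / 32) := by ring
      _ ≤ E.ka * E.w l := by gcongr
  · unfold Xp.s
    rw [← Real.rpow_natCast, ← Real.rpow_mul (by norm_num), Real.inv_rpow (by norm_num), ← Real.rpow_neg (by norm_num)]
    congr 1; ring

end Claimed.Agent.R256
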