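-- KEEP
import Claimed.Agent.R256.Rt.Grp.Mod

/-!
# Row 256 (LS paper), folder Rt, block GROUP, file Grp/Amb : AMBIGUOUS ROWS HAVE SMALL MASS (07 l.542-600)          (architect helper111; prefix `rt_gr_`)          CONTRACT: the `sorry`s are the leaves `L-256-RT-GR-A*`

EXIT: **`rt_gr_amb`** : `∃ D = D(η)`: with `Ka = s^-D f` the rows with key `(1,0,0)` have root mass `≤ s e`.
Scheme.   `W(c,l,l') = {cell = c} ∩ Pre l ∩ Pre l'`,   `d(l') = dst c l l' / f`  (`dst` = distance of the parents modulo sign, max norm `RtPoly.grNm`).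
 A3 PAIR      `μ₀ W ≤ κ s^-C4 r⁴ f^(1-η) · 2/d`           (`rt_CI_not` in the frame of the cell, `P = s^-2`, `K = d/2`; `rt_gr_mass`)
 A4 PARTNERS  `#{l' : c ∈ cells l', d(l') ≤ K} ≤ s^-C3 K^(1-η)`      (all predecessors of those labels lie in ONE enlarged test of thickness `min 1 (K f)`: `rt_G1`, `rt_gr_mass`, `rt_gr_pred`, heavy labels)
 A5 LAYER     pure: `Σ_{d > K0} a/d ≤ 2/(1-2^-η) a b K0^-η`
 A6 TOTAL     `μ₀(amb) ≤ Σ_l Σ_{c ∈ cells l} Σ_{l' far} μ₀ W ≤ L C5 (..)`, `L κ r⁴ f^(1-η) ≤ 32 s^-5 e`;   `D = (C3 + C4 + 7)/η`.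
-/

set_option autoImplicit false

namespace Claimed.Agent.R256

open MeasureTheory

variable {η : ℝ}

/-- the max norm of a coefficient vector: `n.Bd M ↔ n.grNm ≤ M` -/
noncomputable def RtPoly.grNm (n : RtPoly) : ℝ := max |n.c| (max |n.d| (max (Real.sqrt (rtSq n.al)) (max |n.be| |n.k|)))

/-- the distance of two parents modulo sign -/
noncomputable def RtGrG.dst (G : RtGrG) (c : Fin 5 → ℤ) (l l' : Fin G.L) : ℝ :=
  min (RtPoly.comb 1 (G.par c l') (-1) (G.par c l)).grNm (RtPoly.comb 1 (G.par c l') 1 (G.par c l)).grNm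

/-- the test of the frame `c` with the parent polynomial of `l` and thickness `φ` -/
noncomputable def RtGrG.tc (G : RtGrG) (c : Fin 5 → ℤ) (l : Fin G.L) (φ : ℝ) : RtTest :=
  ⟨G.l0, G.r, φ, (G.frm c).As, (G.frm c).bs, (G.frm c).ys, G.par c l⟩

theorem rt_gr_amb_eqns_cite : True := by
  have := @RtPoly.grNm.eq_1
  have := @RtGrG.dst.eq_1
  have := @RtGrG.tc.eq_1
  trivial

/-- **L-256-RT-GR-A1** (80 l., with the next two) -/
theorem rt_gr_bd_iff (n : RtPoly) (M : ℝ) : n.Bd M ↔ n.grNm ≤ M := by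
  unfold RtPoly.Bd RtPoly.grNm
  simp only [max_le_iff, Real.sqrt_le_iff]
  constructor
  · rintro ⟨h1, h2, h3, h4, h5⟩
    exact ⟨h1, h2, ⟨le_trans (abs_nonneg _) h1, h3⟩, h4, h5⟩
  · rintro ⟨h1, h2, ⟨_, h3⟩, h4, h5⟩
    exact ⟨h1, h2, h3, h4, h5⟩

theorem rt_gr_far_iff (G : RtGrG) (c : Fin 5 → ℤ) (l l' : Fin G.L) : G.Far c l l' ↔ G.Ka < G.dst c l l' := by
  unfold RtGrG.Far RtGrG.dst
  rw [rt_gr_bd_iff, rt_gr_bd_iff, not_le, not_le, lt_min_iff]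

/-- membership in the test of a frame, in normalised coordinates (`rfl` after unfolding: `(tc ..).x q = (nrm c q).b`, ..) -/
theorem rt_gr_tc_set (G : RtGrG) (c : Fin 5 → ℤ) (l : Fin G.L) (φ M : ℝ) (q : RtRow) :
    q ∈ (G.tc c l φ).set M ↔ (rtSq (G.nrm c q).b ≤ M ^ 2 ∧ |(G.nrm c q).y| ≤ M ∧ rtSq (G.nrm c q).A ≤ M ^ 2) ∧
      |(G.par c l).F 0 (G.nrm c q).b (G.nrm c q).y| ≤ M * φ ∧ |(G.par c l).G 0 (G.nrm c q).b (G.nrm c q).y (G.nrm c q).A| ≤ M * φ := by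
  exact Iff.rfl

theorem rt_gr_pi_aux1 {x x' a b c : ℝ} (h1 : |x'| ≤ a) (h2 : |1 * x' + -1 * x| ≤ b) (hbc : b ≤ c) : |x| ≤ a + c := by
  have e1 := abs_le.1 h1
  have e2 := abs_le.1 h2
  rw [abs_le]
  constructor <;> linarith

theorem rt_gr_pi_aux2 {x x' a b c : ℝ} (h1 : |x'| ≤ a) (h2 : |1 * x' + 1 * x| ≤ b) (hbc : b ≤ c) : |x| ≤ a + c := by
  have e1 := abs_le.1 h1
  have e2 := abs_le.1 h2
  rw [abs_le]
  constructor <;> linarith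

/-- **L-256-RT-GR-A2** (200 l.)   PARTNERS, geometry.      `q ∈ Pre l'`, `w = nrm c q`: `|w| ≤ R` (`rt_gr_pre_box`, `c ∈ cells l'`);   `|F_{l'}(w)|, |G_{l'}(w)| ≤ 2 Mp f` (`rt_gr_par_small`);   `n_l = ±(n_{l'} - Δ)`, `Δ.Bd φ`: `|F_l(w)| ≤ 2 Mp f + 6R² φ ≤ (2Mp + 6R²) φ` (`rt_gr_eval`, `rt_gr_comb_F`);
also `|F_l(w)| ≤ 6R² CB (1 + 200·2^n)` (`rt_gr_par_bd`, `rt_gr_par_k_le`, `c ∈ cells l`).   Hence `≤ M min 1 φ`. -/
theorem rt_gr_partner_incl : ∃ CP : ℝ, 1 ≤ CP ∧ ∀ (G : RtGrG), G.Ok → ∀ (c : Fin 5 → ℤ) (l l' : Fin G.L) (φ M : ℝ), c ∈ G.cells l → c ∈ G.cells l' → G.f ≤ φ → G.dst c l l' ≤ φ →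
    CP * (G.Mp + 2 ^ G.n) ≤ M → G.Pre l' ⊆ (G.tc c l (min 1 φ)).set M ∧ (G.tc c l (min 1 φ)).Adm M := by
  obtain ⟨R, hR, Hbox⟩ := rt_gr_pre_box
  obtain ⟨CB, hCB, Hbd⟩ := rt_gr_par_bd
  have hR2 : 1 ≤ R ^ 2 := by nlinarith
  have hRC : 0 ≤ R ^ 2 * CB := mul_nonneg (by linarith) (by linarith)
  refine ⟨1200 * R ^ 2 * CB + 6 * R ^ 2 + 2, by linarith, ?_⟩
  intro G hG c l l' φ M hc hc' hfφ hdst hM
  obtain ⟨q₁, hq₁, hc1⟩ := hc
  obtain ⟨q₂, hq₂, hc2⟩ := hc'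
  have hMp : 1 ≤ G.Mp := hG.Mp_ge
  have h2n : (1 : ℝ) ≤ 2 ^ G.n := one_le_pow₀ (by norm_num)
  have hf0 := hG.f_pos
  have hφ0 : 0 < φ := lt_of_lt_of_le hG.f_pos hfφ
  obtain ⟨X, hX⟩ : ∃ X : ℝ, X = G.Mp + 2 ^ G.n := ⟨_, rfl⟩
  rw [← hX] at hM
  have hX1 : 2 ≤ X := by linarith
  have hM' : 1200 * ((R ^ 2 * CB) * X) + 6 * (R ^ 2 * X) + 2 * X ≤ M := by
    calc 1200 * ((R ^ 2 * CB) * X) + 6 * (R ^ 2 * X) + 2 * X = (1200 * R ^ 2 * CB + 6 * R ^ 2 + 2) * X := by ring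
      _ ≤ M := hM
  have hRCX : 0 ≤ (R ^ 2 * CB) * X := mul_nonneg hRC (by linarith)
  have hRX : R ^ 2 ≤ R ^ 2 * X := le_mul_of_one_le_right (by linarith) (by linarith)
  have hM0 : 0 ≤ M := by linarith
  obtain ⟨B, hBdef⟩ : ∃ B : ℝ, B = CB * (1 + 200 * 2 ^ G.n) := ⟨_, rfl⟩
  have hB0 : 0 ≤ B := by
    rw [hBdef]
    exact mul_nonneg (by linarith) (by linarith)
  have hBX : B ≤ CB * (200 * X) := by
    rw [hBdef]
    exact mul_le_mul_of_nonneg_left (by linarith) (by linarith)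
  have hRB : R ^ 2 * B ≤ 200 * ((R ^ 2 * CB) * X) := by
    calc R ^ 2 * B ≤ R ^ 2 * (CB * (200 * X)) := mul_le_mul_of_nonneg_left hBX (by linarith)
      _ = 200 * ((R ^ 2 * CB) * X) := by ring
  have hpar : (G.par c l).Bd B := by
    have h := Hbd G hG l q₁ hq₁
    rw [hc1] at h
    refine rt_chp_bd_mono (mul_nonneg (by linarith) (by positivity)) ?_ h
    rw [hBdef]
    exact mul_le_mul_of_nonneg_left (by linarith [rt_gr_par_k_le G hG c l]) (by linarith)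
  have hBR : B ≤ R ^ 2 * B := le_mul_of_one_le_left hB0 hR2
  constructor
  · intro q hq
    have hbx := Hbox G hG l' q₂ q hq₂ hq
    rw [hc2] at hbx
    obtain ⟨hA, hb, hy⟩ := hbx
    rw [rt_gr_tc_set]
    have hsm := rt_gr_par_small G hG c l' q hq
    have hev := rt_gr_eval hR hB0 hpar hA hb hy
    have hRR : R ≤ R ^ 2 := by nlinarith
    have hRM : R ≤ M := by linarith
    have hRM2 : R ^ 2 ≤ M ^ 2 := pow_le_pow_left₀ (by linarith) hRM 2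
    have hRφ : 0 ≤ R ^ 2 * φ := mul_nonneg (by linarith) hφ0.le
    have hdiff : |(G.par c l).F 0 (G.nrm c q).b (G.nrm c q).y| ≤ 2 * G.Mp * G.f + 6 * R ^ 2 * φ ∧
        |(G.par c l).G 0 (G.nrm c q).b (G.nrm c q).y (G.nrm c q).A| ≤ 2 * G.Mp * G.f + 6 * R ^ 2 * φ := by
      unfold RtGrG.dst at hdst
      rcases min_le_iff.1 hdst with h | h
      · have hΔ := (rt_gr_bd_iff _ _).2 h
        have e := rt_gr_eval hR hφ0.le hΔ hA hb hy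
        rw [rt_gr_comb_F, rt_gr_comb_G] at e
        exact ⟨rt_gr_pi_aux1 hsm.1 e.1 (by linarith), rt_gr_pi_aux1 hsm.2 e.2 le_rfl⟩
      · have hΔ := (rt_gr_bd_iff _ _).2 h
        have e := rt_gr_eval hR hφ0.le hΔ hA hb hy
        rw [rt_gr_comb_F, rt_gr_comb_G] at e
        exact ⟨rt_gr_pi_aux2 hsm.1 e.1 (by linarith), rt_gr_pi_aux2 hsm.2 e.2 le_rfl⟩
    have hφM : 2 * G.Mp * G.f + 6 * R ^ 2 * φ ≤ M * φ := by
      have h1 : 2 * G.Mp * G.f ≤ 2 * G.Mp * φ := mul_le_mul_of_nonneg_left hfφ (by linarith)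
      have h2 : 2 * G.Mp + 6 * R ^ 2 ≤ M := by linarith
      have h3 : (2 * G.Mp + 6 * R ^ 2) * φ ≤ M * φ := mul_le_mul_of_nonneg_right h2 hφ0.le
      linarith
    have hRB0 : 0 ≤ R ^ 2 * B := mul_nonneg (by linarith) hB0
    have h1M : 6 * R ^ 2 * B ≤ M * 1 := by linarith
    have h1M' : 4 * R ^ 2 * B ≤ M * 1 := by linarith
    rw [mul_min_of_nonneg _ _ hM0]
    exact ⟨⟨hb.trans hRM2, hy.trans hRM, hA.trans hRM2⟩, le_min (hev.1.trans h1M') (hdiff.1.trans hφM),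
      le_min (hev.2.trans h1M) (hdiff.2.trans hφM)⟩
  · refine ⟨rt_gr_l0_pos G, hG.r_pos, lt_min one_pos hφ0, min_le_left _ _, rt_gr_par_disc1 G hG c l, ?_⟩
    exact rt_chp_bd_mono hB0 (by linarith) hpar

/-- the geometric half of PAIR: the covering -/
theorem rt_gr_pair_cov (h0 : 0 < η) (h1 : η < 1) : ∃ Cc : ℝ, 0 < Cc ∧ ∃ CB : ℝ, 1 ≤ CB ∧ ∀ (G : RtGrG), G.Ok → ∀ P : ℝ, 2 ≤ P → 2 * G.Mp ≤ P →
    CB * (1 + 200 * 2 ^ G.n) ≤ 100 * P → ∀ (c : Fin 5 → ℤ) (l l' : Fin G.L), 2 * G.f ≤ G.dst c l l' →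
    RtCover {q | G.cell q = c ∧ q ∈ G.Pre l ∧ q ∈ G.Pre l'} G.l0 (G.r * G.f) η (P ^ Cc * (G.r ^ 4 * G.f ^ (1 - η)) / (G.dst c l l' / G.f / 2)) := by
  obtain ⟨Cc, hCc, HCI⟩ := rt_CI_not η h0 h1
  obtain ⟨CB, hCB, Hbd⟩ := rt_gr_par_bd
  refine ⟨Cc, hCc, CB, hCB, ?_⟩
  intro G hG P hP hMP hCP c l l' hd
  have hf0 := hG.f_pos
  have hr0 := hG.r_pos
  have hd0 : 0 < G.dst c l l' := by linarith
  have hK : 1 ≤ G.dst c l l' / G.f / 2 := by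
    rw [le_div_iff₀ (by norm_num), le_div_iff₀ hf0]
    linarith
  have hKf : G.dst c l l' / G.f / 2 * G.f = G.dst c l l' / 2 := by
    field_simp
  by_cases hne : ({q | G.cell q = c ∧ q ∈ G.Pre l ∧ q ∈ G.Pre l'} : Set RtRow).Nonempty
  · obtain ⟨q0, hq0c, hq0l, hq0l'⟩ := hne
    have hAdm : ∀ l₁ : Fin G.L, q0 ∈ G.Pre l₁ → (G.tc c l₁ G.f).Adm P := by
      intro l₁ h
      refine ⟨rt_gr_l0_pos G, hr0, hf0, hG.f_le, rt_gr_par_disc1 G hG c l₁, ?_⟩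
      have hb := Hbd G hG l₁ q0 h
      rw [hq0c] at hb
      refine rt_chp_bd_mono (mul_nonneg (by linarith) (by positivity)) ?_ hb
      refine le_trans (mul_le_mul_of_nonneg_left ?_ (by linarith)) hCP
      linarith [rt_gr_par_k_le G hG c l₁]
    have hn1 : ¬ (RtPoly.comb 1 (G.tc c l' G.f).n (-1) (G.tc c l G.f).n).Bd (G.dst c l l' / G.f / 2 * (G.tc c l G.f).f) := by
      intro hb
      have h2 := (rt_gr_bd_iff _ _).1 hb
      have h3 : G.dst c l l' ≤ (RtPoly.comb 1 (G.par c l') (-1) (G.par c l)).grNm := min_le_left _ _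
      have h4 : G.dst c l l' ≤ G.dst c l l' / G.f / 2 * G.f := h3.trans h2
      rw [hKf] at h4
      linarith
    have hn2 : ¬ (RtPoly.comb 1 (G.tc c l' G.f).n 1 (G.tc c l G.f).n).Bd (G.dst c l l' / G.f / 2 * (G.tc c l G.f).f) := by
      intro hb
      have h2 := (rt_gr_bd_iff _ _).1 hb
      have h3 : G.dst c l l' ≤ (RtPoly.comb 1 (G.par c l') 1 (G.par c l)).grNm := min_le_right _ _
      have h4 : G.dst c l l' ≤ G.dst c l l' / G.f / 2 * G.f := h3.trans h2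
      rw [hKf] at h4
      linarith
    have hcov := HCI P (G.dst c l l' / G.f / 2) (G.tc c l G.f) (G.tc c l' G.f) hP hK (hAdm l hq0l) (hAdm l' hq0l') rfl rfl rfl rfl rfl rfl hn1 hn2
    refine RtCover.mono hcov ?_ le_rfl le_rfl
    rintro q ⟨hqc, hql, hql'⟩
    obtain ⟨⟨a1, a2⟩, ⟨a3, a4⟩, ⟨b1, b2⟩, ⟨b3, b4⟩, ⟨y1, y2⟩⟩ := rt_gr_cell_unit G hr0 q
    rw [hqc] at a1 a2 a3 a4 b1 b2 b3 b4 y1 y2
    have hP2 : 4 ≤ P ^ 2 := by nlinarith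
    have hA : rtSq (G.nrm c q).A ≤ P ^ 2 := by
      unfold rtSq
      nlinarith
    have hb : rtSq (G.nrm c q).b ≤ P ^ 2 := by
      unfold rtSq
      nlinarith
    have hy : |(G.nrm c q).y| ≤ P := by
      rw [abs_of_nonneg y1]
      linarith
    have hMf : 2 * G.Mp * G.f ≤ P * G.f := mul_le_mul_of_nonneg_right hMP hf0.le
    have s1 := rt_gr_par_small G hG c l q hql
    have s2 := rt_gr_par_small G hG c l' q hql'
    exact ⟨(rt_gr_tc_set G c l G.f P q).2 ⟨⟨hb, hy, hA⟩, s1.1.trans hMf, s1.2.trans hMf⟩,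
      (rt_gr_tc_set G c l' G.f P q).2 ⟨⟨hb, hy, hA⟩, s2.1.trans hMf, s2.2.trans hMf⟩⟩
  · rw [Set.not_nonempty_iff_eq_empty] at hne
    rw [hne]
    refine RtCover.mono (RtCover.empty G.l0 (G.r * G.f) η) le_rfl le_rfl ?_
    have : 0 < P := by linarith
    positivity

/-- **L-256-RT-GR-A3** (250 l.)   PAIR.      `τ = tc c l f`, `τ' = tc c l' f`, `P = s^-2`: `Adm P` (`rt_gr_par_bd`, `rt_gr_par_k_le`, `rt_gr_par_disc1`; `n ≥ n0(CB)`);   `W ⊆ τ.set P ∩ τ'.set P` (`rt_gr_cell_unit`, `rt_gr_par_small`, `2 Mp = 2 s^-1 ≤ P`);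
`K = d/2 ≥ 1`: neither difference nor sum is `Bd (K f)` (`rt_gr_bd_iff`);   `rt_CI_not`: covering of weight `P^C r⁴ f^(1-η)/K`, uncertainty `r f ≥ d_k0` (`rt_gr_unc`, `RtCover.mono`);   `rt_gr_mass` with `Valid.reg`;   measurability `rt_gr_meas_*`.   `C4 = 2 C_CI`.   If `W = ∅`: `gn_ms_empty`. -/
theorem rt_gr_pair (h0 : 0 < η) (h1 : η < 1) (Y : RtMd η) (hY : Y.Ok) : ∃ C4 : ℝ, 0 < C4 ∧ ∃ n0 : ℕ, ∀ (p : Y.M.Par) (E : Xp (Y.M.sys p)) (C D' : ℕ) (r f : ℝ), RtGrU Y p E C D' r f → n0 ≤ E.n → f ≤ E.s →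
    ∀ (D D1 b0 : ℝ), 0 < b0 → ∀ (c : Fin 5 → ℤ) (l l' : Fin E.L), 2 * f ≤ (rtGrStd Y p E r f D D1 b0).dst c l l' →
      rtGrMu E {x | (rtGrStd Y p E r f D D1 b0).cell (Y.co p (rtGrT0 E) x) = c ∧ Y.co p (rtGrT0 E) x ∈ (rtGrStd Y p E r f D D1 b0).Pre l ∧
          Y.co p (rtGrT0 E) x ∈ (rtGrStd Y p E r f D D1 b0).Pre l'}
        ≤ 2 * (E.ka * E.s ^ (-C4) * (r ^ 4 * f ^ (1 - η))) / ((rtGrStd Y p E r f D D1 b0).dst c l l' / f) := by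
  obtain ⟨Cc, hCc, CB, hCB, Hcov⟩ := rt_gr_pair_cov h0 h1
  obtain ⟨n0, hn0⟩ : ∃ n0 : ℕ, 3 * CB ≤ 2 ^ n0 := by
    obtain ⟨n0, h⟩ := pow_unbounded_of_one_lt (3 * CB) (by norm_num : (1 : ℝ) < 2)
    exact ⟨n0, h.le⟩
  refine ⟨2 * Cc, by positivity, max n0 1, ?_⟩
  intro p E C D' r f hU hn hfs D D1 b0 hb0 c l l' hd
  have hs0 := gn_s_pos E
  have hs1 := gn_s_le_one E
  have hOk := rt_gr_std_ok Y hY hU (hfs.trans hs1) D D1 b0 hb0
  obtain ⟨T, hT⟩ : ∃ T : ℝ, T = 2 ^ E.n := ⟨_, rfl⟩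
  have hT1 : E.s ^ (-1 : ℝ) = T := by
    rw [gn_s_rpow, hT, ← Real.rpow_natCast]
    congr 1
    ring
  have hT2 : E.s ^ (-2 : ℝ) = T ^ 2 := by
    rw [← hT1, ← Real.rpow_natCast, ← Real.rpow_mul hs0.le]
    norm_num
  have hTn0 : 3 * CB ≤ T := by
    rw [hT]
    exact hn0.trans (pow_le_pow_right₀ (by norm_num) ((le_max_left _ _).trans hn))
  have hT2' : 2 ≤ T := by
    rw [hT]
    calc (2 : ℝ) = 2 ^ 1 := by norm_num
      _ ≤ 2 ^ E.n := pow_le_pow_right₀ (by norm_num) ((le_max_right _ _).trans hn)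
  have hP : 2 ≤ E.s ^ (-2 : ℝ) := by
    rw [hT2]
    nlinarith
  have hMP : 2 * (rtGrStd Y p E r f D D1 b0).Mp ≤ E.s ^ (-2 : ℝ) := by
    show 2 * E.s ^ (-1 : ℝ) ≤ _
    rw [hT1, hT2]
    nlinarith
  have hCP : CB * (1 + 200 * 2 ^ (rtGrStd Y p E r f D D1 b0).n) ≤ 100 * E.s ^ (-2 : ℝ) := by
    show CB * (1 + 200 * 2 ^ E.n) ≤ _
    rw [← hT, hT2]
    nlinarith
  have hcov := Hcov _ hOk _ hP hMP hCP c l l' hd
  have hunc := rt_gr_unc Y hY hU l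
  have hD0 : 0 ≤ rdD (Y.H p) E.kf := by
    unfold rdD
    exact Real.sqrt_nonneg _
  have hu : rdD (Y.H p) E.k0 ≤ r * f := by
    rw [hunc.2]
    refine le_trans ?_ hunc.1
    exact mul_le_of_le_one_left hD0 (Real.rpow_le_one hs0.le hs1 (by norm_num))
  have hcov' : RtCover {q | (rtGrStd Y p E r f D D1 b0).cell q = c ∧ q ∈ (rtGrStd Y p E r f D D1 b0).Pre l ∧ q ∈ (rtGrStd Y p E r f D D1 b0).Pre l'}
      (rdLen E.k0) (rdD (Y.H p) E.k0) η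
      ((E.s ^ (-2 : ℝ)) ^ Cc * (r ^ 4 * f ^ (1 - η)) / ((rtGrStd Y p E r f D D1 b0).dst c l l' / f / 2)) :=
    RtCover.mono hcov le_rfl hu le_rfl
  have hρ := hY.co_meas p hU.gd (rtGrT0 E)
  have hmeas : MeasurableSet {x | Y.co p (rtGrT0 E) x ∈ ({q | (rtGrStd Y p E r f D D1 b0).cell q = c ∧ q ∈ (rtGrStd Y p E r f D D1 b0).Pre l ∧
      q ∈ (rtGrStd Y p E r f D D1 b0).Pre l'} : Set RtRow)} :=
    (rt_gr_meas_cell _ hρ (rtGrStd Y p E r f D D1 b0) c).inter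
      ((rt_gr_meas_pre _ hρ (rtGrStd Y p E r f D D1 b0) l).inter (rt_gr_meas_pre _ hρ (rtGrStd Y p E r f D D1 b0) l'))
  have hmass := rt_gr_mass Y hY p hU.gd (rtGrT0 E) E.k0 E.b0 E.ka hU.vl.ka_pos.le E.v hU.vl.reg _ _ hmeas hcov'
  refine le_trans hmass (le_of_eq ?_)
  have hpw : (E.s ^ (-2 : ℝ)) ^ Cc = E.s ^ (-(2 * Cc)) := by
    rw [← Real.rpow_mul hs0.le]
    congr 1
    ring
  rw [hpw]
  ring

/-- numerics of `rt_gr_partner` -/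
theorem rt_gr_partner_num {s X k C1 Nc : ℝ} (hs : 0 < s) (ha : 128 ≤ s ^ (-1 : ℝ)) (hX : 0 < X) (hk : 1 ≤ k) (hC1 : 0 < C1)
    (h : Nc * (s ^ (4 : ℝ) * (X / 32)) ≤ s ^ (-1 : ℝ) * (2 * ((s ^ (-3 : ℝ)) ^ C1 * (k * X)) + 2 * X)) :
    Nc ≤ s ^ (-(3 * C1 + 6)) * k := by
  have hs1 : s ≤ 1 := by
    by_contra hcon
    rw [not_le] at hcon
    have : s ^ (-1 : ℝ) ≤ 1 := Real.rpow_le_one_of_one_le_of_nonpos hcon.le (by norm_num)
    linarith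
  have hA : (s ^ (-3 : ℝ)) ^ C1 = s ^ (-(3 * C1)) := by
    rw [← Real.rpow_mul hs.le]; congr 1; ring
  have hA1 : 1 ≤ s ^ (-(3 * C1)) := Real.one_le_rpow_of_pos_of_le_one_of_nonpos hs hs1 (by linarith)
  rw [hA] at h
  have h4 : s ^ (4 : ℝ) * s ^ (-4 : ℝ) = 1 := by
    rw [← Real.rpow_add hs]; norm_num
  have hfin : s ^ (-1 : ℝ) * (s ^ (-1 : ℝ) * (s ^ (-(3 * C1)) * k)) * s ^ (-4 : ℝ) = s ^ (-(3 * C1 + 6)) * k := by
    have : s ^ (-(3 * C1 + 6)) = s ^ (-1 : ℝ) * s ^ (-1 : ℝ) * s ^ (-(3 * C1)) * s ^ (-4 : ℝ) := by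
      rw [← Real.rpow_add hs, ← Real.rpow_add hs, ← Real.rpow_add hs]; congr 1; ring
    rw [this]; ring
  have h40 : 0 < s ^ (-4 : ℝ) := Real.rpow_pos_of_pos hs _
  generalize s ^ (-(3 * C1)) = A at *
  generalize s ^ (-1 : ℝ) = a at *
  generalize s ^ (4 : ℝ) = s4 at *
  generalize s ^ (-4 : ℝ) = t4 at *
  have ha0 : 0 < a := by linarith
  have hAk : 1 ≤ A * k := one_le_mul_of_one_le_of_one_le hA1 hk
  have hX' : X ≤ A * k * X := le_mul_of_one_le_left hX.le hAk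
  have e0 : a * (2 * (A * (k * X)) + 2 * X) ≤ a * (4 * (A * k * X)) :=
    mul_le_mul_of_nonneg_left (by linarith) ha0.le
  have e1 : Nc * s4 ≤ 128 * (a * (A * k)) := by
    have : Nc * s4 * X ≤ 128 * (a * (A * k)) * X := by linarith
    exact le_of_mul_le_mul_right this hX
  have e2 : 128 * (a * (A * k)) ≤ a * (a * (A * k)) :=
    mul_le_mul_of_nonneg_right ha (by positivity)
  calc Nc = Nc * s4 * t4 := by rw [mul_assoc, h4, mul_one]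
    _ ≤ a * (a * (A * k)) * t4 := mul_le_mul_of_nonneg_right (e1.trans e2) h40.le
    _ = _ := hfin

/-- **L-256-RT-GR-A4** (300 l.)   PARTNER COUNT.      `Λs = {l' : c ∈ cells l', dst c l l' ≤ K f}`, `φ = K f`, `M = s^-3`, `U = {x | co x ∈ (tc c l (min 1 φ)).set M}` (measurable: `rt_gr_meas_set` with `t = 0`);
all `2^(n/4)`-predecessors of the cells of `l' ∈ Λs` lie in `U` (`rt_gr_std_pre`, `rt_gr_partner_incl`);   `rt_gr_pred` (`N'` with `s^N' e ≤ κ r⁴ f`: `N' = 2D' + 1`.. so `n0` depends on `C, D'`);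
`μ₀ U ≤ κ M^C r⁴ (min 1 φ)^(1-η)` (`rt_G1`, `rt_gr_mass`; uncertainty `r min(1,φ) ≥ r f ≥ d_k0`);   heavy: `#Λs s⁴ κ r⁴ f^(1-η)/32 ≤ Σ m`.   `C3 = 3 C_G1 + 6`. -/
theorem rt_gr_partner (h0 : 0 < η) (h1 : η < 1) (Y : RtMd η) (hY : Y.Ok) : ∃ C3 : ℝ, 0 < C3 ∧ ∀ C D' : ℕ, ∃ n0 : ℕ, ∀ (p : Y.M.Par) (E : Xp (Y.M.sys p)) (r f : ℝ), RtGrU Y p E C D' r f → n0 ≤ E.n → f ≤ E.s →
    ∀ (D D1 b0 : ℝ), 0 < b0 → ∀ (c : Fin 5 → ℤ) (l : Fin E.L) (K : ℝ) (Λs : Finset (Fin E.L)), c ∈ (rtGrStd Y p E r f D D1 b0).cells l → 1 ≤ K →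
      (∀ l' ∈ Λs, c ∈ (rtGrStd Y p E r f D D1 b0).cells l' ∧ (rtGrStd Y p E r f D D1 b0).dst c l l' ≤ K * f) →
      (Λs.card : ℝ) ≤ E.s ^ (-C3) * K ^ (1 - η) := by
  obtain ⟨C1, hC1, hG1⟩ := rt_G1 η h0 h1
  obtain ⟨CP, hCP, hinc⟩ := rt_gr_partner_incl
  refine ⟨3 * C1 + 6, by positivity, fun C D' => ?_⟩
  obtain ⟨n1, hpred⟩ := rt_gr_pred Y.M 1 Y.L (fun p hp => hY.gen.tight p hp) C (2 * D')
  refine ⟨max (max 56 n1) ⌈CP⌉₊, fun p E r f hU hn hfs D D1 b0 hb0 c l K Λs hc hK hΛ => ?_⟩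
  have hn56 : 56 ≤ E.n := le_trans (le_trans (le_max_left _ _) (le_max_left _ _)) hn
  have hn1 : n1 ≤ E.n := le_trans (le_trans (le_max_right _ _) (le_max_left _ _)) hn
  have hnC : ⌈CP⌉₊ ≤ E.n := le_trans (le_max_right _ _) hn
  have hs0 := gn_s_pos E
  have hs1 := gn_s_le_one E
  have hp := hU.gd
  have hE := hU.vl
  -- the scale
  have ha : E.s ^ (-1 : ℝ) = 2 ^ E.n := by
    rw [gn_s_rpow, ← Real.rpow_natCast]; congr 1; ring
  have ha128 : (128 : ℝ) ≤ E.s ^ (-1 : ℝ) := by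
    rw [ha]
    calc (128 : ℝ) = 2 ^ 7 := by norm_num
      _ ≤ 2 ^ E.n := pow_le_pow_right₀ (by norm_num) (by omega)
  have haC : CP ≤ E.s ^ (-1 : ℝ) := by
    rw [ha]
    calc CP ≤ (⌈CP⌉₊ : ℝ) := Nat.le_ceil _
      _ ≤ (E.n : ℝ) := by exact_mod_cast hnC
      _ ≤ 2 ^ E.n := by exact_mod_cast (Nat.lt_two_pow_self).le
  have hM3 : E.s ^ (-3 : ℝ) = E.s ^ (-1 : ℝ) * E.s ^ (-1 : ℝ) * E.s ^ (-1 : ℝ) := by
    rw [← Real.rpow_add hs0, ← Real.rpow_add hs0]; norm_num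
  have hf0 : 0 < f := lt_of_lt_of_le (Real.rpow_pos_of_pos hs0 _) hU.f_lo
  have hf1 : f ≤ 1 := hfs.trans hs1
  have hk1 : 1 ≤ K ^ (1 - η) := Real.one_le_rpow hK (by linarith)
  have hK0 : 0 < K := by linarith
  rcases Λs.eq_empty_or_nonempty with rfl | ⟨l1, hl1⟩
  · simp only [Finset.card_empty, Nat.cast_zero]
    exact mul_nonneg (Real.rpow_nonneg hs0.le _) (by linarith)
  have hGok := rt_gr_std_ok Y hY hU hf1 D D1 b0 hb0
  have hφ : f ≤ K * f := le_mul_of_one_le_left hf0.le hK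
  have hMle : CP * (E.s ^ (-1 : ℝ) + 2 ^ E.n) ≤ E.s ^ (-3 : ℝ) := by
    rw [hM3, ← ha]
    have h2 : (2 : ℝ) ≤ E.s ^ (-1 : ℝ) := by linarith
    have h3 : 0 < E.s ^ (-1 : ℝ) := by linarith
    have h4 : CP * 2 ≤ E.s ^ (-1 : ℝ) * E.s ^ (-1 : ℝ) := mul_le_mul haC h2 (by norm_num) h3.le
    calc CP * (E.s ^ (-1 : ℝ) + E.s ^ (-1 : ℝ)) = CP * 2 * E.s ^ (-1 : ℝ) := by ring
      _ ≤ E.s ^ (-1 : ℝ) * E.s ^ (-1 : ℝ) * E.s ^ (-1 : ℝ) := mul_le_mul_of_nonneg_right h4 h3.le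
  have hM2 : (2 : ℝ) ≤ E.s ^ (-3 : ℝ) := by
    have : E.s ^ (-1 : ℝ) ≤ E.s ^ (-3 : ℝ) := gn_s_anti E (by norm_num)
    linarith
  have hin : ∀ l' ∈ Λs, (rtGrStd Y p E r f D D1 b0).Pre l' ⊆ ((rtGrStd Y p E r f D D1 b0).tc c l (min 1 (K * f))).set (E.s ^ (-3 : ℝ)) ∧
      ((rtGrStd Y p E r f D D1 b0).tc c l (min 1 (K * f))).Adm (E.s ^ (-3 : ℝ)) := fun l' hl' =>
    hinc _ hGok c l l' (K * f) (E.s ^ (-3 : ℝ)) hc (hΛ l' hl').1 hφ (hΛ l' hl').2 hMle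
  have hAdm := (hin l1 hl1).2
  -- the set of root rows
  have hUm : MeasurableSet {x | Y.co p (rtGrT0 E) x ∈ ((rtGrStd Y p E r f D D1 b0).tc c l (min 1 (K * f))).set (E.s ^ (-3 : ℝ))} := by
    have := rt_gr_meas_set (Y.co p (rtGrT0 E)) (hY.co_meas p hp (rtGrT0 E)) ((rtGrStd Y p E r f D D1 b0).tc c l (min 1 (K * f))) (E.s ^ (-3 : ℝ)) 0
    have e : ∀ q : RtRow, q.flow 0 = q := fun q => by ext <;> simp [RtRow.flow]
    simpa only [e] using this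
  have hsum := hpred p E hp hE hU.gen hU.free hn1 _ Λs hUm (fun l' hl' x hx x' hx' hcn =>
    hx ((hin l' hl').1 (rt_gr_std_pre Y hY hU hfs hn56 D D1 b0 hb0 l' x x' hx' hcn)))
  -- the mass of the enlarged test
  obtain ⟨u1, u2⟩ := rt_gr_unc Y hY hU l
  have hmin0 : 0 < min 1 (K * f) := lt_min one_pos (by positivity)
  have hunc : rdD (Y.H p) E.k0 ≤ r * min 1 (K * f) := by
    have d0 : 0 ≤ rdD (Y.H p) E.kf := Real.sqrt_nonneg _
    have d1 : E.s ^ (1 / 2 : ℝ) ≤ 1 := Real.rpow_le_one hs0.le hs1 (by norm_num)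
    have d2 : rdD (Y.H p) E.k0 ≤ rdD (Y.H p) E.kf := by
      rw [u2]; exact mul_le_of_le_one_left d0 d1
    have d3 : r * f ≤ r * min 1 (K * f) := mul_le_mul_of_nonneg_left (le_min hf1 hφ) hU.r_pos.le
    linarith
  have hw : r ^ 4 * min 1 (K * f) ^ (1 - η) ≤ r ^ 4 * (K ^ (1 - η) * f ^ (1 - η)) := by
    refine mul_le_mul_of_nonneg_left ?_ (by have := hU.r_pos; positivity)
    rw [← Real.mul_rpow hK0.le hf0.le]
    exact Real.rpow_le_rpow hmin0.le (min_le_right _ _) (by linarith)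
  have hcov : RtCover (((rtGrStd Y p E r f D D1 b0).tc c l (min 1 (K * f))).set (E.s ^ (-3 : ℝ))) (rdLen E.k0) (rdD (Y.H p) E.k0) η
      ((E.s ^ (-3 : ℝ)) ^ C1 * (r ^ 4 * (K ^ (1 - η) * f ^ (1 - η)))) :=
    (hG1 (E.s ^ (-3 : ℝ)) _ hM2 hAdm).mono subset_rfl hunc
      (mul_le_mul_of_nonneg_left hw (Real.rpow_nonneg (Real.rpow_nonneg hs0.le _) _))
  have hμ := rt_gr_mass Y hY p hp (rtGrT0 E) E.k0 E.b0 E.ka hE.ka_pos.le E.v hE.reg _ _ hUm hcov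
  -- the error
  have hfη : f ≤ f ^ (1 - η) := by
    calc f = f ^ (1 : ℝ) := (Real.rpow_one f).symm
      _ ≤ f ^ (1 - η) := Real.rpow_le_rpow_of_exponent_ge hf0 hf1 (by linarith)
  have herr : E.s ^ ((2 * D' : ℕ) : ℝ) * E.e ≤ E.ka * (r ^ 4 * f ^ (1 - η)) := by
    have e1 : E.s ^ ((2 * D' : ℕ) : ℝ) = E.s ^ (D' : ℝ) * E.s ^ (D' : ℝ) := by
      rw [← Real.rpow_add hs0]; congr 1; push_cast; ring
    rw [e1]
    calc E.s ^ (D' : ℝ) * E.s ^ (D' : ℝ) * E.e = E.s ^ (D' : ℝ) * (E.s ^ (D' : ℝ) * E.e) := by ring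
      _ ≤ f ^ (1 - η) * (E.ka * r ^ 4) :=
          mul_le_mul (hU.f_lo.trans hfη) hU.r_lo (mul_nonneg (Real.rpow_nonneg hs0.le _) hE.e_pos.le) (Real.rpow_nonneg hf0.le _)
      _ = E.ka * (r ^ 4 * f ^ (1 - η)) := by ring
  -- heavy labels
  have hheavy : (Λs.card : ℝ) * (E.s ^ (4 : ℝ) * (E.ka * (r ^ 4 * f ^ (1 - η)) / 32)) ≤ ∑ l' ∈ Λs, E.m l' := by
    rw [← nsmul_eq_mul, ← Finset.sum_const]
    refine Finset.sum_le_sum fun l' _ => le_trans ?_ (hU.heavy l')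
    refine mul_le_mul_of_nonneg_left ?_ (Real.rpow_nonneg hs0.le _)
    have := mul_le_mul_of_nonneg_left (rt_gr_w Y hY h0 h1 hU l').1 hE.ka_pos.le
    linarith
  have hX : 0 < E.ka * (r ^ 4 * f ^ (1 - η)) := by
    have := hU.r_pos; have := hE.ka_pos; have := Real.rpow_pos_of_pos hf0 (1 - η)
    positivity
  refine rt_gr_partner_num hs0 ha128 hX hk1 hC1 (hheavy.trans (hsum.trans ?_))
  rw [ha]
  refine mul_le_mul_of_nonneg_left ?_ (by positivity)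
  have hμ' : rtGrMu E {x | Y.co p (rtGrT0 E) x ∈ ((rtGrStd Y p E r f D D1 b0).tc c l (min 1 (K * f))).set (E.s ^ (-3 : ℝ))}
      ≤ (E.s ^ (-3 : ℝ)) ^ C1 * (K ^ (1 - η) * (E.ka * (r ^ 4 * f ^ (1 - η)))) := by
    refine le_trans hμ (le_of_eq ?_)
    ring
  linarith

/-- **L-256-RT-GR-A5** (150 l.)   LAYER CAKE (pure).      `S_j = {i : 2^j K0 < d i ≤ 2^(j+1) K0}`:  `Σ_{S_j} a/d ≤ #S_j a/(2^j K0) ≤ a b 2^(1-η) (2^j K0)^-η`;   every `i` lies in some `S_j`, `j < J`;   geometric series -/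
theorem rt_gr_layer (h0 : 0 < η) (h1 : η < 1) {ι : Type} (S : Finset ι) (d u : ι → ℝ) (a b K0 : ℝ) (ha : 0 ≤ a) (hb : 0 ≤ b) (hK0 : 1 ≤ K0) (hd : ∀ i ∈ S, K0 < d i)
    (hu : ∀ i ∈ S, u i ≤ a / d i) (hc : ∀ K, K0 ≤ K → ((S.filter fun i => d i ≤ K).card : ℝ) ≤ b * K ^ (1 - η)) :
    ∑ i ∈ S, u i ≤ 2 / (1 - 2 ^ (-η)) * (a * b) * K0 ^ (-η) := by
  classical
  have hK0' : 0 < K0 := by linarith
  have hex : ∀ i, ∃ j : ℕ, d i ≤ 2 ^ (j+1) * K0 := by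
    intro i
    obtain ⟨j, hj⟩ := pow_unbounded_of_one_lt (d i / K0) (by norm_num : (1:ℝ) < 2)
    refine ⟨j, ?_⟩
    have h2 : d i < 2^j * K0 := by rwa [div_lt_iff₀ hK0'] at hj
    have h3 : (2:ℝ)^(j+1) = 2 * 2^j := by ring
    have h4 : 0 < (2:ℝ)^j * K0 := by positivity
    rw [h3]; linarith
  let jf : ι → ℕ := fun i => Nat.find (hex i)
  have hj1 : ∀ i, d i ≤ 2 ^ (jf i + 1) * K0 := fun i => Nat.find_spec (hex i)
  have hj2 : ∀ i ∈ S, 2 ^ (jf i) * K0 < d i := by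
    intro i hi
    rcases Nat.eq_zero_or_pos (jf i) with h | h
    · rw [h]; simpa using hd i hi
    · have h5 := Nat.find_min (hex i) (m := jf i - 1) (by change jf i - 1 < jf i; omega)
      rw [not_le] at h5
      have e : jf i - 1 + 1 = jf i := by omega
      rwa [e] at h5
  set q : ℝ := 2 ^ (-η) with hq
  have hq0 : 0 < q := by positivity
  have hq1 : q < 1 := Real.rpow_lt_one_of_one_lt_of_neg (by norm_num) (by linarith)
  have hKe : 0 < K0 ^ (-η) := by positivity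
  have key : ∀ j : ℕ, ∑ i ∈ S.filter (fun i => jf i = j), u i ≤ 2 * (a * b) * K0 ^ (-η) * q ^ j := by
    intro j
    have hX : 0 < (2:ℝ) ^ j * K0 := by positivity
    have s1 : ∑ i ∈ S.filter (fun i => jf i = j), u i ≤ ∑ _i ∈ S.filter (fun i => jf i = j), a / (2 ^ j * K0) := by
      refine Finset.sum_le_sum fun i hi => ?_
      rw [Finset.mem_filter] at hi
      refine (hu i hi.1).trans ?_
      have := hj2 i hi.1
      rw [hi.2] at this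
      exact div_le_div_of_nonneg_left ha hX this.le
    rw [Finset.sum_const, nsmul_eq_mul] at s1
    have s2 : ((S.filter (fun i => jf i = j)).card : ℝ) ≤ b * (2 ^ (j+1) * K0) ^ (1 - η) := by
      refine le_trans ?_ (hc (2 ^ (j+1) * K0) ?_)
      · refine Nat.cast_le.2 (Finset.card_le_card ?_)
        intro i hi
        rw [Finset.mem_filter] at hi ⊢
        refine ⟨hi.1, ?_⟩
        have := hj1 i
        rwa [hi.2] at this
      · have : (1:ℝ) ≤ 2 ^ (j+1) := one_le_pow₀ (by norm_num)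
        nlinarith
    have s3 : ((2:ℝ) ^ (j+1) * K0) ^ (1 - η) = (2 ^ (j+1) * K0) * (q ^ (j+1) * K0 ^ (-η)) := by
      have hY : 0 < (2:ℝ) ^ (j+1) * K0 := by positivity
      rw [sub_eq_add_neg, Real.rpow_add hY, Real.rpow_one, Real.mul_rpow (by positivity) hK0'.le]
      congr 2
      rw [hq, ← Real.rpow_natCast, ← Real.rpow_natCast, ← Real.rpow_mul (by norm_num), ← Real.rpow_mul (by norm_num), mul_comm]
    have s4 : 0 ≤ a / (2 ^ j * K0) := by positivity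
    calc ∑ i ∈ S.filter (fun i => jf i = j), u i ≤ ((S.filter (fun i => jf i = j)).card : ℝ) * (a / (2 ^ j * K0)) := s1
      _ ≤ (b * (2 ^ (j+1) * K0) ^ (1 - η)) * (a / (2 ^ j * K0)) := mul_le_mul_of_nonneg_right s2 s4
      _ = 2 * (a * b) * K0 ^ (-η) * q ^ j * q := by
          rw [s3]; field_simp; ring
      _ ≤ 2 * (a * b) * K0 ^ (-η) * q ^ j * 1 := by
          refine mul_le_mul_of_nonneg_left hq1.le (by positivity)
      _ = _ := by ring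
  have t1 : ∑ i ∈ S, u i = ∑ j ∈ S.image jf, ∑ i ∈ S.filter (fun i => jf i = j), u i :=
    (Finset.sum_fiberwise_of_maps_to (fun i hi => Finset.mem_image_of_mem jf hi) u).symm
  have t2 : ∑ j ∈ S.image jf, q ^ j ≤ (1 - q)⁻¹ := by
    rw [← tsum_geometric_of_lt_one hq0.le hq1]
    exact (summable_geometric_of_lt_one hq0.le hq1).sum_le_tsum _ (fun i _ => by positivity)
  calc ∑ i ∈ S, u i = ∑ j ∈ S.image jf, ∑ i ∈ S.filter (fun i => jf i = j), u i := t1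
    _ ≤ ∑ j ∈ S.image jf, 2 * (a * b) * K0 ^ (-η) * q ^ j := Finset.sum_le_sum fun j _ => key j
    _ = 2 * (a * b) * K0 ^ (-η) * ∑ j ∈ S.image jf, q ^ j := by rw [Finset.mul_sum]
    _ ≤ 2 * (a * b) * K0 ^ (-η) * (1 - q)⁻¹ := mul_le_mul_of_nonneg_left t2 (by positivity)
    _ = _ := by rw [div_eq_mul_inv]; ring

/-- abstract form of the total bound -/
theorem rt_gr_amb_abs (h0 : 0 < η) (h1 : η < 1) {X : Type} [MeasurableSpace X] (μ : Measure X) [IsFiniteMeasure μ] (ρ : X → RtRow)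
    (G : RtGrG) (C5 : ℕ) (hcells : ∀ l, (G.cells l).Finite ∧ (G.cells l).ncard ≤ C5) (a b K0 : ℝ) (ha : 0 ≤ a) (hb : 0 ≤ b)
    (hK0 : 2 ≤ K0) (hf : 0 < G.f) (hKa : G.Ka = K0 * G.f)
    (hpair : ∀ c l l', 2 * G.f ≤ G.dst c l l' →
      μ.real {x | G.cell (ρ x) = c ∧ ρ x ∈ G.Pre l ∧ ρ x ∈ G.Pre l'} ≤ a / (G.dst c l l' / G.f))
    (hpart : ∀ (c : Fin 5 → ℤ) (l : Fin G.L) (K : ℝ) (Λs : Finset (Fin G.L)), c ∈ G.cells l → 1 ≤ K →
      (∀ l' ∈ Λs, c ∈ G.cells l' ∧ G.dst c l l' ≤ K * G.f) → (Λs.card : ℝ) ≤ b * K ^ (1 - η)) :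
    μ.real {x | G.key (ρ x) = (1, 0, 0)} ≤ (G.L : ℝ) * ((C5 : ℝ) * (2 / (1 - 2 ^ (-η)) * (a * b) * K0 ^ (-η))) := by
  classical
  set B : ℝ := 2 / (1 - 2 ^ (-η)) * (a * b) * K0 ^ (-η) with hB
  let W : (Fin 5 → ℤ) → Fin G.L → Fin G.L → Set X := fun c l l' => {x | G.cell (ρ x) = c ∧ ρ x ∈ G.Pre l ∧ ρ x ∈ G.Pre l'}
  let Sf : Fin G.L → (Fin 5 → ℤ) → Finset (Fin G.L) := fun l c => Finset.univ.filter fun l' => c ∈ G.cells l' ∧ G.Far c l l'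
  have hsub : {x | G.key (ρ x) = (1, 0, 0)} ⊆ ⋃ l ∈ (Finset.univ : Finset (Fin G.L)), ⋃ c ∈ (hcells l).1.toFinset, ⋃ l' ∈ Sf l c, W c l l' := by
    intro x hx
    obtain ⟨l, l', hl, hl', hfar⟩ := rt_gr_key_amb G (ρ x) hx
    simp only [Set.mem_iUnion]
    refine ⟨l, Finset.mem_univ _, G.cell (ρ x), ?_, l', ?_, rfl, hl, hl'⟩
    · rw [Set.Finite.mem_toFinset]
      exact ⟨ρ x, hl, rfl⟩
    · simp only [Sf, Finset.mem_filter, Finset.mem_univ, true_and]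
      exact ⟨⟨ρ x, hl', rfl⟩, hfar⟩
  have hone : ∀ (l : Fin G.L) (c : Fin 5 → ℤ), c ∈ G.cells l → ∑ l' ∈ Sf l c, μ.real (W c l l') ≤ B := by
    intro l c hc
    refine rt_gr_layer h0 h1 (Sf l c) (fun l' => G.dst c l l' / G.f) (fun l' => μ.real (W c l l')) a b K0 ha hb (by linarith) ?_ ?_ ?_
    · intro l' hl'
      simp only [Sf, Finset.mem_filter, Finset.mem_univ, true_and] at hl'
      have := (rt_gr_far_iff G c l l').1 hl'.2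
      rw [hKa] at this
      rw [lt_div_iff₀ hf]
      exact this
    · intro l' hl'
      simp only [Sf, Finset.mem_filter, Finset.mem_univ, true_and] at hl'
      have := (rt_gr_far_iff G c l l').1 hl'.2
      rw [hKa] at this
      refine hpair c l l' ?_
      nlinarith
    · intro K hK
      refine hpart c l K _ hc (by linarith) ?_
      intro l' hl'
      simp only [Sf, Finset.mem_filter, Finset.mem_univ, true_and] at hl'
      refine ⟨hl'.1.1, ?_⟩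
      exact (div_le_iff₀ hf).1 hl'.2
  have hB0 : 0 ≤ B := by
    have : (2 : ℝ) ^ (-η) < 1 := Real.rpow_lt_one_of_one_lt_of_neg (by norm_num) (by linarith)
    have h2 : 0 < 1 - (2 : ℝ) ^ (-η) := by linarith
    have h3 : 0 ≤ K0 ^ (-η) := Real.rpow_nonneg (by linarith) _
    rw [hB]
    positivity
  calc μ.real {x | G.key (ρ x) = (1, 0, 0)}
      ≤ μ.real (⋃ l ∈ (Finset.univ : Finset (Fin G.L)), ⋃ c ∈ (hcells l).1.toFinset, ⋃ l' ∈ Sf l c, W c l l') := measureReal_mono hsub (measure_ne_top _ _)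
    _ ≤ ∑ l : Fin G.L, μ.real (⋃ c ∈ (hcells l).1.toFinset, ⋃ l' ∈ Sf l c, W c l l') := measureReal_biUnion_finset_le _ _
    _ ≤ ∑ l : Fin G.L, ∑ c ∈ (hcells l).1.toFinset, μ.real (⋃ l' ∈ Sf l c, W c l l') :=
        Finset.sum_le_sum fun l _ => measureReal_biUnion_finset_le _ _
    _ ≤ ∑ l : Fin G.L, ∑ c ∈ (hcells l).1.toFinset, ∑ l' ∈ Sf l c, μ.real (W c l l') :=
        Finset.sum_le_sum fun l _ => Finset.sum_le_sum fun c _ => measureReal_biUnion_finset_le _ _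
    _ ≤ ∑ l : Fin G.L, ∑ c ∈ (hcells l).1.toFinset, B :=
        Finset.sum_le_sum fun l _ => Finset.sum_le_sum fun c hc => hone l c ((Set.Finite.mem_toFinset _).1 hc)
    _ ≤ ∑ l : Fin G.L, (C5 : ℝ) * B := by
        refine Finset.sum_le_sum fun l _ => ?_
        rw [Finset.sum_const, nsmul_eq_mul]
        refine mul_le_mul_of_nonneg_right ?_ hB0
        have := (hcells l).2
        rw [Set.ncard_eq_toFinset_card _ (hcells l).1] at this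
        exact_mod_cast this
    _ = (G.L : ℝ) * ((C5 : ℝ) * B) := by
        rw [Finset.sum_const, nsmul_eq_mul, Finset.card_univ, Fintype.card_fin]


/-- **L-256-RT-GR-A6** (350 l.)   TOTAL.   See the header.   `amb ⊆ ⋃_l ⋃_{c ∈ cells l} ⋃_{l' : Far c l l'} W(c,l,l')` (`rt_gr_key_amb`), finite subadditivity (`gn_ms_eq_mu`, `measure_biUnion_finset_le`; `rt_gr_cells_card`);
for fixed `(l, c)`: `rt_gr_layer` on `S = {l' : c ∈ cells l', Far c l l'}` (for the other `l'`: `W = ∅`), `d = dst/f`, `K0 = s^-D ≥ 2`, `a = 2 κ s^-C4 r⁴ f^(1-η)`, `b = s^-C3`;   `rt_gr_count`. -/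
theorem rt_gr_amb (h0 : 0 < η) (h1 : η < 1) (Y : RtMd η) (hY : Y.Ok) : ∃ D : ℝ, 0 < D ∧ ∀ C D' : ℕ, ∃ n0 : ℕ, ∀ (p : Y.M.Par) (E : Xp (Y.M.sys p)) (r f : ℝ), RtGrU Y p E C D' r f → n0 ≤ E.n → f ≤ E.s →
    ∀ (D1 b0 : ℝ), 0 < b0 → rtGrMu E {x | (rtGrStd Y p E r f D D1 b0).key (Y.co p (rtGrT0 E) x) = (1, 0, 0)} ≤ E.s * E.e := by
  obtain ⟨C4, hC4, n1, hpair⟩ := rt_gr_pair h0 h1 Y hY
  obtain ⟨C3, hC3, hpart⟩ := rt_gr_partner h0 h1 Y hY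
  obtain ⟨C5, hcells⟩ := rt_gr_cells_card
  have hq : (2 : ℝ) ^ (-η) < 1 := Real.rpow_lt_one_of_one_lt_of_neg (by norm_num) (by linarith)
  have hq' : 0 < 1 - (2 : ℝ) ^ (-η) := by linarith
  set D : ℝ := (C3 + C4 + 7) / η with hD
  have hDpos : 0 < D := by rw [hD]; positivity
  refine ⟨D, hDpos, fun C D' => ?_⟩
  obtain ⟨n2, hpart⟩ := hpart C D'
  -- the constant
  set A : ℝ := 128 * (C5 : ℝ) / (1 - 2 ^ (-η)) with hA
  have hA0 : 0 ≤ A := by rw [hA]; positivity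
  obtain ⟨n3, hn3⟩ := exists_nat_ge (1 / D)
  obtain ⟨n4, hn4⟩ := exists_nat_ge A
  refine ⟨max (max n1 n2) (max n3 n4), fun p E r f hU hn hfs D1 b0 hb0 => ?_⟩
  have hn1 : n1 ≤ E.n := le_trans (le_trans (le_max_left _ _) (le_max_left _ _)) hn
  have hn2 : n2 ≤ E.n := le_trans (le_trans (le_max_right _ _) (le_max_left _ _)) hn
  have hn3' : n3 ≤ E.n := le_trans (le_trans (le_max_left _ _) (le_max_right _ _)) hn
  have hn4' : n4 ≤ E.n := le_trans (le_trans (le_max_right _ _) (le_max_right _ _)) hn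
  have hs := gn_s_pos E
  have hs1 := gn_s_le_one E
  have he := hU.vl.e_pos
  have hk := hU.vl.ka_pos
  have hr := hU.r_pos
  have hf : 0 < f := lt_of_lt_of_le (Real.rpow_pos_of_pos hs _) hU.f_lo
  have hf1 : f ≤ 1 := hfs.trans hs1
  have hOk := rt_gr_std_ok Y hY hU hf1 D D1 b0 hb0
  have hρ := hY.co_meas p hU.gd (rtGrT0 E)
  have hfin := gn_mu_finite (P := Y.M.sys p) (tmL E.k0 E.i0) E.k0 E.b0 E.v
  -- `K0 = s^-D ≥ 2`
  have hK0 : (2 : ℝ) ≤ E.s ^ (-D) := by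
    rw [gn_s_rpow]
    have : (1 : ℝ) ≤ -(-D * E.n) := by
      have h5 : (1 / D : ℝ) ≤ E.n := hn3.trans (by exact_mod_cast hn3')
      rw [div_le_iff₀ hDpos] at h5
      linarith
    calc (2 : ℝ) = 2 ^ (1 : ℝ) := (Real.rpow_one 2).symm
      _ ≤ 2 ^ (-(-D * E.n)) := Real.rpow_le_rpow_of_exponent_le (by norm_num) this
  set W : ℝ := r ^ 4 * f ^ (1 - η) with hW
  have hWp : 0 < W := by positivity
  have key := rt_gr_amb_abs h0 h1 ((Y.M.sys p).mu (tmL E.k0 E.i0) E.k0 E.b0 E.v) (fun x => Y.co p (rtGrT0 E) x)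
    (rtGrStd Y p E r f D D1 b0) C5 (hcells _ hOk) (2 * (E.ka * E.s ^ (-C4) * W)) (E.s ^ (-C3)) (E.s ^ (-D)) (by positivity) (by positivity)
    hK0 hf rfl ?_ ?_
  · have hm : MeasurableSet {x | (rtGrStd Y p E r f D D1 b0).key (Y.co p (rtGrT0 E) x) = (1, 0, 0)} :=
      rt_gr_meas_key (fun x => Y.co p (rtGrT0 E) x) hρ _ _
    unfold rtGrMu
    rw [gn_ms_eq_mu _ _ _ hm]
    refine key.trans ?_
    have hcnt := (rt_gr_count Y hY h0 h1 hU).1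
    have hLeq : ((rtGrStd Y p E r f D D1 b0).L : ℝ) = (E.L : ℝ) := rfl
    rw [hLeq]
    -- numerics
    have e1 : E.s ^ (-C4) * E.s ^ (-C3) * (E.s ^ (-D)) ^ (-η) * E.s ^ (-5 : ℝ) = E.s ^ (2 : ℝ) := by
      rw [← Real.rpow_mul hs.le, ← Real.rpow_add hs, ← Real.rpow_add hs, ← Real.rpow_add hs]
      congr 1
      rw [hD]
      field_simp
      ring
    have e2 : E.s ^ (2 : ℝ) = E.s * E.s := by
      rw [show (2 : ℝ) = ((2 : ℕ) : ℝ) by norm_num, Real.rpow_natCast]; ring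
    have hAs : A * E.s ≤ 1 := by
      have h2n : (E.n : ℝ) ≤ 2 ^ E.n := by exact_mod_cast (Nat.lt_two_pow_self).le
      have hA2 : A ≤ 2 ^ E.n := hn4.trans ((by exact_mod_cast hn4' : (n4 : ℝ) ≤ E.n).trans h2n)
      have hs2 : E.s * 2 ^ E.n = 1 := by
        have := gn_s_rpow E 1
        rw [Real.rpow_one] at this
        rw [this, ← Real.rpow_natCast, ← Real.rpow_add (by norm_num)]
        simp
      calc A * E.s ≤ 2 ^ E.n * E.s := mul_le_mul_of_nonneg_right hA2 hs.le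
        _ = 1 := by rw [mul_comm]; exact hs2
    calc (E.L : ℝ) * ((C5 : ℝ) * (2 / (1 - 2 ^ (-η)) * (2 * (E.ka * E.s ^ (-C4) * W) * E.s ^ (-C3)) * (E.s ^ (-D)) ^ (-η)))
        = ((E.L : ℝ) * (E.ka * W)) * ((C5 : ℝ) * (4 / (1 - 2 ^ (-η))) * (E.s ^ (-C4) * E.s ^ (-C3) * (E.s ^ (-D)) ^ (-η))) := by ring
      _ ≤ (32 * E.s ^ (-5 : ℝ) * E.e) * ((C5 : ℝ) * (4 / (1 - 2 ^ (-η))) * (E.s ^ (-C4) * E.s ^ (-C3) * (E.s ^ (-D)) ^ (-η))) :=
          mul_le_mul_of_nonneg_right hcnt (by positivity)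
      _ = A * (E.s ^ (-C4) * E.s ^ (-C3) * (E.s ^ (-D)) ^ (-η) * E.s ^ (-5 : ℝ)) * E.e := by rw [hA]; ring
      _ = (A * E.s) * (E.s * E.e) := by rw [e1, e2]; ring
      _ ≤ 1 * (E.s * E.e) := mul_le_mul_of_nonneg_right hAs (by positivity)
      _ = E.s * E.e := one_mul _
  · intro c l l' hd
    have hm : MeasurableSet {x | (rtGrStd Y p E r f D D1 b0).cell (Y.co p (rtGrT0 E) x) = c ∧ Y.co p (rtGrT0 E) x ∈ (rtGrStd Y p E r f D D1 b0).Pre l ∧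
          Y.co p (rtGrT0 E) x ∈ (rtGrStd Y p E r f D D1 b0).Pre l'} :=
      (rt_gr_meas_cell (fun x => Y.co p (rtGrT0 E) x) hρ _ c).inter
        ((rt_gr_meas_pre (fun x => Y.co p (rtGrT0 E) x) hρ _ l).inter (rt_gr_meas_pre (fun x => Y.co p (rtGrT0 E) x) hρ _ l'))
    have := hpair p E C D' r f hU hn1 hfs D D1 b0 hb0 c l l' hd
    unfold rtGrMu at this
    rw [gn_ms_eq_mu _ _ _ hm] at this
    exact this
  · intro c l K Λs hc hK hΛ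
    exact hpart p E r f hU hn2 hfs D D1 b0 hb0 c l K Λs hc hK hΛ

end Claimed.Agent.R256
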