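-- KEEP
import Claimed.Agent.R256.Rt.Grp.Mod

/-!
# Row 256 (LS paper), folder Rt, block GROUP, file Grp/Pat : BIG K, PATCH DATA          (architect helper111; prefix `rt_gr_`)          CONTRACT: the `sorry`s are the leaves `L-256-RT-GR-B*`, `L-256-RT-GR-P*`

Standard parameters (`rtGrStd`):  `P = s^-b0`,  `f_* = s^-D1 f`,  `h = f_*/100`,  `Mp = s^-1`,  `Ka = s^-D f`,  `kb = s^-b`, `b = min b0 1/2`,  `ρ = rtChRho P = s^(2 b0)/1000`,  `hg = ρ/100`,  `D + 7 ≤ D1`,  `f ≤ s^(D1 + 2 b0 + 20)`.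
* `rt_gr_big`      a piece of tag `2`: its labels live under `≤ 3` intervals of depth `k0 + j1`, `j1 = ⌊b n⌋ - 9`: it loses `2^(-Γ b n)`.
* `rt_gr_patch`    a nonempty piece of tag `3` (group `(c, Lx)`, fine cell `g`) carries patch data `d = ⟨frm c, rep c Lx, p₀, f⟩`, `d.Ok`.
-/

set_option autoImplicit false

namespace Claimed.Agent.R256

open MeasureTheory

variable {η : ℝ}

/-- the first key on the root rows -/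
noncomputable abbrev rtGrKey1 (Y : RtMd η) (p : Y.M.Par) (E : Xp (Y.M.sys p)) (G : RtGrG) : (Y.M.sys p).X → RtGrK := fun x => G.key (Y.co p (rtGrT0 E) x)

/-- the second key on the root rows -/
noncomputable abbrev rtGrKey2 (Y : RtMd η) (p : Y.M.Par) (E : Xp (Y.M.sys p)) (G : RtGrG) : (Y.M.sys p).X → Fin 5 → ℤ := fun x => G.fine (Y.co p (rtGrT0 E) x)

/-! ## 1. big `k` -/

/-- `min 1 (404 / 2^x) ≤ 2^-(⌊x⌋ - 9)` -/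
theorem rt_gr_big_num {x : ℝ} (hx : 0 ≤ x) : min 1 (404 / (2 : ℝ) ^ x) ≤ (2 : ℝ)⁻¹ ^ (⌊x⌋₊ - 9) := by
  rcases le_or_gt ⌊x⌋₊ 9 with h | h
  · rw [Nat.sub_eq_zero_of_le h, pow_zero]
    exact min_le_left _ _
  · refine (min_le_right _ _).trans ?_
    obtain ⟨j, hj⟩ : ∃ j, ⌊x⌋₊ = j + 9 := ⟨⌊x⌋₊ - 9, by omega⟩
    rw [hj, Nat.add_sub_cancel]
    have h1 : (2 : ℝ) ^ (j + 9) ≤ (2 : ℝ) ^ x := by
      rw [← Real.rpow_natCast, ← hj]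
      exact gn_two_mono (Nat.floor_le hx)
    have h2 : (0 : ℝ) < 2 ^ (j + 9) := by positivity
    rw [div_le_iff₀ (gn_two_pos x), inv_pow]
    have h3 : (0 : ℝ) < 2 ^ j := by positivity
    calc (404 : ℝ) ≤ (2 ^ j)⁻¹ * 2 ^ (j + 9) := by
          rw [pow_add]
          field_simp
          norm_num
      _ ≤ _ := mul_le_mul_of_nonneg_left h1 (by positivity)

/-- **L-256-RT-GR-B1** (250 l.)   `G = rtGrStd ..`.   `Ka + 2h ≤ 2 s^-D1 f ≤ 1`;   `rt_gr_big_time`: the labels of `G.Sl (2,c,Lx)` are read within `ℓ₀ 404/kb ≤ ℓ₀ 2^-j1`, `j1 = ⌊b n⌋₊ - 9` (`kb = 2^(b n)`, `404 ≤ 2^9`), `2 j1 ≤ n` (`b ≤ 1/2`);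
`rt_gr_three` for the labels of the piece (`iv = E.iv ∘ E.sel _`, `kf` unchanged: `gn_tl_kf`; `G.t l - G.t l' = tmL kf (iv l) - tmL kf (iv l')`; `rt_gr_mem_Sl`, `gn_sel_mem`);   `rt_gr_few` at `ε/2` for the piece (free, `n` unchanged);
`(Γ + ε/2)(n - j1) + (ε/2) n ≤ (Γ(1-b) + ε) n + 10 (Γ + ε)`. -/
theorem rt_gr_big (Y : RtMd η) (hY : Y.Ok) (Γ : ℝ) (hΓ0 : 0 < Γ) (hΓ : Y.M.Rate Γ) (C'' : ℕ) (ε : ℝ) (hε : 0 < ε) :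
    ∃ (Cq : ℝ) (A n0 : ℕ), 0 < Cq ∧ ∀ (p : Y.M.Par) (E : Xp (Y.M.sys p)) (C D' : ℕ) (r f : ℝ), RtGrU Y p E C D' r f → n0 ≤ E.n → ∀ (D D1 b0 : ℝ), 0 < D → D + 7 ≤ D1 → 0 < b0 →
      f ≤ E.s ^ (D1 + 1) → ∀ (c : Fin 5 → ℤ) (Lx : Fin 6 → ℤ) (Ct : ℕ) (κ' : ℝ) (S : Set (Y.M.sys p).X),
      Y.M.Cls C'' A p (rtGrPc E Ct κ' S ((rtGrStd Y p E r f D D1 b0).Sl (2, c, Lx))) →
      (rtGrPc E Ct κ' S ((rtGrStd Y p E r f D D1 b0).Sl (2, c, Lx))).val ≤ Cq * 2 ^ ((Γ * (1 - min b0 1 / 2) + ε) * E.n) := by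
  obtain ⟨Cq0, A, n0, hCq0, HF⟩ := rt_gr_few Y.M Y.L hY.gen Γ hΓ C'' (ε / 2) (by positivity)
  refine ⟨3 * Cq0 * 2 ^ (10 * (Γ + ε)), A, max n0 1, mul_pos (by positivity) (gn_two_pos _), ?_⟩
  intro p E C D' r f hU hn D D1 b0 hD hD1 hb0 hf c Lx Ct κ' S hcls
  have hn0 : n0 ≤ E.n := (le_max_left _ _).trans hn
  have hn1 : 1 ≤ E.n := (le_max_right _ _).trans hn
  have hs0 := gn_s_pos E
  have hs1 := gn_s_le_one E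
  have hs12 : E.s ≤ 1 / 2 := by
    unfold Xp.s
    calc ((2 : ℝ)⁻¹) ^ E.n ≤ ((2 : ℝ)⁻¹) ^ 1 := pow_le_pow_of_le_one (by norm_num) (by norm_num) hn1
      _ = 1 / 2 := by norm_num
  have hanti : ∀ {x y : ℝ}, x ≤ y → E.s ^ y ≤ E.s ^ x := fun h => Real.rpow_le_rpow_of_exponent_ge hs0 hs1 h
  have hf1 : f ≤ 1 := hf.trans (Real.rpow_le_one hs0.le hs1 (by linarith))
  have hGok := rt_gr_std_ok Y hY hU hf1 D D1 b0 hb0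
  have hKa : (rtGrStd Y p E r f D D1 b0).Ka + 2 * (rtGrStd Y p E r f D D1 b0).h ≤ 1 := by
    show E.s ^ (-D) * f + 2 * (E.s ^ (-D1) * f / 100) ≤ 1
    have h1 : E.s ^ (-D) * f ≤ E.s := by
      calc E.s ^ (-D) * f ≤ E.s ^ (-D) * E.s ^ (D1 + 1) := mul_le_mul_of_nonneg_left hf (Real.rpow_pos_of_pos hs0 _).le
        _ = E.s ^ (-D + (D1 + 1)) := (Real.rpow_add hs0 _ _).symm
        _ ≤ E.s ^ (1 : ℝ) := hanti (by linarith)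
        _ = E.s := Real.rpow_one _
    have h2 : E.s ^ (-D1) * f ≤ E.s := by
      calc E.s ^ (-D1) * f ≤ E.s ^ (-D1) * E.s ^ (D1 + 1) := mul_le_mul_of_nonneg_left hf (Real.rpow_pos_of_pos hs0 _).le
        _ = E.s ^ (-D1 + (D1 + 1)) := (Real.rpow_add hs0 _ _).symm
        _ = E.s := by rw [neg_add_cancel_left, Real.rpow_one]
    linarith
  -- the exponent `b`
  obtain ⟨b, hb⟩ : ∃ b : ℝ, b = min b0 1 / 2 := ⟨_, rfl⟩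
  have hb0' : 0 < b := by rw [hb]; have := lt_min hb0 one_pos; linarith
  have hb12 : b ≤ 1 / 2 := by rw [hb]; have := min_le_right b0 1; linarith
  have hnR : (0 : ℝ) ≤ E.n := Nat.cast_nonneg _
  have hbn : 0 ≤ b * E.n := by positivity
  have hkb : (rtGrStd Y p E r f D D1 b0).kb = 2 ^ (b * E.n) := by
    show E.s ^ (-(min b0 1 / 2)) = _
    rw [← hb, gn_s_rpow]
    congr 1
    ring
  obtain ⟨j1, hj1⟩ : ∃ j1 : ℕ, j1 = ⌊b * E.n⌋₊ - 9 := ⟨_, rfl⟩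
  have hfl : (⌊b * E.n⌋₊ : ℝ) ≤ b * E.n := Nat.floor_le hbn
  have hj1le : (j1 : ℝ) ≤ b * E.n := by
    have : j1 ≤ ⌊b * E.n⌋₊ := by omega
    have : (j1 : ℝ) ≤ (⌊b * E.n⌋₊ : ℝ) := by exact_mod_cast this
    linarith
  have hj1ge : b * E.n - 10 ≤ (j1 : ℝ) := by
    have h1 := Nat.lt_floor_add_one (b * E.n)
    have h2 : ⌊b * E.n⌋₊ ≤ j1 + 9 := by omega
    have h3 : (⌊b * E.n⌋₊ : ℝ) ≤ (j1 : ℝ) + 9 := by exact_mod_cast h2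
    linarith
  have h2j : 2 * j1 ≤ E.n := by
    have : (2 : ℝ) * j1 ≤ E.n := by nlinarith
    exact_mod_cast this
  -- the times
  have htime : ∀ l l' : Fin E.L, l ∈ (rtGrStd Y p E r f D D1 b0).Sl (2, c, Lx) → l' ∈ (rtGrStd Y p E r f D D1 b0).Sl (2, c, Lx) →
      |tmL (E.k0 + E.n) (E.iv l) - tmL (E.k0 + E.n) (E.iv l')| ≤ rdLen E.k0 * (2 : ℝ)⁻¹ ^ j1 := by
    intro l l' hl hl'
    have a1 := rt_gr_big_time _ hGok hKa c Lx l l' ((rt_gr_mem_Sl _ _ _).1 hl) ((rt_gr_mem_Sl _ _ _).1 hl')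
    rw [hkb] at a1
    have e : tmL (E.k0 + E.n) (E.iv l) - tmL (E.k0 + E.n) (E.iv l')
        = (rtGrStd Y p E r f D D1 b0).t l - (rtGrStd Y p E r f D D1 b0).t l' := by
      show _ = (tmL E.kf (E.iv l) - tmL E.k0 E.i0) - (tmL E.kf (E.iv l') - tmL E.k0 E.i0)
      unfold Xp.kf
      ring
    rw [e]
    have hl0 : 0 < rdLen E.k0 := rdLen_pos _
    have a2 : |(rtGrStd Y p E r f D D1 b0).t l - (rtGrStd Y p E r f D D1 b0).t l'| ≤ rdLen E.k0 * 1 := by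
      have t1 := hGok.t_nn l; have t2 := hGok.t_le l; have t3 := hGok.t_nn l'; have t4 := hGok.t_le l'
      have e0 : (rtGrStd Y p E r f D D1 b0).l0 = rdLen E.k0 := rfl
      rw [e0] at t2 t4
      rw [abs_le]
      constructor <;> linarith
    have a3 : |(rtGrStd Y p E r f D D1 b0).t l - (rtGrStd Y p E r f D D1 b0).t l'| ≤ rdLen E.k0 * min 1 (404 / (2 : ℝ) ^ (b * E.n)) := by
      rcases le_total 1 (404 / (2 : ℝ) ^ (b * E.n)) with h | h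
      · rw [min_eq_left h]; exact a2
      · rw [min_eq_right h]; exact a1
    refine a3.trans (mul_le_mul_of_nonneg_left ?_ hl0.le)
    rw [hj1]
    exact rt_gr_big_num hbn
  obtain ⟨I, hI3, hI⟩ := rt_gr_three E.k0 E.n j1 (by omega)
    (fun a : Fin ((rtGrStd Y p E r f D D1 b0).Sl (2, c, Lx)).card => E.iv (E.sel ((rtGrStd Y p E r f D D1 b0).Sl (2, c, Lx)) a))
    (fun a a' => htime _ _ (gn_sel_mem E _ a) (gn_sel_mem E _ a'))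
  have hpn : (rtGrPc E Ct κ' S ((rtGrStd Y p E r f D D1 b0).Sl (2, c, Lx))).n = E.n := Nat.add_sub_cancel_left _ _
  have hpk : (rtGrPc E Ct κ' S ((rtGrStd Y p E r f D D1 b0).Sl (2, c, Lx))).kf = E.k0 + E.n := gn_tl_kf E (Nat.le_add_right _ _) _ _ _ _ _ _ _
  have key := HF p _ (by rw [hpn]; exact hn0) hcls rfl j1 I (by rw [hpn]; exact h2j) (by
    intro a
    rw [hpk]
    exact hI a)
  rw [hpn] at key
  refine key.trans ?_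
  have hc3 : (I.card : ℝ) ≤ 3 := by exact_mod_cast hI3
  have hexp : ε / 2 * E.n + (Γ + ε / 2) * ((E.n : ℝ) - j1) ≤ 10 * (Γ + ε) + (Γ * (1 - min b0 1 / 2) + ε) * E.n := by
    rw [← hb]
    have h1 : (E.n : ℝ) - j1 ≤ (1 - b) * E.n + 10 := by linarith
    have h2 : (Γ + ε / 2) * ((E.n : ℝ) - j1) ≤ (Γ + ε / 2) * ((1 - b) * E.n + 10) := mul_le_mul_of_nonneg_left h1 (by positivity)
    have h3 : 0 ≤ ε / 2 * (b * E.n) := by positivity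
    nlinarith
  calc (I.card : ℝ) * Cq0 * 2 ^ (ε / 2 * E.n) * 2 ^ ((Γ + ε / 2) * ((E.n : ℝ) - j1))
      = (I.card : ℝ) * Cq0 * 2 ^ (ε / 2 * E.n + (Γ + ε / 2) * ((E.n : ℝ) - j1)) := by rw [gn_two_add]; ring
    _ ≤ 3 * Cq0 * 2 ^ (10 * (Γ + ε) + (Γ * (1 - min b0 1 / 2) + ε) * E.n) :=
        mul_le_mul (mul_le_mul_of_nonneg_right hc3 hCq0.le) (gn_two_mono hexp) (gn_two_pos _).le (by positivity)
    _ = _ := by rw [gn_two_add]; ring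

/-! ## 2. patch data -/

/-- the patch datum of a group -/
noncomputable def rtGrPd (G : RtGrG) (c : Fin 5 → ℤ) (Lx : Fin 6 → ℤ) (p₀ : RtRow) : RtPd := ⟨G.frm c, G.rep c Lx, p₀, G.f⟩

theorem rt_gr_pd_eqns_cite : True := by
  have := @rtGrPd.eq_1
  trivial

/-- **L-256-RT-GR-P1** (250 l.)   GEOMETRY OF A PATCH (model free).      `n_L = rep c Lx`.   `rt_gr_rep_facts` (at `q₀` and at every `q` of the piece): disc one, `Bd (CB (2 + kb))` (tag `3`: `|k_L| ≤ kb`, `rt_gr_key_grp`), `|F_L|, |G_L| ≤ φ := 2 Mp f + 48 h ≤ fs/2`;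
`rt_gr_cell_unit` (`cell q = c`);   `rt_gr_patch_box` at `w₀ = nrm c q₀` (`fine q = fine q₀` means `rtGrRnd hg (nrm c q) = rtGrRnd hg w₀`);   `13 hg + 20 φ ≤ ρ/4`. -/
theorem rt_gr_pat_geo : ∃ CB : ℝ, 1 ≤ CB ∧ ∀ (G : RtGrG), G.Ok → ∀ (Pp fs : ℝ), 2 ≤ Pp → G.h ≤ 1 / 2 → CB * (2 + G.kb) ≤ Pp → 2 * G.Mp * G.f + 48 * G.h ≤ fs / 2 → Pp * fs ≤ 1 / 8 →
    13 * G.hg + 10 * fs ≤ rtChRho Pp / 4 → ∀ (q₀ : RtRow) (c : Fin 5 → ℤ) (Lx : Fin 6 → ℤ), G.key q₀ = (3, c, Lx) →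
    (G.rep c Lx).disc = 1 ∧ (G.rep c Lx).Bd (CB * (2 + G.kb)) ∧ ∃ p₀ : RtRow, RtChartOk Pp (G.rep c Lx) p₀ ∧ ∀ q : RtRow, G.key q = (3, c, Lx) → G.fine q = G.fine q₀ →
      G.nrm c q ∈ rtBx p₀ 1 (rtChRho Pp / 4) ∧ |(G.rep c Lx).F 0 (G.nrm c q).b (G.nrm c q).y| ≤ fs / 2 ∧
      |(G.rep c Lx).G 0 (G.nrm c q).b (G.nrm c q).y (G.nrm c q).A| ≤ fs / 2 ∧ rtSq (G.nrm c q).A ≤ 2 ^ 2 ∧ rtSq (G.nrm c q).b ≤ 2 ^ 2 ∧ |(G.nrm c q).y| ≤ 2 := by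
  obtain ⟨CB, hCB, hF⟩ := rt_gr_rep_facts
  refine ⟨CB, hCB, fun G hG Pp fs hP hh hPB hφ hPf hρ q₀ c Lx hk₀ => ?_⟩
  obtain ⟨f1, f2, f3, f4⟩ := hF G hG hh q₀ 3 c Lx hk₀ (Or.inr rfl)
  obtain ⟨g1, -, -, g4⟩ := rt_gr_key_grp G q₀ 3 c Lx hk₀ (Or.inr rfl)
  have hk : |(G.rep c Lx).k| ≤ G.kb := by
    by_contra hcon
    have := g4.2 (not_le.1 hcon)
    norm_num at this
  have hφ0 : 0 ≤ 2 * G.Mp * G.f + 48 * G.h := by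
    have := hG.Mp_ge; have := hG.f_pos; have := hG.h_pos
    positivity
  have hbd : (G.rep c Lx).Bd (CB * (2 + G.kb)) :=
    rt_chp_bd_mono (by positivity) (mul_le_mul_of_nonneg_left (by linarith) (by linarith)) f2
  have hbdP : (G.rep c Lx).Bd Pp := rt_chp_bd_mono (by have := hG.kb_ge; positivity) hPB hbd
  have hu₀ := rt_gr_cell_unit G hG.r_pos q₀
  rw [g1] at hu₀
  obtain ⟨p₀, hp₀, hbox⟩ := rt_gr_patch_box (G.rep c Lx) Pp (2 * G.Mp * G.f + 48 * G.h) G.hg hP f1 hbdP hφ0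
    (by nlinarith) hG.hg_pos (G.nrm c q₀) hu₀ f3 f4
  refine ⟨f1, hbd, p₀, hp₀, fun q hkq hfq => ?_⟩
  obtain ⟨-, -, e3, e4⟩ := hF G hG hh q 3 c Lx hkq (Or.inr rfl)
  obtain ⟨d1, -, -, -⟩ := rt_gr_key_grp G q 3 c Lx hkq (Or.inr rfl)
  have hu := rt_gr_cell_unit G hG.r_pos q
  rw [d1] at hu
  have hfine : rtGrRnd G.hg (G.nrm c q) = rtGrRnd G.hg (G.nrm c q₀) := by
    have := hfq
    unfold RtGrG.fine at this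
    rwa [d1, g1] at this
  obtain ⟨⟨u1, u2⟩, ⟨u3, u4⟩, ⟨u5, u6⟩, ⟨u7, u8⟩, u9, u10⟩ := hu
  refine ⟨rt_ci_bx_mono zero_le_one le_rfl (by have := hG.hg_pos; positivity) (by linarith) (hbox _ hfine), e3.trans hφ, e4.trans hφ, ?_, ?_, ?_⟩
  · unfold rtSq
    nlinarith
  · unfold rtSq
    nlinarith
  · rw [abs_of_nonneg u9]
    linarith

theorem rt_gr_flow_zero (q : RtRow) : q.flow 0 = q := by
  ext <;> simp [RtRow.flow]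

/-- `ε = 2^(n/4) d_k0 / r ≤ s^(1/4) f` -/
theorem rt_gr_pat_eps (Y : RtMd η) (hY : Y.Ok) {p : Y.M.Par} {E : Xp (Y.M.sys p)} {C D' : ℕ} {r f : ℝ} (hU : RtGrU Y p E C D' r f) (l : Fin E.L) :
    2 ^ ((E.n : ℝ) / 4) * rdD (Y.H p) E.k0 / r ≤ E.s ^ (1 / 4 : ℝ) * f := by
  obtain ⟨h1, h2⟩ := rt_gr_unc Y hY hU l
  have hr := hU.r_pos
  rw [div_le_iff₀ hr, h2]
  have e1 : (2 : ℝ) ^ ((E.n : ℝ) / 4) = E.s ^ (-(1 / 4) : ℝ) := by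
    rw [gn_s_rpow]
    congr 1
    ring
  have hs := gn_s_pos E
  have e2 : E.s ^ (-(1 / 4) : ℝ) * E.s ^ (1 / 2 : ℝ) = E.s ^ (1 / 4 : ℝ) := by
    rw [← Real.rpow_add hs]
    norm_num
  calc 2 ^ ((E.n : ℝ) / 4) * (E.s ^ (1 / 2 : ℝ) * rdD (Y.H p) E.kf) = E.s ^ (1 / 4 : ℝ) * rdD (Y.H p) E.kf := by rw [e1, ← mul_assoc, e2]
    _ ≤ E.s ^ (1 / 4 : ℝ) * (r * f) := mul_le_mul_of_nonneg_left h1 (Real.rpow_nonneg hs.le _)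
    _ = E.s ^ (1 / 4 : ℝ) * f * r := by ring

/-- **L-256-RT-GR-P2** (250 l.)   THE FIELD `root`.      `S` = root rows whose normalised row lies in the QUARTER patch and the HALF sublevels, `S' = {x | nrm c (co x) ∉ d.In P fs}` (measurable: `rt_gr_meas_in`).   No `2^(n/4)`-correspondence at the root cut between `S` and `S'`:
`cn_near` (`flow 0 = id`), `rt_gr_same` (`ε = 2^(n/4) d_k0/r ≤ s^(1/4) f`: `rt_gr_unc`; no label: the piece has... use the hypothesis `l`), `rt_gr_in_stab`.   Then `rt_gr_root` with `bm = max C Ct`, `N' = A' + Ct + 1` and `s^(Ct+1) e ≤ eb` (`rt_gr_pc_eb`). -/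
theorem rt_gr_pat_root (Y : RtMd η) (hY : Y.Ok) (C Ct A' : ℕ) : ∃ n0 : ℕ, ∀ (p : Y.M.Par) (E : Xp (Y.M.sys p)) (D' : ℕ) (r f : ℝ), RtGrU Y p E C D' r f → n0 ≤ E.n → Fin E.L →
    ∀ (d : RtPd) (Pp Mb fs : ℝ), d.ψ.r = r → 1 ≤ Pp → 0 ≤ Mb → d.nL.Bd Mb → 16 * (E.s ^ (1 / 4 : ℝ) * f) ≤ rtChRho Pp → 52 * Mb * (E.s ^ (1 / 4 : ℝ) * f) ≤ fs →
    ∀ S : Set (Y.M.sys p).X, MeasurableSet S →
      (∀ x ∈ S, (rtNrm (rdLen E.k0) r d.ψ.cen).row (Y.co p (rtGrT0 E) x) ∈ rtBx d.p0 1 (rtChRho Pp / 4) ∧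
        |d.nL.F 0 ((rtNrm (rdLen E.k0) r d.ψ.cen).row (Y.co p (rtGrT0 E) x)).b ((rtNrm (rdLen E.k0) r d.ψ.cen).row (Y.co p (rtGrT0 E) x)).y| ≤ fs / 2 ∧
        |d.nL.G 0 ((rtNrm (rdLen E.k0) r d.ψ.cen).row (Y.co p (rtGrT0 E) x)).b ((rtNrm (rdLen E.k0) r d.ψ.cen).row (Y.co p (rtGrT0 E) x)).y
          ((rtNrm (rdLen E.k0) r d.ψ.cen).row (Y.co p (rtGrT0 E) x)).A| ≤ fs / 2 ∧
        rtSq ((rtNrm (rdLen E.k0) r d.ψ.cen).row (Y.co p (rtGrT0 E) x)).A ≤ 2 ^ 2 ∧ rtSq ((rtNrm (rdLen E.k0) r d.ψ.cen).row (Y.co p (rtGrT0 E) x)).b ≤ 2 ^ 2) →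
      (Y.M.sys p).ms (rtGrT0 E) E.k0 Ct {x | (rtNrm (rdLen E.k0) r d.ψ.cen).row (Y.co p (rtGrT0 E) x) ∉ d.In Pp fs} (rtGrRm E S) ≤ E.s ^ (A' : ℝ) * E.eb Ct (rtGrRm E S) := by
  obtain ⟨n0, H⟩ := rt_gr_root Y.M 1 Y.L hY.gen.tight (max C Ct) (A' + Ct + 1)
  refine ⟨n0, fun p E D' r f hU hn l d Pp Mb fs _ hP hMb hbd h16 h52 S hS hSx => ?_⟩
  have hT := hY.gen.tight p hU.gd
  have hs := gn_s_pos E
  have hgen : E.GenLe (max C Ct) :=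
    ⟨hU.gen.1.trans (le_max_left _ _), hU.gen.2.1.trans (le_max_left _ _), fun σ hσ => (hU.gen.2.2 σ hσ).trans (le_max_left _ _)⟩
  have hmeas : MeasurableSet {x | (rtNrm (rdLen E.k0) r d.ψ.cen).row (Y.co p (rtGrT0 E) x) ∉ d.In Pp fs} :=
    rt_gr_meas_in (Y.co p (rtGrT0 E)) (hY.co_meas p hU.gd (rtGrT0 E)) d (rdLen E.k0) r d.ψ.cen Pp fs
  have hno : ∀ x ∈ S, ∀ x' ∈ {x | (rtNrm (rdLen E.k0) r d.ψ.cen).row (Y.co p (rtGrT0 E) x) ∉ d.In Pp fs},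
      ¬ Y.L.cn p (2 ^ ((E.n : ℝ) / 4)) (tmL E.k0 E.i0) E.k0 (tmL E.k0 E.i0) E.k0 x x' := by
    intro x hx x' hx' hc
    apply hx'
    have hnear := hY.cn_near p _ _ _ _ _ _ _ hc
    rw [sub_self, rt_gr_flow_zero] at hnear
    have hΛ : (1 : ℝ) ≤ 2 ^ ((E.n : ℝ) / 4) := Real.one_le_rpow (by norm_num) (by positivity)
    have hsame := rt_gr_same E.k0 r _ (Y.H p) hU.r_pos hΛ (hY.H_nn p) d.ψ.cen _ _ hnear
    have hε := rt_gr_pat_eps Y hY hU l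
    have hε0 : 0 ≤ 2 ^ ((E.n : ℝ) / 4) * rdD (Y.H p) E.k0 / r := by
      have h1 : 0 ≤ rdD (Y.H p) E.k0 := Real.sqrt_nonneg _
      have h2 := hU.r_pos
      positivity
    obtain ⟨a1, a2, a3, a4, a5⟩ := hSx x hx
    have hb := mul_le_mul_of_nonneg_left hε (by positivity : 0 ≤ 26 * Mb)
    exact rt_gr_in_stab d Pp Mb fs _ hP hMb hbd hε0 (by linarith) (by linarith) a4 a5 a1 a2 a3 hsame
  have hmain := H p E hU.gd hU.vl hgen hn S _ Ct (le_max_right _ _) hS hmeas hno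
  have heb := (rt_gr_pc_eb hT E hU.vl Ct hS).1
  calc (Y.M.sys p).ms (rtGrT0 E) E.k0 Ct {x | (rtNrm (rdLen E.k0) r d.ψ.cen).row (Y.co p (rtGrT0 E) x) ∉ d.In Pp fs} (rtGrRm E S)
      ≤ E.s ^ ((A' + Ct + 1 : ℕ) : ℝ) * E.e := hmain
    _ = E.s ^ (A' : ℝ) * (E.s ^ ((Ct : ℝ) + 1) * E.e) := by
        rw [← mul_assoc, ← Real.rpow_add hs]
        congr 2
        push_cast
        ring
    _ ≤ E.s ^ (A' : ℝ) * E.eb Ct (rtGrRm E S) := mul_le_mul_of_nonneg_left heb (Real.rpow_nonneg hs.le _)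

/-- **L-256-RT-GR-P3** (200 l.)   THE FIELD `e_hi`, mass part.      `τ = ⟨ℓ₀, r, fs, centre of ψ, n_L⟩`, `M = s^-1`: `Adm M` (`Mb ≤ 100 M`, `fs ≤ 1`), `co x ∈ τ.set M` for `x ∈ S`;   `rt_G1`, uncertainty `r fs ≥ r f ≥ d_k0` (`rt_gr_unc`), `rt_gr_mass` (`Valid.reg`),
`gn_ms_mono` (`S ⊆ {co x ∈ τ.set M}`, measurable by `rt_gr_meas_set`, `t = 0`, `flow 0 = id`).   `C6 = C_G1`. -/
theorem rt_gr_pat_mass (h0 : 0 < η) (h1 : η < 1) (Y : RtMd η) (hY : Y.Ok) : ∃ C6 : ℝ, 0 < C6 ∧ ∀ (p : Y.M.Par) (E : Xp (Y.M.sys p)) (C D' : ℕ) (r f : ℝ), RtGrU Y p E C D' r f → 1 ≤ E.n → Fin E.L →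
    ∀ (ψ : RdFrm) (nL : RtPoly) (fs : ℝ), ψ.r = r → nL.disc = 1 → nL.Bd (100 * E.s ^ (-1 : ℝ)) → f ≤ fs → fs ≤ 1 → ∀ S : Set (Y.M.sys p).X, MeasurableSet S →
      (∀ x ∈ S, |nL.F 0 ((rtNrm (rdLen E.k0) r ψ.cen).row (Y.co p (rtGrT0 E) x)).b ((rtNrm (rdLen E.k0) r ψ.cen).row (Y.co p (rtGrT0 E) x)).y| ≤ fs ∧
        |nL.G 0 ((rtNrm (rdLen E.k0) r ψ.cen).row (Y.co p (rtGrT0 E) x)).b ((rtNrm (rdLen E.k0) r ψ.cen).row (Y.co p (rtGrT0 E) x)).y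
          ((rtNrm (rdLen E.k0) r ψ.cen).row (Y.co p (rtGrT0 E) x)).A| ≤ fs ∧
        rtSq ((rtNrm (rdLen E.k0) r ψ.cen).row (Y.co p (rtGrT0 E) x)).A ≤ 2 ^ 2 ∧ rtSq ((rtNrm (rdLen E.k0) r ψ.cen).row (Y.co p (rtGrT0 E) x)).b ≤ 2 ^ 2 ∧
        |((rtNrm (rdLen E.k0) r ψ.cen).row (Y.co p (rtGrT0 E) x)).y| ≤ 2) →
      rtGrMu E S ≤ E.ka * (E.s ^ (-C6) * (r ^ 4 * fs ^ (1 - η))) := by
  obtain ⟨Cg, hCg, G1⟩ := rt_G1 η h0 h1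
  refine ⟨Cg, hCg, fun p E C D' r f hU hn l ψ nL fs _ hdisc hbd hffs hfs1 S hS hSx => ?_⟩
  have hs := gn_s_pos E
  have hf : 0 < f := lt_of_lt_of_le (Real.rpow_pos_of_pos hs _) hU.f_lo
  have hfs : 0 < fs := lt_of_lt_of_le hf hffs
  have hM : (2 : ℝ) ≤ E.s ^ (-1 : ℝ) := by
    rw [gn_s_rpow]
    have e : (-(-1 * (E.n : ℝ))) = ((E.n : ℕ) : ℝ) := by ring
    rw [e, Real.rpow_natCast]
    calc (2 : ℝ) = 2 ^ 1 := by norm_num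
      _ ≤ 2 ^ E.n := pow_le_pow_right₀ (by norm_num) hn
  set M : ℝ := E.s ^ (-1 : ℝ) with hMdef
  set τ : RtTest := ⟨rdLen E.k0, r, fs, ψ.As, ψ.bs, ψ.ys, nL⟩ with hτ
  have hadm : τ.Adm M := ⟨rdLen_pos _, hU.r_pos, hfs, hfs1, hdisc, hbd⟩
  have hcov := G1 M τ hM hadm
  obtain ⟨u1, u2⟩ := rt_gr_unc Y hY hU l
  have hD : rdD (Y.H p) E.k0 ≤ τ.unc := by
    have hd0 : 0 ≤ rdD (Y.H p) E.kf := Real.sqrt_nonneg _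
    have hs1 : E.s ^ (1 / 2 : ℝ) ≤ 1 := Real.rpow_le_one hs.le (gn_s_le_one E) (by norm_num)
    calc rdD (Y.H p) E.k0 = E.s ^ (1 / 2 : ℝ) * rdD (Y.H p) E.kf := u2
      _ ≤ 1 * rdD (Y.H p) E.kf := mul_le_mul_of_nonneg_right hs1 hd0
      _ = rdD (Y.H p) E.kf := one_mul _
      _ ≤ r * f := u1
      _ ≤ r * fs := mul_le_mul_of_nonneg_left hffs hU.r_pos.le
  have hcov2 : RtCover (τ.set M) (rdLen E.k0) (rdD (Y.H p) E.k0) η (M ^ Cg * τ.w η) := hcov.mono subset_rfl hD le_rfl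
  have hmeas : MeasurableSet {x | Y.co p (rtGrT0 E) x ∈ τ.set M} := by
    have := rt_gr_meas_set (Y.co p (rtGrT0 E)) (hY.co_meas p hU.gd (rtGrT0 E)) τ M 0
    simpa only [rt_gr_flow_zero] using this
  have hmass := rt_gr_mass Y hY p hU.gd (rtGrT0 E) E.k0 E.b0 E.ka hU.vl.ka_pos.le E.v hU.vl.reg (τ.set M) (M ^ Cg * τ.w η) hmeas hcov2
  have hsub : S ⊆ {x | Y.co p (rtGrT0 E) x ∈ τ.set M} := by
    intro x hx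
    obtain ⟨a1, a2, a3, a4, a5⟩ := hSx x hx
    have hM2 : (2 : ℝ) ^ 2 ≤ M ^ 2 := pow_le_pow_left₀ (by norm_num) hM 2
    have hMf : fs ≤ M * fs := by nlinarith
    exact ⟨⟨a4.trans hM2, a5.trans hM, a3.trans hM2⟩, a1.trans hMf, a2.trans hMf⟩
  have e1 : M ^ Cg = E.s ^ (-Cg) := by
    rw [hMdef, ← Real.rpow_mul hs.le]
    congr 1
    ring
  calc rtGrMu E S ≤ (Y.M.sys p).ms (rtGrT0 E) E.k0 E.b0 {x | Y.co p (rtGrT0 E) x ∈ τ.set M} E.v := gn_ms_mono _ _ _ hS hmeas hsub _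
    _ ≤ E.ka * (M ^ Cg * τ.w η) := hmass
    _ = E.ka * (E.s ^ (-Cg) * (r ^ 4 * fs ^ (1 - η))) := by rw [e1]; rfl

/-- **L-256-RT-GR-P4** (150 l.)   THE FIELDS `lab_r`, `lab_f`, `lab_n` of a piece.      Labels of the piece: `ts = E.ts ∘ E.sel _`, `iv = E.iv ∘ E.sel _`, `kf`, `k0`, `i0` unchanged (`gn_tl_kf`);   `l ∈ G.Sl j`: `∃ q ∈ Pre l, key q = j` (`rt_gr_mem_Sl`, `gn_sel_mem`);
`Con`: `m = rtGrM (G.t l) G.lf (G.Q l)` (`rt_gr_m_spec`), `(d.N E').pol m = G.par c l` by `rfl`, `rt_gr_con`, `Ka + 2h ≤ fs` (`rt_chp_bd_mono`). -/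
theorem rt_gr_pat_lab (Y : RtMd η) (hY : Y.Ok) {p : Y.M.Par} {E : Xp (Y.M.sys p)} {C D' : ℕ} {r f : ℝ} (hU : RtGrU Y p E C D' r f) (hf : f ≤ 1) (D D1 b0 : ℝ) (hb0 : 0 < b0) (fs : ℝ)
    (hfs : (rtGrStd Y p E r f D D1 b0).Ka + 2 * (rtGrStd Y p E r f D D1 b0).h ≤ fs) (c : Fin 5 → ℤ) (Lx : Fin 6 → ℤ) (p₀ : RtRow) (Ct : ℕ) (κ' : ℝ) (S : Set (Y.M.sys p).X) :
    (∀ l, (rtGrPd (rtGrStd Y p E r f D D1 b0) c Lx p₀).ψ.r / 2 ≤ (Y.tq p ((rtGrPc E Ct κ' S ((rtGrStd Y p E r f D D1 b0).Sl (3, c, Lx))).ts l)).r ∧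
      (Y.tq p ((rtGrPc E Ct κ' S ((rtGrStd Y p E r f D D1 b0).Sl (3, c, Lx))).ts l)).r ≤ 2 * (rtGrPd (rtGrStd Y p E r f D D1 b0) c Lx p₀).ψ.r) ∧
    (∀ l, (rtGrPd (rtGrStd Y p E r f D D1 b0) c Lx p₀).f / 2 ≤ (Y.tq p ((rtGrPc E Ct κ' S ((rtGrStd Y p E r f D D1 b0).Sl (3, c, Lx))).ts l)).f ∧
      (Y.tq p ((rtGrPc E Ct κ' S ((rtGrStd Y p E r f D D1 b0).Sl (3, c, Lx))).ts l)).f ≤ (rtGrPd (rtGrStd Y p E r f D D1 b0) c Lx p₀).f) ∧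
    (∀ l, (rtGrPd (rtGrStd Y p E r f D D1 b0) c Lx p₀).Con ((rtGrPd (rtGrStd Y p E r f D D1 b0) c Lx p₀).N (rtGrPc E Ct κ' S ((rtGrStd Y p E r f D D1 b0).Sl (3, c, Lx))))
      (tmL (rtGrPc E Ct κ' S ((rtGrStd Y p E r f D D1 b0).Sl (3, c, Lx))).k0 (rtGrPc E Ct κ' S ((rtGrStd Y p E r f D D1 b0).Sl (3, c, Lx))).i0)
      (rtGrPc E Ct κ' S ((rtGrStd Y p E r f D D1 b0).Sl (3, c, Lx))).kf
      (tmL (rtGrPc E Ct κ' S ((rtGrStd Y p E r f D D1 b0).Sl (3, c, Lx))).kf ((rtGrPc E Ct κ' S ((rtGrStd Y p E r f D D1 b0).Sl (3, c, Lx))).iv l))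
      (Y.tq p ((rtGrPc E Ct κ' S ((rtGrStd Y p E r f D D1 b0).Sl (3, c, Lx))).ts l)) fs) := by
  have hG := rt_gr_std_ok Y hY hU hf D D1 b0 hb0
  have hr := hU.r_pos
  refine ⟨fun l => ?_, fun l => ?_, fun l => ?_⟩
  · have h := hU.lab_r (E.sel ((rtGrStd Y p E r f D D1 b0).Sl (3, c, Lx)) l)
    refine ⟨h.1, ?_⟩
    have h2 := h.2
    show (Y.tq p (E.ts (E.sel ((rtGrStd Y p E r f D D1 b0).Sl (3, c, Lx)) l))).r ≤ 2 * r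
    linarith
  · exact hU.lab_f (E.sel ((rtGrStd Y p E r f D D1 b0).Sl (3, c, Lx)) l)
  · have hkf : (rtGrPc E Ct κ' S ((rtGrStd Y p E r f D D1 b0).Sl (3, c, Lx))).kf = E.kf :=
      gn_tl_kf E (Nat.le_add_right _ _) _ _ _ _ _ _ _
    rw [hkf]
    have hmem := gn_sel_mem E ((rtGrStd Y p E r f D D1 b0).Sl (3, c, Lx)) l
    have hJ := (rt_gr_mem_Sl (rtGrStd Y p E r f D D1 b0) (3, c, Lx) _).1 hmem
    obtain ⟨q, hq, hk⟩ := hJ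
    have hrl : (Y.tq p (E.ts (E.sel ((rtGrStd Y p E r f D D1 b0).Sl (3, c, Lx)) l))).r ≠ 0 := by
      have := (hU.lab_r (E.sel ((rtGrStd Y p E r f D D1 b0).Sl (3, c, Lx)) l)).1
      have : 0 < (Y.tq p (E.ts (E.sel ((rtGrStd Y p E r f D D1 b0).Sl (3, c, Lx)) l))).r := by linarith
      exact this.ne'
    have h0 : 0 ≤ (rtGrStd Y p E r f D D1 b0).Ka + 2 * (rtGrStd Y p E r f D D1 b0).h := by
      have := hG.Ka_pos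
      have := hG.h_pos
      linarith
    refine ⟨rtGrM (tmL E.kf (E.iv (E.sel ((rtGrStd Y p E r f D D1 b0).Sl (3, c, Lx)) l)) - tmL E.k0 E.i0) (rdLen E.kf)
      (Y.tq p (E.ts (E.sel ((rtGrStd Y p E r f D D1 b0).Sl (3, c, Lx)) l))), rt_gr_m_spec _ _ _ _ hrl, ?_⟩
    rcases rt_gr_con (rtGrStd Y p E r f D D1 b0) hG q _ hq 3 c Lx hk (Or.inr rfl) with h | h
    · exact Or.inl (rt_chp_bd_mono h0 hfs h)
    · exact Or.inr (rt_chp_bd_mono h0 hfs h)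

theorem rt_gr_aux_pow_ge {s : ℝ} (hs0 : 0 < s) (hs4 : s ≤ 1 / 4) (m : ℕ) : (4 : ℝ) ^ m ≤ s ^ (-(m : ℝ)) := by
  rw [Real.rpow_neg hs0.le, Real.rpow_natCast, ← inv_pow]
  refine pow_le_pow_left₀ (by norm_num) ?_ m
  rw [le_inv_comm₀ (by norm_num) hs0]
  linarith

theorem rt_gr_aux_pow_le {s : ℝ} (hs0 : 0 < s) (hs4 : s ≤ 1 / 4) (m : ℕ) : s ^ (m : ℝ) ≤ (1 / 4 : ℝ) ^ m := by
  rw [Real.rpow_natCast]
  exact pow_le_pow_left₀ hs0.le hs4 m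

theorem rt_gr_aux_rho {s : ℝ} (hs0 : 0 < s) (b0 : ℝ) : rtChRho (s ^ (-b0)) = s ^ (2 * b0) / 1000 := by
  unfold rtChRho
  rw [← Real.rpow_natCast (s ^ (-b0)) 2, ← Real.rpow_mul hs0.le]
  have e : -b0 * ((2 : ℕ) : ℝ) = -(2 * b0) := by push_cast; ring
  rw [e, Real.rpow_neg hs0.le]
  have := Real.rpow_pos_of_pos hs0 (2 * b0)
  field_simp

/-- numerics of the patch, part 1: thicknesses -/
theorem rt_gr_patch_num1 {s b0 D D1 f : ℝ} (hs0 : 0 < s) (hs4 : s ≤ 1 / 4) (hb0 : 0 < b0) (hD : 0 < D) (hD1 : D + 7 ≤ D1) (hf0 : 0 < f)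
    (hf : f ≤ s ^ (D1 + 2 * b0 + 20)) :
    s ^ (-D1) * f ≤ s ^ (2 * b0) * (1 / 4 : ℝ) ^ 20 ∧ f ≤ s ^ (-D1) * f ∧ s ^ (-D1) * f ≤ 1 ∧ f ≤ 1 ∧
    2 * s ^ (-1 : ℝ) * f + 48 * (s ^ (-D1) * f / 100) ≤ s ^ (-D1) * f / 2 ∧
    s ^ (-D) * f + 2 * (s ^ (-D1) * f / 100) ≤ s ^ (-D1) * f ∧
    s ^ (-b0) * (s ^ (-D1) * f) ≤ 1 / 8 ∧
    13 * (rtChRho (s ^ (-b0)) / 100) + 10 * (s ^ (-D1) * f) ≤ rtChRho (s ^ (-b0)) / 4 ∧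
    16 * (s ^ (1 / 4 : ℝ) * f) ≤ rtChRho (s ^ (-b0)) := by
  have hs1 : s ≤ 1 := by linarith
  have anti : ∀ {x y : ℝ}, x ≤ y → s ^ y ≤ s ^ x := fun h => Real.rpow_le_rpow_of_exponent_ge hs0 hs1 h
  have pos : ∀ x : ℝ, 0 < s ^ x := fun x => Real.rpow_pos_of_pos hs0 x
  have h20 : s ^ (20 : ℝ) ≤ (1 / 4 : ℝ) ^ 20 := by
    have := rt_gr_aux_pow_le hs0 hs4 20
    norm_num at this ⊢
    exact this
  have a1 : s ^ (-D1) * f ≤ s ^ (2 * b0) * (1 / 4 : ℝ) ^ 20 := by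
    calc s ^ (-D1) * f ≤ s ^ (-D1) * s ^ (D1 + 2 * b0 + 20) := mul_le_mul_of_nonneg_left hf (pos _).le
      _ = s ^ (2 * b0) * s ^ (20 : ℝ) := by
        rw [← Real.rpow_add hs0, ← Real.rpow_add hs0]
        congr 1
        ring
      _ ≤ _ := mul_le_mul_of_nonneg_left h20 (pos _).le
  have h2b : s ^ (2 * b0) ≤ 1 := Real.rpow_le_one hs0.le hs1 (by linarith)
  have hD1one : 1 ≤ s ^ (-D1) := Real.one_le_rpow_of_pos_of_le_one_of_nonpos hs0 hs1 (by linarith)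
  have a2 : f ≤ s ^ (-D1) * f := le_mul_of_one_le_left hf0.le hD1one
  have a3 : s ^ (-D1) * f ≤ 1 := by
    have : s ^ (2 * b0) * (1 / 4 : ℝ) ^ 20 ≤ 1 * 1 := mul_le_mul h2b (by norm_num) (by norm_num) (by norm_num)
    linarith
  have a4 : f ≤ 1 := a2.trans a3
  -- `4^6 s^-1 ≤ s^-D1`, `4^7 s^-D ≤ s^-D1`
  have b1 : (4 : ℝ) ^ 6 * s ^ (-1 : ℝ) ≤ s ^ (-D1) := by
    have c1 := rt_gr_aux_pow_ge hs0 hs4 6
    calc (4 : ℝ) ^ 6 * s ^ (-1 : ℝ) ≤ s ^ (-((6 : ℕ) : ℝ)) * s ^ (-1 : ℝ) := mul_le_mul_of_nonneg_right c1 (pos _).le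
      _ = s ^ (-(7 : ℝ)) := by
        rw [← Real.rpow_add hs0]
        congr 1
        push_cast
        ring
      _ ≤ s ^ (-D1) := anti (by linarith)
  have b2 : (4 : ℝ) ^ 7 * s ^ (-D) ≤ s ^ (-D1) := by
    have c1 := rt_gr_aux_pow_ge hs0 hs4 7
    calc (4 : ℝ) ^ 7 * s ^ (-D) ≤ s ^ (-((7 : ℕ) : ℝ)) * s ^ (-D) := mul_le_mul_of_nonneg_right c1 (pos _).le
      _ = s ^ (-(D + 7)) := by
        rw [← Real.rpow_add hs0]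
        congr 1
        push_cast
        ring
      _ ≤ s ^ (-D1) := anti (by linarith)
  have a5 : 2 * s ^ (-1 : ℝ) * f + 48 * (s ^ (-D1) * f / 100) ≤ s ^ (-D1) * f / 2 := by
    have := mul_le_mul_of_nonneg_right b1 hf0.le
    have h' := mul_pos (pos (-1 : ℝ)) hf0
    norm_num at this
    nlinarith
  have a6 : s ^ (-D) * f + 2 * (s ^ (-D1) * f / 100) ≤ s ^ (-D1) * f := by
    have := mul_le_mul_of_nonneg_right b2 hf0.le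
    have h' := mul_pos (pos (-D)) hf0
    norm_num at this
    nlinarith
  have a7 : s ^ (-b0) * (s ^ (-D1) * f) ≤ 1 / 8 := by
    calc s ^ (-b0) * (s ^ (-D1) * f) ≤ s ^ (-b0) * (s ^ (2 * b0) * (1 / 4 : ℝ) ^ 20) := mul_le_mul_of_nonneg_left a1 (pos _).le
      _ = s ^ b0 * (1 / 4 : ℝ) ^ 20 := by
        rw [← mul_assoc, ← Real.rpow_add hs0]
        congr 2
        ring
      _ ≤ 1 * (1 / 4 : ℝ) ^ 20 := mul_le_mul_of_nonneg_right (Real.rpow_le_one hs0.le hs1 hb0.le) (by norm_num)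
      _ ≤ 1 / 8 := by norm_num
  have hρ := rt_gr_aux_rho hs0 b0
  have p2b := pos (2 * b0)
  have a8 : 13 * (rtChRho (s ^ (-b0)) / 100) + 10 * (s ^ (-D1) * f) ≤ rtChRho (s ^ (-b0)) / 4 := by
    rw [hρ]
    have : s ^ (2 * b0) * (1 / 4 : ℝ) ^ 20 ≤ s ^ (2 * b0) * (1 / 100000) := mul_le_mul_of_nonneg_left (by norm_num) p2b.le
    linarith
  have a9 : 16 * (s ^ (1 / 4 : ℝ) * f) ≤ rtChRho (s ^ (-b0)) := by
    rw [hρ]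
    have c1 : s ^ (1 / 4 : ℝ) ≤ 1 := Real.rpow_le_one hs0.le hs1 (by norm_num)
    have c2 : s ^ (1 / 4 : ℝ) * f ≤ 1 * f := mul_le_mul_of_nonneg_right c1 hf0.le
    have : s ^ (2 * b0) * (1 / 4 : ℝ) ^ 20 ≤ s ^ (2 * b0) * (1 / 100000) := mul_le_mul_of_nonneg_left (by norm_num) p2b.le
    linarith
  exact ⟨a1, a2, a3, a4, a5, a6, a7, a8, a9⟩

/-- numerics of the patch, part 2: constants -/
theorem rt_gr_patch_num2 {s b0 D1 f CB Cr : ℝ} (hs0 : 0 < s) (hs4 : s ≤ 1 / 4) (hb0 : 0 < b0) (hD1 : 7 ≤ D1) (hf0 : 0 < f)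
    (hCB : 1 ≤ CB) (hCr : 1 ≤ Cr) (hK : 156 * CB + Cr ≤ s ^ (-(min b0 1 / 2))) :
    2 ≤ s ^ (-b0) ∧ CB * (2 + s ^ (-(min b0 1 / 2))) ≤ s ^ (-b0) ∧
    52 * (CB * (2 + s ^ (-(min b0 1 / 2)))) * (s ^ (1 / 4 : ℝ) * f) ≤ s ^ (-D1) * f ∧
    CB * (2 + s ^ (-(min b0 1 / 2))) ≤ 100 * s ^ (-1 : ℝ) ∧ Cr ≤ s ^ (-1 : ℝ) ∧ 0 ≤ CB * (2 + s ^ (-(min b0 1 / 2))) := by
  have hs1 : s ≤ 1 := by linarith
  have anti : ∀ {x y : ℝ}, x ≤ y → s ^ y ≤ s ^ x := fun h => Real.rpow_le_rpow_of_exponent_ge hs0 hs1 h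
  have pos : ∀ x : ℝ, 0 < s ^ x := fun x => Real.rpow_pos_of_pos hs0 x
  obtain ⟨θ, hθ⟩ : ∃ θ : ℝ, θ = min b0 1 / 2 := ⟨_, rfl⟩
  rw [← hθ] at hK ⊢
  have t0 : 0 < θ := by rw [hθ]; have := lt_min hb0 one_pos; linarith
  have t1 : θ ≤ b0 / 2 := by rw [hθ]; have := min_le_left b0 1; linarith
  have t2 : θ ≤ 1 / 2 := by rw [hθ]; have := min_le_right b0 1; linarith
  have k1 : 1 ≤ s ^ (-θ) := Real.one_le_rpow_of_pos_of_le_one_of_nonpos hs0 hs1 (by linarith)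
  have m1 : CB * (2 + s ^ (-θ)) ≤ 3 * CB * s ^ (-θ) := by nlinarith
  have key : ∀ x : ℝ, 2 * θ ≤ x → 3 * CB * s ^ (-θ) ≤ s ^ (-x) := by
    intro x hx
    calc 3 * CB * s ^ (-θ) ≤ s ^ (-θ) * s ^ (-θ) := mul_le_mul_of_nonneg_right (by linarith) (pos _).le
      _ = s ^ (-(2 * θ)) := by rw [← Real.rpow_add hs0]; congr 1; ring
      _ ≤ s ^ (-x) := anti (by linarith)
  refine ⟨?_, m1.trans (key b0 (by linarith)), ?_, ?_, ?_, by positivity⟩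
  · have : s ^ (-θ) ≤ s ^ (-b0) := anti (by linarith)
    linarith
  · have c1 : 52 * (CB * (2 + s ^ (-θ))) * s ^ (1 / 4 : ℝ) ≤ s ^ (-D1) := by
      calc 52 * (CB * (2 + s ^ (-θ))) * s ^ (1 / 4 : ℝ) ≤ 52 * (3 * CB * s ^ (-θ)) * s ^ (1 / 4 : ℝ) :=
            mul_le_mul_of_nonneg_right (by linarith) (pos _).le
        _ = 156 * CB * (s ^ (-θ) * s ^ (1 / 4 : ℝ)) := by ring
        _ ≤ s ^ (-θ) * (s ^ (-θ) * s ^ (1 / 4 : ℝ)) := mul_le_mul_of_nonneg_right (by linarith) (mul_pos (pos _) (pos _)).le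
        _ = s ^ (-θ + (-θ + 1 / 4)) := by rw [← Real.rpow_add hs0, ← Real.rpow_add hs0]
        _ ≤ s ^ (-D1) := anti (by linarith)
    calc 52 * (CB * (2 + s ^ (-θ))) * (s ^ (1 / 4 : ℝ) * f) = 52 * (CB * (2 + s ^ (-θ))) * s ^ (1 / 4 : ℝ) * f := by ring
      _ ≤ s ^ (-D1) * f := mul_le_mul_of_nonneg_right c1 hf0.le
  · have := key 1 (by linarith)
    have h' := pos (-1 : ℝ)
    linarith
  · have : s ^ (-θ) ≤ s ^ (-1 : ℝ) := anti (by linarith)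
    linarith


/-- numerics of the field `e_hi` -/
theorem rt_gr_patch_ehi {s κ r fs f e eb μ η Cr C6 : ℝ} {D' Ct C' : ℕ} (hs0 : 0 < s) (hs4 : s ≤ 1 / 4) (h0 : 0 < η) (h1 : η < 1) (hκ : 0 < κ) (hr : 0 < r)
    (hCr : 1 ≤ Cr) (he : 0 < e) (hflo : s ^ (D' : ℝ) ≤ f) (hffs : f ≤ fs)
    (heb : eb ≤ μ + s ^ ((Ct : ℝ) + 1) * e) (hμ : μ ≤ κ * (s ^ (-C6) * (r ^ 4 * fs ^ (1 - η)))) (hrlo : s ^ (D' : ℝ) * e ≤ κ * r ^ 4)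
    (hC1 : C6 + 1 ≤ C') (hC2 : 2 * (D' : ℝ) + 1 ≤ C') :
    eb ≤ s ^ (-(C' : ℝ)) * (Cr * κ * r ^ 4 * fs ^ (1 - η)) := by
  have hs1 : s ≤ 1 := by linarith
  have anti : ∀ {x y : ℝ}, x ≤ y → s ^ y ≤ s ^ x := fun h => Real.rpow_le_rpow_of_exponent_ge hs0 hs1 h
  have pos : ∀ x : ℝ, 0 < s ^ x := fun x => Real.rpow_pos_of_pos hs0 x
  have hu0 := pos (D' : ℝ)
  have hu1 : s ^ (D' : ℝ) ≤ 1 := Real.rpow_le_one hs0.le hs1 (Nat.cast_nonneg _)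
  have hfs0 : 0 < fs := lt_of_lt_of_le hu0 (hflo.trans hffs)
  have a1 : s ^ (D' : ℝ) ≤ fs ^ (1 - η) := by
    calc s ^ (D' : ℝ) = (s ^ (D' : ℝ)) ^ (1 : ℝ) := (Real.rpow_one _).symm
      _ ≤ (s ^ (D' : ℝ)) ^ (1 - η) := Real.rpow_le_rpow_of_exponent_ge hu0 hu1 (by linarith)
      _ ≤ fs ^ (1 - η) := Real.rpow_le_rpow hu0.le (hflo.trans hffs) (by linarith)
  obtain ⟨W, hW⟩ : ∃ W : ℝ, W = κ * r ^ 4 * fs ^ (1 - η) := ⟨_, rfl⟩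
  have hW0 : 0 < W := by
    rw [hW]
    have := Real.rpow_pos_of_pos hfs0 (1 - η)
    positivity
  have inv : s ^ (-(D' : ℝ)) * s ^ (D' : ℝ) = 1 := by rw [← Real.rpow_add hs0]; simp
  have a2 : e ≤ s ^ (-(D' : ℝ)) * (κ * r ^ 4) := by
    calc e = s ^ (-(D' : ℝ)) * (s ^ (D' : ℝ) * e) := by rw [← mul_assoc, inv, one_mul]
      _ ≤ _ := mul_le_mul_of_nonneg_left hrlo (pos _).le
  have a3 : κ * r ^ 4 ≤ s ^ (-(D' : ℝ)) * W := by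
    calc κ * r ^ 4 = s ^ (-(D' : ℝ)) * (κ * r ^ 4 * s ^ (D' : ℝ)) := by
          rw [mul_comm (κ * r ^ 4), ← mul_assoc, inv, one_mul]
      _ ≤ s ^ (-(D' : ℝ)) * W := by
        rw [hW]
        exact mul_le_mul_of_nonneg_left (mul_le_mul_of_nonneg_left a1 (by positivity)) (pos _).le
  have a4 : e ≤ s ^ (-((C' : ℝ) - 1)) * W := by
    calc e ≤ s ^ (-(D' : ℝ)) * (s ^ (-(D' : ℝ)) * W) := a2.trans (mul_le_mul_of_nonneg_left a3 (pos _).le)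
      _ = s ^ (-(2 * (D' : ℝ))) * W := by rw [← mul_assoc, ← Real.rpow_add hs0]; congr 2; ring
      _ ≤ _ := mul_le_mul_of_nonneg_right (anti (by linarith)) hW0.le
  have a5 : s ^ ((Ct : ℝ) + 1) * e ≤ e := by
    have : s ^ ((Ct : ℝ) + 1) ≤ 1 := Real.rpow_le_one hs0.le hs1 (by positivity)
    exact mul_le_of_le_one_left he.le this
  have a6 : μ ≤ s ^ (-((C' : ℝ) - 1)) * W := by
    calc μ ≤ κ * (s ^ (-C6) * (r ^ 4 * fs ^ (1 - η))) := hμ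
      _ = s ^ (-C6) * W := by rw [hW]; ring
      _ ≤ _ := mul_le_mul_of_nonneg_right (anti (by linarith)) hW0.le
  have a7 : 2 * s ^ (-((C' : ℝ) - 1)) ≤ s ^ (-(C' : ℝ)) := by
    have c1 : (2 : ℝ) ≤ s ^ (-(1 : ℝ)) := by
      rw [Real.rpow_neg hs0.le, Real.rpow_one, le_inv_comm₀ (by norm_num) hs0]
      linarith
    calc 2 * s ^ (-((C' : ℝ) - 1)) ≤ s ^ (-(1 : ℝ)) * s ^ (-((C' : ℝ) - 1)) := mul_le_mul_of_nonneg_right c1 (pos _).le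
      _ = s ^ (-(C' : ℝ)) := by rw [← Real.rpow_add hs0]; congr 1; ring
  have a8 : eb ≤ s ^ (-(C' : ℝ)) * W := by
    have := mul_le_mul_of_nonneg_right a7 hW0.le
    linarith
  refine a8.trans (mul_le_mul_of_nonneg_left ?_ (pos _).le)
  have e1 : Cr * κ * r ^ 4 * fs ^ (1 - η) = Cr * W := by rw [hW]; ring
  rw [e1]
  exact le_mul_of_one_le_left hW0.le hCr

/-- numerics of the field `e_lo` -/
theorem rt_gr_patch_elo {s κ r e eb Cr : ℝ} {D' Ct C' : ℕ} (hs0 : 0 < s) (hs1 : s ≤ 1) (hκ : 0 < κ) (hr : 0 < r) (he : 0 < e)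
    (hCr : Cr ≤ s ^ (-1 : ℝ)) (heb : s ^ ((Ct : ℝ) + 1) * e ≤ eb) (hrhi : κ * r ^ 4 ≤ s ^ (-(D' : ℝ)) * e) (hC : (Ct : ℝ) + D' + 2 ≤ C') :
    s ^ (C' : ℝ) * (Cr * κ * r ^ 4) ≤ eb := by
  have anti : ∀ {x y : ℝ}, x ≤ y → s ^ y ≤ s ^ x := fun h => Real.rpow_le_rpow_of_exponent_ge hs0 hs1 h
  have pos : ∀ x : ℝ, 0 < s ^ x := fun x => Real.rpow_pos_of_pos hs0 x
  have hk4 : 0 < κ * r ^ 4 := by positivity
  calc s ^ (C' : ℝ) * (Cr * κ * r ^ 4) = s ^ (C' : ℝ) * (Cr * (κ * r ^ 4)) := by ring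
    _ ≤ s ^ (C' : ℝ) * (s ^ (-1 : ℝ) * (s ^ (-(D' : ℝ)) * e)) :=
      mul_le_mul_of_nonneg_left (mul_le_mul hCr hrhi hk4.le (pos _).le) (pos _).le
    _ = s ^ ((C' : ℝ) + (-1 + -(D' : ℝ))) * e := by
      rw [← mul_assoc, ← mul_assoc, mul_assoc (s ^ (C' : ℝ)), ← Real.rpow_add hs0, ← Real.rpow_add hs0]
    _ ≤ s ^ ((Ct : ℝ) + 1) * e := mul_le_mul_of_nonneg_right (anti (by linarith)) he.le
    _ ≤ eb := heb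

/-- numerics of the field `H_lo` -/
theorem rt_gr_patch_Hlo {s κ r e H l0 : ℝ} {C D' C' : ℕ} (hs0 : 0 < s) (hs1 : s ≤ 1) (hκ : 0 < κ) (hr : 0 < r) (hl : 0 < l0) (hH : 0 ≤ H)
    (h : s ^ (3 * (C : ℝ)) * e ≤ κ * (H / l0) ^ 2) (hrhi : κ * r ^ 4 ≤ s ^ (-(D' : ℝ)) * e) (hC : 3 * (C : ℝ) + D' ≤ 2 * C') :
    s ^ (C' : ℝ) ≤ H / (l0 * r ^ 2) := by
  have anti : ∀ {x y : ℝ}, x ≤ y → s ^ y ≤ s ^ x := fun h => Real.rpow_le_rpow_of_exponent_ge hs0 hs1 h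
  have pos : ∀ x : ℝ, 0 < s ^ x := fun x => Real.rpow_pos_of_pos hs0 x
  have inv : s ^ (D' : ℝ) * s ^ (-(D' : ℝ)) = 1 := by rw [← Real.rpow_add hs0]; simp
  have a1 : s ^ (D' : ℝ) * (κ * r ^ 4) ≤ e := by
    calc s ^ (D' : ℝ) * (κ * r ^ 4) ≤ s ^ (D' : ℝ) * (s ^ (-(D' : ℝ)) * e) := mul_le_mul_of_nonneg_left hrhi (pos _).le
      _ = e := by rw [← mul_assoc, inv, one_mul]
  have a2 : κ * (s ^ (C' : ℝ) * r ^ 2) ^ 2 ≤ κ * (H / l0) ^ 2 := by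
    calc κ * (s ^ (C' : ℝ) * r ^ 2) ^ 2 = s ^ (2 * (C' : ℝ)) * (κ * r ^ 4) := by
          have : s ^ (2 * (C' : ℝ)) = s ^ (C' : ℝ) * s ^ (C' : ℝ) := by rw [← Real.rpow_add hs0]; congr 1; ring
          rw [this]; ring
      _ ≤ s ^ (3 * (C : ℝ) + D') * (κ * r ^ 4) := mul_le_mul_of_nonneg_right (anti hC) (by positivity)
      _ = s ^ (3 * (C : ℝ)) * (s ^ (D' : ℝ) * (κ * r ^ 4)) := by rw [Real.rpow_add hs0]; ring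
      _ ≤ s ^ (3 * (C : ℝ)) * e := mul_le_mul_of_nonneg_left a1 (pos _).le
      _ ≤ _ := h
  have a3 : s ^ (C' : ℝ) * r ^ 2 ≤ H / l0 :=
    (pow_le_pow_iff_left₀ (by have := pos (C' : ℝ); positivity) (div_nonneg hH hl.le) (by norm_num)).1 (le_of_mul_le_mul_left a2 hκ)
  rw [← div_div, le_div_iff₀ (by positivity)]
  exact a3


theorem rt_gr_pc_s {P : PkSys} (E : Xp P) (Ct : ℕ) (κ' : ℝ) (S : Set P.X) (Sl : Finset (Fin E.L)) : (rtGrPc E Ct κ' S Sl).s = E.s := by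
  show (2 : ℝ)⁻¹ ^ (E.k0 + E.n - E.k0) = (2 : ℝ)⁻¹ ^ E.n
  rw [Nat.add_sub_cancel_left]

/-- **L-256-RT-GR-P5** (300 l.)   **PATCH DATA**: assembly + numerics (all `s`-powers via `gn_s_rpow`; constants absorbed for `n ≥ n0`).      `P = s^-b0`, `fs = s^-D1 f`, `d = rtGrPd G c Lx p₀`, `E' = ` the piece, `E'.e = eb`, `E'.ka = Cr κ`, `E'.b0 = Ct`, `E'.s = E.s`.
`r_pos`; `f_lo` (`C' ≥ D'`); `disc`, `bd`, `chart`: `rt_gr_pat_geo` (`CB (2 + s^-b) ≤ s^-b0`);   `root`: `rt_gr_pat_root` (`Mb = CB (2 + kb) ≤ 3 CB s^(-1/2)`);   `e_hi`: `eb ≤ μ₀ S + s^(Ct+1) e` (`rt_gr_pc_eb`), `rt_gr_pat_mass`, `e ≤ s^-D' κ r⁴ ≤ s^(-2D') κ r⁴ fs^(1-η)`;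
`e_lo`: `eb ≥ s^(Ct+1) e ≥ s^(Ct+1+D') κ r⁴`, `Cr ≤ s^-1`;   `H_lo`: `hY.H_lo C A p E` + `r_hi`: `(H/ℓ₀)² ≥ s^(3C+D') r⁴`;   `lab_*`: `rt_gr_pat_lab`.      `C'0 = ⌈C6⌉ + 2D' + Ct + 3C + 3`.
A label exists: the witness `x₀` has tag `3 ≠ 0`, so `co x₀ ∈ Pre l` for some `l` (`rt_gr_key_tag`). -/
theorem rt_gr_patch (h0 : 0 < η) (h1 : η < 1) (Y : RtMd η) (hY : Y.Ok) (D D1 b0 : ℝ) (hD : 0 < D) (hD1 : D + 7 ≤ D1) (hb0 : 0 < b0) (C D' Ct : ℕ) (Cr : ℝ) (hCr : 1 ≤ Cr) :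
    ∃ C'0 : ℕ, ∀ C' : ℕ, C'0 ≤ C' → ∀ A' : ℕ, ∃ n0 : ℕ, ∀ (p : Y.M.Par) (E : Xp (Y.M.sys p)) (A : ℕ) (r f : ℝ), Y.M.Cls C A p E → RtGrU Y p E C D' r f → n0 ≤ E.n → f ≤ E.s ^ (D1 + 2 * b0 + 20) →
      ∀ (c : Fin 5 → ℤ) (Lx : Fin 6 → ℤ) (g : Fin 5 → ℤ) (x₀ : (Y.M.sys p).X), rtGrKey1 Y p E (rtGrStd Y p E r f D D1 b0) x₀ = (3, c, Lx) → rtGrKey2 Y p E (rtGrStd Y p E r f D D1 b0) x₀ = g →
      ∃ d : RtPd, d.f = f ∧ d.Ok Y p (rtGrPc E Ct (Cr * E.ka) (rtGrKey1 Y p E (rtGrStd Y p E r f D D1 b0) ⁻¹' {(3, c, Lx)} ∩ rtGrKey2 Y p E (rtGrStd Y p E r f D D1 b0) ⁻¹' {g})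
        ((rtGrStd Y p E r f D D1 b0).Sl (3, c, Lx))) C' A' D1 b0 := by
  obtain ⟨CB, hCB, Hgeo⟩ := rt_gr_pat_geo
  obtain ⟨C6, hC6, Hmass⟩ := rt_gr_pat_mass h0 h1 Y hY
  refine ⟨⌈C6⌉₊ + 2 * D' + Ct + 3 * C + 3, fun C' hC' A' => ?_⟩
  obtain ⟨n1, Hroot⟩ := rt_gr_pat_root Y hY C Ct A'
  obtain ⟨n2, Hn2⟩ := gn_absorb_poly 0 (156 * CB + Cr) (min b0 1 / 2) (by have := lt_min hb0 one_pos; linarith)
  refine ⟨max (max n1 n2) 2, fun p E A r f hCl hU hn hf c Lx g x₀ hk1 hk2 => ?_⟩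
  have hn1 : n1 ≤ E.n := ((le_max_left _ _).trans (le_max_left _ _)).trans hn
  have hn2 : n2 ≤ E.n := ((le_max_right _ _).trans (le_max_left _ _)).trans hn
  have hn3 : 2 ≤ E.n := (le_max_right _ _).trans hn
  have hC'r : ((⌈C6⌉₊ : ℕ) : ℝ) + 2 * D' + Ct + 3 * C + 3 ≤ C' := by exact_mod_cast hC'
  have hC6c : C6 ≤ ((⌈C6⌉₊ : ℕ) : ℝ) := Nat.le_ceil C6
  have hD'0 : (0 : ℝ) ≤ D' := Nat.cast_nonneg _
  have hCt0 : (0 : ℝ) ≤ Ct := Nat.cast_nonneg _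
  have hC0 : (0 : ℝ) ≤ C := Nat.cast_nonneg _
  have hs0 := gn_s_pos E
  have hs1 := gn_s_le_one E
  have hs4 : E.s ≤ 1 / 4 := by
    unfold Xp.s
    calc (2 : ℝ)⁻¹ ^ E.n ≤ (2 : ℝ)⁻¹ ^ 2 := pow_le_pow_of_le_one (by norm_num) (by norm_num) hn3
      _ = 1 / 4 := by norm_num
  have hK : 156 * CB + Cr ≤ E.s ^ (-(min b0 1 / 2)) := by
    have := Hn2 E.n hn2
    rw [gn_s_rpow]
    simpa using this
  have hf0 : 0 < f := lt_of_lt_of_le (Real.rpow_pos_of_pos hs0 _) hU.f_lo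
  have hκ := hU.vl.ka_pos
  have he := hU.vl.e_pos
  have hr := hU.r_pos
  have hT := hY.gen.tight p hU.gd
  obtain ⟨-, a2, a3, a4, a5, a6, a7, a8, a9⟩ := rt_gr_patch_num1 hs0 hs4 hb0 hD hD1 hf0 hf
  obtain ⟨b1, b2, b3, b4, b5, b6⟩ := rt_gr_patch_num2 (D1 := D1) hs0 hs4 hb0 (by linarith) hf0 hCB hCr hK
  have hGok := rt_gr_std_ok Y hY hU a4 D D1 b0 hb0
  obtain ⟨g1, g2, p₀, g3, g4⟩ := Hgeo _ hGok (E.s ^ (-b0)) (E.s ^ (-D1) * f) b1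
    (by show E.s ^ (-D1) * f / 100 ≤ 1 / 2; linarith) b2 a5 a7 a8 (Y.co p (rtGrT0 E) x₀) c Lx hk1
  obtain ⟨-, ⟨la, -, -⟩, -, -⟩ := rt_gr_key_grp _ _ 3 c Lx hk1 (Or.inr rfl)
  have hSm : MeasurableSet (rtGrKey1 Y p E (rtGrStd Y p E r f D D1 b0) ⁻¹' {(3, c, Lx)} ∩ rtGrKey2 Y p E (rtGrStd Y p E r f D D1 b0) ⁻¹' {g}) :=
    (rt_gr_meas_key (Y.co p (rtGrT0 E)) (hY.co_meas p hU.gd _) (rtGrStd Y p E r f D D1 b0) (3, c, Lx)).inter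
      (rt_gr_meas_fine (Y.co p (rtGrT0 E)) (hY.co_meas p hU.gd _) (rtGrStd Y p E r f D D1 b0) g)
  have hfs0 : 0 ≤ E.s ^ (-D1) * f := hf0.le.trans a2
  have hpt := fun x (hx : x ∈ rtGrKey1 Y p E (rtGrStd Y p E r f D D1 b0) ⁻¹' {(3, c, Lx)} ∩ rtGrKey2 Y p E (rtGrStd Y p E r f D D1 b0) ⁻¹' {g}) =>
    g4 (Y.co p (rtGrT0 E) x) hx.1 (Eq.trans hx.2 hk2.symm)
  obtain ⟨eb1, eb2, -⟩ := rt_gr_pc_eb hT E hU.vl Ct hSm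
  have hμ := Hmass p E C D' r f hU (by omega) la ((rtGrStd Y p E r f D D1 b0).frm c) ((rtGrStd Y p E r f D D1 b0).rep c Lx) (E.s ^ (-D1) * f) rfl g1
    (rt_chp_bd_mono b6 b4 g2) a2 a3 _ hSm (fun x hx => by
      obtain ⟨-, q2, q3, q4, q5, q6⟩ := hpt x hx
      exact ⟨q2.trans (by linarith), q3.trans (by linarith), q4, q5, q6⟩)
  obtain ⟨l1, l2, l3⟩ := rt_gr_pat_lab Y hY hU a4 D D1 b0 hb0 (E.s ^ (-D1) * f) a6 c Lx p₀ Ct (Cr * E.ka)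
    (rtGrKey1 Y p E (rtGrStd Y p E r f D D1 b0) ⁻¹' {(3, c, Lx)} ∩ rtGrKey2 Y p E (rtGrStd Y p E r f D D1 b0) ⁻¹' {g})
  have hs' : (rtGrPc E Ct (Cr * E.ka) (rtGrKey1 Y p E (rtGrStd Y p E r f D D1 b0) ⁻¹' {(3, c, Lx)} ∩ rtGrKey2 Y p E (rtGrStd Y p E r f D D1 b0) ⁻¹' {g})
      ((rtGrStd Y p E r f D D1 b0).Sl (3, c, Lx))).s = E.s := rt_gr_pc_s E _ _ _ _
  refine ⟨rtGrPd (rtGrStd Y p E r f D D1 b0) c Lx p₀, rfl, ⟨hr, ?_, g1, ?_, ?_, ?_, ?_, ?_, ?_, l1, l2, ?_⟩⟩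
  · rw [hs']
    exact (gn_s_anti E (by linarith)).trans hU.f_lo
  · rw [hs']
    exact rt_chp_bd_mono b6 b2 g2
  · rw [hs']
    exact g3
  · rw [hs']
    exact Hroot p E D' r f hU hn1 la (rtGrPd (rtGrStd Y p E r f D D1 b0) c Lx p₀) (E.s ^ (-b0)) _ (E.s ^ (-D1) * f) rfl (by linarith) b6 g2 a9 b3 _ hSm
      (fun x hx => by
        obtain ⟨q1, q2, q3, q4, q5, -⟩ := hpt x hx
        exact ⟨q1, q2, q3, q4, q5⟩)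
  · rw [hs']
    exact rt_gr_patch_ehi hs0 hs4 h0 h1 hκ hr hCr he hU.f_lo a2 eb2 hμ hU.r_lo (by linarith) (by linarith)
  · rw [hs']
    exact rt_gr_patch_elo hs0 hs1 hκ hr he b5 eb1 hU.r_hi (by linarith)
  · rw [hs']
    rcases hY.H_lo C A p E hCl with h | h
    · exact Or.inl h
    · exact Or.inr (rt_gr_patch_Hlo hs0 hs1 hκ hr (rdLen_pos E.k0) (hY.H_nn p) h hU.r_hi (by linarith))
  · rw [hs']
    exact l3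

end Claimed.Agent.R256
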