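-- KEEP
import Claimed.Agent.R256.Rt.Grp.Amb
import Claimed.Agent.R256.Rt.Grp.Pat

/-!
# Row 256 (LS paper), folder Rt, block GROUP, file Grp/Core : GROUP FOR UNIFORM EXPERIMENTS          (architect helper111; prefix `rt_gr_`)

**`rt_gr_core`**: a uniform free experiment (`RtGrU`) with `f ≤ s^Z0` is dominated by patch experiments.      GLUE PROVED (helper111); open: the three numerical leaves `L-256-RT-GR-N1..N3`.   Constants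
`D` (`rt_gr_amb`), `D1 = D + 7`, `C2 = 21` | `b0`: `b = min b0 1/2`, `ε = min (Γ b/8) (1/8)`, `c1 = min (Γ b/4) (1/4)`, `Z0 = D1 + 2 b0 + 20` | `C, D'`: `B0` (`rt_gr_J_card`), `Ct = max (C+1) (⌈10 b0⌉ + 2D' + 7)`, `Cr, C'pc` (`rt_gr_pc_cls`), `C'0` (`rt_gr_patch`),
`C' = max C'pc C'0` | `A'`: `A'' = max A' (A_rate, A_big)`, `N' = 2D' + 6`, `A = A_pc(A'')`, `n0`.
`rt_gr_dec_main` with `key = rtGrKey1`, `key2 = rtGrKey2`, `J = G.J`, `G2 = Icc 0 Ng`, `t3 j = (j.1 = 3)`, `V j = 2^((Γ+ε) n)` (tag 1; budget `≤ 2 s e` by `rt_gr_amb`), `Cq 2^((Γ(1-b)+ε) n)` (tag 2).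
-/

set_option autoImplicit false

namespace Claimed.Agent.R256

open MeasureTheory

variable {η : ℝ}

/-! ## numerics -/

/-- **L-256-RT-GR-N1** (60 l.)   the number of fine cells: `1/(ρ(P)/100) = 10⁵ P²`, `P = 2^(b0 n)`; `⌈x⌉₊ + 1 ≤ x + 2 ≤ (10⁵+2) 2^(2 b0 n)`; `(10⁵+2)^5 ≤ 10^26` -/
theorem rt_gr_num_Z (b0 : ℝ) (hb0 : 0 < b0) (n : ℕ) :
    (((⌈1 / (rtChRho (((2 : ℝ)⁻¹ ^ n) ^ (-b0)) / 100)⌉₊ + 1) ^ 5 : ℕ) : ℝ) ≤ 10 ^ 26 * 2 ^ (10 * b0 * n) := by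
  have hP : ((2 : ℝ)⁻¹ ^ n) ^ (-b0) = 2 ^ (b0 * n) := by
    rw [← Real.rpow_natCast, ← Real.rpow_mul (by norm_num), Real.inv_rpow (by norm_num), ← Real.rpow_neg (by norm_num)]
    congr 1
    ring
  obtain ⟨w, hw⟩ : ∃ w : ℝ, w = 2 ^ (2 * b0 * n) := ⟨_, rfl⟩
  have hw1 : 1 ≤ w := by
    rw [hw]
    exact Real.one_le_rpow (by norm_num) (by positivity)
  have hPw : ((2 : ℝ) ^ (b0 * n)) ^ 2 = w := by
    rw [hw, ← Real.rpow_natCast, gn_two_mul]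
    congr 1
    push_cast
    ring
  have hx : 1 / (rtChRho (((2 : ℝ)⁻¹ ^ n) ^ (-b0)) / 100) = 10 ^ 5 * w := by
    unfold rtChRho
    rw [hP, hPw]
    have : w ≠ 0 := by linarith
    field_simp
    norm_num
  rw [hx]
  have h1 : ((⌈10 ^ 5 * w⌉₊ : ℕ) : ℝ) + 1 ≤ (10 ^ 5 + 2) * w := by
    have := (Nat.ceil_lt_add_one (show (0 : ℝ) ≤ 10 ^ 5 * w by positivity)).le
    linarith
  have hw5 : w ^ 5 = 2 ^ (10 * b0 * n) := by
    rw [hw, ← Real.rpow_natCast, gn_two_mul]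
    congr 1
    push_cast
    ring
  push_cast
  calc (((⌈10 ^ 5 * w⌉₊ : ℕ) : ℝ) + 1) ^ 5 ≤ ((10 ^ 5 + 2) * w) ^ 5 := pow_le_pow_left₀ (by positivity) h1 5
    _ = (10 ^ 5 + 2) ^ 5 * w ^ 5 := by rw [mul_pow]
    _ ≤ 10 ^ 26 * w ^ 5 := mul_le_mul_of_nonneg_right (by norm_num) (by positivity)
    _ = _ := by rw [hw5]

/-- **L-256-RT-GR-N2** (100 l.)   the loss of the patches and the number of pieces (`gn_absorb` for the constants; `((2⁻¹)^n)^y = 2^(-(y n))`; second: exponent `5 + 2D' + 10 b0 - Ct - 1 ≤ -3`) -/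
theorem rt_gr_num_a (b0 : ℝ) (hb0 : 0 < b0) (B0 D' Ct : ℕ) (Cr : ℝ) (hCr : 1 ≤ Cr) (hCt : ⌈10 * b0⌉₊ + 2 * D' + 7 ≤ Ct) :
    ∃ n0 : ℕ, ∀ n : ℕ, n0 ≤ n → ∀ Z : ℝ, 0 ≤ Z → Z ≤ 10 ^ 26 * 2 ^ (10 * b0 * n) →
      ((B0 : ℝ) + 1) ^ 2 * (Real.sqrt Cr * (2 * Z ^ 2)) ≤ 2 ^ (21 * b0 * n) ∧
      32 * ((2 : ℝ)⁻¹ ^ n) ^ (-(5 + 2 * (D' : ℝ))) * B0 * Z * ((2 : ℝ)⁻¹ ^ n) ^ ((Ct : ℝ) + 1) ≤ 1 := by
  have hpw : ∀ (n : ℕ) (y : ℝ), ((2 : ℝ)⁻¹ ^ n) ^ y = 2 ^ (-(y * n)) := by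
    intro n y
    rw [← Real.rpow_natCast, ← Real.rpow_mul (by norm_num), Real.inv_rpow (by norm_num), ← Real.rpow_neg (by norm_num)]
    congr 1
    ring
  obtain ⟨n1, hn1⟩ := gn_absorb (((B0 : ℝ) + 1) ^ 2 * (Real.sqrt Cr * (2 * (10 ^ 26) ^ 2))) b0 hb0
  obtain ⟨n2, hn2⟩ := gn_absorb (32 * (B0 : ℝ) * 10 ^ 26) 3 (by norm_num)
  refine ⟨max n1 n2, fun n hn Z hZ0 hZ => ⟨?_, ?_⟩⟩
  · have h1 := hn1 n (le_trans (le_max_left _ _) hn)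
    have h2 : Z ^ 2 ≤ (10 ^ 26) ^ 2 * 2 ^ (20 * b0 * n) := by
      calc Z ^ 2 ≤ (10 ^ 26 * 2 ^ (10 * b0 * n)) ^ 2 := pow_le_pow_left₀ hZ0 hZ 2
        _ = (10 ^ 26) ^ 2 * ((2 : ℝ) ^ (10 * b0 * n)) ^ 2 := by rw [mul_pow]
        _ = _ := by
          rw [← Real.rpow_natCast ((2 : ℝ) ^ (10 * b0 * n)), gn_two_mul]
          congr 2
          push_cast
          ring
    have hs : 0 ≤ Real.sqrt Cr := Real.sqrt_nonneg _
    calc ((B0 : ℝ) + 1) ^ 2 * (Real.sqrt Cr * (2 * Z ^ 2))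
        ≤ ((B0 : ℝ) + 1) ^ 2 * (Real.sqrt Cr * (2 * ((10 ^ 26) ^ 2 * 2 ^ (20 * b0 * n)))) := by gcongr
      _ = (((B0 : ℝ) + 1) ^ 2 * (Real.sqrt Cr * (2 * (10 ^ 26) ^ 2))) * 2 ^ (20 * b0 * n) := by ring
      _ ≤ 2 ^ (b0 * n) * 2 ^ (20 * b0 * n) := mul_le_mul_of_nonneg_right h1 (gn_two_pos _).le
      _ = _ := by
        rw [← gn_two_add]
        congr 1
        ring
  · have h1 := hn2 n (le_trans (le_max_right _ _) hn)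
    rw [hpw, hpw]
    have hc : 10 * b0 + 2 * (D' : ℝ) + 7 ≤ Ct := by
      have a1 : 10 * b0 ≤ (⌈10 * b0⌉₊ : ℝ) := Nat.le_ceil _
      have a2 : ((⌈10 * b0⌉₊ + 2 * D' + 7 : ℕ) : ℝ) ≤ (Ct : ℝ) := Nat.cast_le.2 hCt
      push_cast at a2
      linarith
    have hn0 : (0 : ℝ) ≤ n := Nat.cast_nonneg _
    have hB : (0 : ℝ) ≤ B0 := Nat.cast_nonneg _
    calc 32 * (2 : ℝ) ^ (-(-(5 + 2 * (D' : ℝ)) * n)) * B0 * Z * 2 ^ (-(((Ct : ℝ) + 1) * n))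
        ≤ 32 * (2 : ℝ) ^ (-(-(5 + 2 * (D' : ℝ)) * n)) * B0 * (10 ^ 26 * 2 ^ (10 * b0 * n)) * 2 ^ (-(((Ct : ℝ) + 1) * n)) := by
          have := gn_two_pos (-(-(5 + 2 * (D' : ℝ)) * n))
          have := gn_two_pos (-(((Ct : ℝ) + 1) * n))
          gcongr
      _ = (32 * (B0 : ℝ) * 10 ^ 26) * (2 ^ (-(-(5 + 2 * (D' : ℝ)) * n)) * 2 ^ (10 * b0 * n) * 2 ^ (-(((Ct : ℝ) + 1) * n))) := by ring
      _ = (32 * (B0 : ℝ) * 10 ^ 26) * 2 ^ (-(-(5 + 2 * (D' : ℝ)) * n) + 10 * b0 * n + -(((Ct : ℝ) + 1) * n)) := by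
          rw [gn_two_add, gn_two_add]
      _ ≤ (32 * (B0 : ℝ) * 10 ^ 26) * 2 ^ (-(3 * n : ℝ)) := by
          refine mul_le_mul_of_nonneg_left (gn_two_mono ?_) (by positivity)
          nlinarith
      _ ≤ 2 ^ (3 * (n : ℝ)) * 2 ^ (-(3 * n : ℝ)) := mul_le_mul_of_nonneg_right h1 (gn_two_pos _).le
      _ = 1 := by
          rw [← gn_two_add]
          simp

/-- **L-256-RT-GR-N3** (120 l.)   the parts that lose a power: exponents `Γ + ε - 1`, `Γ(1-b) + ε`, `-3` are below `Γ - c1` by the margin `min (5Γb/8) (5/8)`; constants by `gn_absorb` -/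
theorem rt_gr_num_b (Γ b : ℝ) (hΓ : 0 < Γ) (hb : 0 < b) (hb1 : b ≤ 1 / 2) (B0 : ℕ) (Cr Cq : ℝ) (hCr : 1 ≤ Cr) (hCq : 0 < Cq) :
    ∃ n0 : ℕ, ∀ n : ℕ, n0 ≤ n →
      ((B0 : ℝ) + 1) ^ 2 * (Real.sqrt Cr * (2 * (2 : ℝ)⁻¹ ^ n * 2 ^ ((Γ + min (Γ * b / 8) (1 / 8)) * n) + 2 * (Cq * 2 ^ ((Γ * (1 - b) + min (Γ * b / 8) (1 / 8)) * n)))
        + 200 * ((2 : ℝ)⁻¹ ^ n) ^ (3 : ℝ)) ≤ 2 ^ ((Γ - min (Γ * b / 4) (1 / 4)) * n) := by
  obtain ⟨ε, hε⟩ : ∃ ε : ℝ, ε = min (Γ * b / 8) (1 / 8) := ⟨_, rfl⟩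
  obtain ⟨c1, hc1⟩ : ∃ c1 : ℝ, c1 = min (Γ * b / 4) (1 / 4) := ⟨_, rfl⟩
  obtain ⟨δ, hδ⟩ : ∃ δ : ℝ, δ = min (5 * (Γ * b) / 8) (5 / 8) := ⟨_, rfl⟩
  have hΓb : 0 < Γ * b := mul_pos hΓ hb
  have hδ0 : 0 < δ := by
    rw [hδ]
    exact lt_min (by positivity) (by norm_num)
  have e1 : ε ≤ Γ * b / 8 := by rw [hε]; exact min_le_left _ _
  have e2 : ε ≤ 1 / 8 := by rw [hε]; exact min_le_right _ _
  have c2 : c1 ≤ Γ * b / 4 := by rw [hc1]; exact min_le_left _ _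
  have c3 : c1 ≤ 1 / 4 := by rw [hc1]; exact min_le_right _ _
  have d1 : δ ≤ 5 * (Γ * b) / 8 := by rw [hδ]; exact min_le_left _ _
  have d2 : δ ≤ 5 / 8 := by rw [hδ]; exact min_le_right _ _
  obtain ⟨n0, hn0⟩ := gn_absorb (((B0 : ℝ) + 1) ^ 2 * (Real.sqrt Cr * (2 + 2 * Cq) + 200)) δ hδ0
  refine ⟨n0, fun n hn => ?_⟩
  rw [← hε, ← hc1]
  have hK := hn0 n hn
  have hn' : (0 : ℝ) ≤ n := Nat.cast_nonneg _
  have i1 : (2 : ℝ)⁻¹ ^ n = 2 ^ (-(n : ℝ)) := by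
    rw [gn_two_neg, gn_two_nat, inv_pow]
  obtain ⟨X, hX⟩ : ∃ X : ℝ, X = 2 ^ ((Γ - c1 - δ) * n) := ⟨_, rfl⟩
  have hX0 : 0 < X := by rw [hX]; exact gn_two_pos _
  have t1 : (2 : ℝ)⁻¹ ^ n * 2 ^ ((Γ + ε) * n) ≤ X := by
    rw [i1, ← gn_two_add, hX]
    refine gn_two_mono ?_
    nlinarith
  have t2 : (2 : ℝ) ^ ((Γ * (1 - b) + ε) * n) ≤ X := by
    rw [hX]
    refine gn_two_mono ?_
    refine mul_le_mul_of_nonneg_right ?_ hn'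
    linarith
  have t3 : ((2 : ℝ)⁻¹ ^ n) ^ (3 : ℝ) ≤ X := by
    rw [i1, gn_two_mul, hX]
    refine gn_two_mono ?_
    nlinarith
  have hs : 0 ≤ Real.sqrt Cr := Real.sqrt_nonneg _
  have hB : (0 : ℝ) ≤ ((B0 : ℝ) + 1) ^ 2 := sq_nonneg _
  have s1 : 2 * (2 : ℝ)⁻¹ ^ n * 2 ^ ((Γ + ε) * n) + 2 * (Cq * 2 ^ ((Γ * (1 - b) + ε) * n)) ≤ (2 + 2 * Cq) * X := by
    have := mul_le_mul_of_nonneg_left t2 hCq.le
    nlinarith
  calc ((B0 : ℝ) + 1) ^ 2 * (Real.sqrt Cr * (2 * (2 : ℝ)⁻¹ ^ n * 2 ^ ((Γ + ε) * n) + 2 * (Cq * 2 ^ ((Γ * (1 - b) + ε) * n))) + 200 * ((2 : ℝ)⁻¹ ^ n) ^ (3 : ℝ))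
      ≤ ((B0 : ℝ) + 1) ^ 2 * (Real.sqrt Cr * ((2 + 2 * Cq) * X) + 200 * X) := by
        refine mul_le_mul_of_nonneg_left ?_ hB
        exact add_le_add (mul_le_mul_of_nonneg_left s1 hs) (mul_le_mul_of_nonneg_left t3 (by norm_num))
    _ = (((B0 : ℝ) + 1) ^ 2 * (Real.sqrt Cr * (2 + 2 * Cq) + 200)) * X := by ring
    _ ≤ 2 ^ (δ * n) * X := mul_le_mul_of_nonneg_right hK hX0.le
    _ = 2 ^ ((Γ - c1) * n) := by
        rw [hX, ← gn_two_add]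
        congr 1
        ring

/-- the last step -/
theorem rt_gr_core_fin (v a q Sg Zr X Jz err s V1 V2 R1 R2 : ℝ) (ha : 0 ≤ a) (hq : 0 ≤ q) (hX : 0 ≤ X) (hZ : 0 ≤ Zr)
    (h : v ≤ a * (q * (Sg + Zr ^ 2 * X * (1 + Jz)) + err)) (hSg : Sg ≤ 2 * s * V1 + 2 * V2) (hJ : Jz ≤ 1) (herr : err ≤ 200 * s ^ (3 : ℝ))
    (hA : a * (q * (2 * Zr ^ 2)) ≤ R1) (hB : a * (q * (2 * s * V1 + 2 * V2) + 200 * s ^ (3 : ℝ)) ≤ R2) : v ≤ R1 * X + R2 := by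
  have h1 : Zr ^ 2 * X * (1 + Jz) ≤ Zr ^ 2 * X * 2 := mul_le_mul_of_nonneg_left (by linarith) (by positivity)
  have h2 : q * (Sg + Zr ^ 2 * X * (1 + Jz)) + err ≤ q * (2 * s * V1 + 2 * V2 + Zr ^ 2 * X * 2) + 200 * s ^ (3 : ℝ) :=
    add_le_add (mul_le_mul_of_nonneg_left (add_le_add hSg h1) hq) herr
  have h3 := mul_le_mul_of_nonneg_left h2 ha
  have h4 : a * (q * (2 * s * V1 + 2 * V2 + Zr ^ 2 * X * 2) + 200 * s ^ (3 : ℝ))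
      = a * (q * (2 * Zr ^ 2)) * X + a * (q * (2 * s * V1 + 2 * V2) + 200 * s ^ (3 : ℝ)) := by ring
  have h5 := mul_le_mul_of_nonneg_right hA hX
  linarith


/-- the budgets of the pieces that are not patches -/
theorem rt_gr_core_sum {P : PkSys} (hT : P.Tight) (E : Xp P) (hE : E.Valid) (Ct : ℕ) {K : Type} [DecidableEq K] (key : P.X → K) (hkey : ∀ j, MeasurableSet (key ⁻¹' {j}))
    (F : Finset K) (a : K) (V1 V2 : ℝ) (hV1 : 0 ≤ V1) (hV2 : 0 ≤ V2) (hamb : rtGrMu E (key ⁻¹' {a}) ≤ E.s * E.e) (hF : (F.card : ℝ) * E.s ^ ((Ct : ℝ) + 1) ≤ 1) :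
    ∑ j ∈ F, E.eb Ct (rtGrRm E (key ⁻¹' {j})) / E.e * (if j = a then V1 else V2) ≤ 2 * E.s * V1 + 2 * V2 := by
  have he := hE.e_pos
  have hs0 := gn_s_pos E
  have hs1 := gn_s_le_one E
  have hσ : E.s ^ ((Ct : ℝ) + 1) ≤ E.s := by
    calc E.s ^ ((Ct : ℝ) + 1) ≤ E.s ^ (1 : ℝ) := gn_s_anti E (by have : (0 : ℝ) ≤ Ct := Nat.cast_nonneg _; linarith)
      _ = E.s := Real.rpow_one _
  have hσ0 : 0 < E.s ^ ((Ct : ℝ) + 1) := Real.rpow_pos_of_pos hs0 _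
  have heb : ∀ j, 0 ≤ E.eb Ct (rtGrRm E (key ⁻¹' {j})) / E.e := fun j =>
    div_nonneg (le_trans (by positivity) (rt_gr_pc_eb hT E hE Ct (hkey j)).1) he.le
  have h1 : ∀ j ∈ F, E.eb Ct (rtGrRm E (key ⁻¹' {j})) / E.e * (if j = a then V1 else V2)
      ≤ (if j = a then E.eb Ct (rtGrRm E (key ⁻¹' {a})) / E.e * V1 else 0) + E.eb Ct (rtGrRm E (key ⁻¹' {j})) / E.e * V2 := by
    intro j _
    by_cases hj : j = a
    · subst hj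
      simp only [if_true]
      have := mul_nonneg (heb j) hV2
      linarith
    · simp only [hj, if_false]
      linarith
  have h2 : ∑ j ∈ F, (if j = a then E.eb Ct (rtGrRm E (key ⁻¹' {a})) / E.e * V1 else 0) ≤ E.eb Ct (rtGrRm E (key ⁻¹' {a})) / E.e * V1 := by
    rw [Finset.sum_ite_eq']
    split_ifs
    · exact le_rfl
    · exact mul_nonneg (heb a) hV1
  have h3 : E.eb Ct (rtGrRm E (key ⁻¹' {a})) / E.e ≤ 2 * E.s := by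
    rw [div_le_iff₀ he]
    have := (rt_gr_pc_eb hT E hE Ct (hkey a)).2.1
    nlinarith
  have h4 : ∑ j ∈ F, E.eb Ct (rtGrRm E (key ⁻¹' {j})) / E.e ≤ 2 := by
    rw [← Finset.sum_div, div_le_iff₀ he]
    have a1 : ∑ j ∈ F, E.eb Ct (rtGrRm E (key ⁻¹' {j})) ≤ ∑ j ∈ F, (rtGrMu E (key ⁻¹' {j}) + E.s ^ ((Ct : ℝ) + 1) * E.e) :=
      Finset.sum_le_sum fun j _ => (rt_gr_pc_eb hT E hE Ct (hkey j)).2.1
    have a2 : ∑ j ∈ F, rtGrMu E (key ⁻¹' {j}) ≤ E.e := by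
      refine rt_gr_mu_sum hT E hE F _ (fun j _ => hkey j) (fun i _ i' _ hne => ?_)
      rw [Set.disjoint_left]
      intro x hx hx'
      exact hne (hx.symm.trans hx')
    rw [Finset.sum_add_distrib, Finset.sum_const, nsmul_eq_mul] at a1
    nlinarith
  calc ∑ j ∈ F, E.eb Ct (rtGrRm E (key ⁻¹' {j})) / E.e * (if j = a then V1 else V2)
      ≤ ∑ j ∈ F, ((if j = a then E.eb Ct (rtGrRm E (key ⁻¹' {a})) / E.e * V1 else 0) + E.eb Ct (rtGrRm E (key ⁻¹' {j})) / E.e * V2) := Finset.sum_le_sum h1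
    _ = ∑ j ∈ F, (if j = a then E.eb Ct (rtGrRm E (key ⁻¹' {a})) / E.e * V1 else 0) + (∑ j ∈ F, E.eb Ct (rtGrRm E (key ⁻¹' {j})) / E.e) * V2 := by
        rw [Finset.sum_add_distrib, Finset.sum_mul]
    _ ≤ 2 * E.s * V1 + 2 * V2 := by
        have b1 := mul_le_mul_of_nonneg_right h3 hV1
        have b2 := mul_le_mul_of_nonneg_right h4 hV2
        linarith


/-- **GROUP for uniform experiments** -/
theorem rt_gr_core (h0 : 0 < η) (h1 : η < 1) (Y : RtMd η) (hY : Y.Ok) (Γ : ℝ) (hΓ0 : 0 < Γ) (hΓ : Y.M.Rate Γ) :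
    ∃ D1 C2 : ℝ, 1 ≤ D1 ∧ 0 < C2 ∧ ∀ b0 : ℝ, 0 < b0 → ∃ c1 Z0 : ℝ, 0 < c1 ∧ c1 ≤ Γ / 2 ∧ ∀ C D' : ℕ, ∃ C' : ℕ, ∀ A' : ℕ, ∃ A n0 : ℕ,
      ∀ (p : Y.M.Par) (E : Xp (Y.M.sys p)) (r f X : ℝ), n0 ≤ E.n → Y.M.Cls C A p E → RtGrU Y p E C D' r f → f ≤ E.s ^ Z0 → 0 ≤ X →
        (∀ (E' : Xp (Y.M.sys p)) (d : RtPd), E'.n = E.n → Y.M.Cls C' A' p E' → E'.st = [] → d.Ok Y p E' C' A' D1 b0 → d.f = f → E'.val ≤ X) →
        E.val ≤ 2 ^ (C2 * b0 * E.n) * X + 2 ^ ((Γ - c1) * E.n) := by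
  classical
  obtain ⟨D, hD, Hamb⟩ := rt_gr_amb h0 h1 Y hY
  obtain ⟨B0, HB0⟩ := rt_gr_J_card
  refine ⟨D + 7, 21, by linarith, by norm_num, fun b0 hb0 => ?_⟩
  obtain ⟨b, hbdef⟩ : ∃ b : ℝ, b = min b0 1 / 2 := ⟨_, rfl⟩
  have hb : 0 < b := by rw [hbdef]; have := lt_min hb0 one_pos; linarith
  have hb1 : b ≤ 1 / 2 := by rw [hbdef]; have := min_le_right b0 1; linarith
  obtain ⟨ε, hεdef⟩ : ∃ ε : ℝ, ε = min (Γ * b / 8) (1 / 8) := ⟨_, rfl⟩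
  have hε : 0 < ε := by rw [hεdef]; exact lt_min (by positivity) (by norm_num)
  refine ⟨min (Γ * b / 4) (1 / 4), D + 7 + 2 * b0 + 20, lt_min (by positivity) (by norm_num), ?_, fun C D' => ?_⟩
  · refine (min_le_left _ _).trans ?_
    nlinarith
  obtain ⟨Ct, hCtdef⟩ : ∃ Ct : ℕ, Ct = max (C + 1) (⌈10 * b0⌉₊ + 2 * D' + 7) := ⟨_, rfl⟩
  have hCt1 : C + 1 ≤ Ct := by rw [hCtdef]; exact le_max_left _ _
  have hCt2 : ⌈10 * b0⌉₊ + 2 * D' + 7 ≤ Ct := by rw [hCtdef]; exact le_max_right _ _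
  obtain ⟨Cr, hCr, Cpc, Hpc⟩ := rt_gr_pc_cls Y.M hY.gen C Ct hCt1
  obtain ⟨C0, Hpat⟩ := rt_gr_patch h0 h1 Y hY D (D + 7) b0 hD le_rfl hb0 C D' Ct Cr hCr
  refine ⟨max Cpc C0, fun A' => ?_⟩
  obtain ⟨Ar, nr, Hr⟩ := hΓ Cpc ε hε
  obtain ⟨Cq, Ab, nb, hCq, Hbig⟩ := rt_gr_big Y hY Γ hΓ0 hΓ Cpc ε hε
  obtain ⟨Apc, npc, Hpc⟩ := Hpc (max A' (max Ar Ab))
  obtain ⟨npat, Hpat⟩ := Hpat (max Cpc C0) (le_max_right _ _) A'
  obtain ⟨nfar, Hfar⟩ := rt_gr_std_far Y hY C (2 * D' + 6)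
  obtain ⟨namb, Hamb⟩ := Hamb C D'
  obtain ⟨na, Hna⟩ := rt_gr_num_a b0 hb0 B0 D' Ct Cr hCr hCt2
  obtain ⟨nbb, Hnb⟩ := rt_gr_num_b Γ b hΓ0 hb hb1 B0 Cr Cq hCr hCq
  refine ⟨Apc, max (max (max nr nb) (max npc npat)) (max (max nfar namb) (max (max na nbb) 1)), fun p E r f X hn hE hU hf hX hyp => ?_⟩
  have hnr : nr ≤ E.n := (((le_max_left _ _).trans (le_max_left _ _)).trans (le_max_left _ _)).trans hn
  have hnb : nb ≤ E.n := (((le_max_right _ _).trans (le_max_left _ _)).trans (le_max_left _ _)).trans hn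
  have hnpc : npc ≤ E.n := (((le_max_left _ _).trans (le_max_right _ _)).trans (le_max_left _ _)).trans hn
  have hnpat : npat ≤ E.n := (((le_max_right _ _).trans (le_max_right _ _)).trans (le_max_left _ _)).trans hn
  have hnfar : nfar ≤ E.n := (((le_max_left _ _).trans (le_max_left _ _)).trans (le_max_right _ _)).trans hn
  have hnamb : namb ≤ E.n := (((le_max_right _ _).trans (le_max_left _ _)).trans (le_max_right _ _)).trans hn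
  have hna : na ≤ E.n := ((((le_max_left _ _).trans (le_max_left _ _)).trans (le_max_right _ _)).trans (le_max_right _ _)).trans hn
  have hnbb : nbb ≤ E.n := ((((le_max_right _ _).trans (le_max_left _ _)).trans (le_max_right _ _)).trans (le_max_right _ _)).trans hn
  have hn1 : 1 ≤ E.n := (((le_max_right _ _).trans (le_max_right _ _)).trans (le_max_right _ _)).trans hn
  have hgd := hU.gd
  have hV := hU.vl
  have hT := hY.gen.tight p hgd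
  have hs0 := gn_s_pos E
  have hs1 := gn_s_le_one E
  have hS := hY.gen.scale
  -- sizes of `f`
  have hfs : ∀ z : ℝ, z ≤ D + 7 + 2 * b0 + 20 → f ≤ E.s ^ z := fun z hz => hf.trans (gn_s_anti E hz)
  have hf_s : f ≤ E.s := by simpa using hfs 1 (by linarith)
  have hf_1 : f ≤ 1 := hf_s.trans hs1
  -- the geometry
  obtain ⟨G, hGdef⟩ : ∃ G : RtGrG, G = rtGrStd Y p E r f D (D + 7) b0 := ⟨_, rfl⟩
  have hGok : (rtGrStd Y p E r f D (D + 7) b0).Ok := rt_gr_std_ok Y hY hU hf_1 D (D + 7) b0 hb0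
  have hKa : (rtGrStd Y p E r f D (D + 7) b0).Ka ≤ (rtGrStd Y p E r f D (D + 7) b0).h := by
    show E.s ^ (-D) * f ≤ E.s ^ (-(D + 7)) * f / 100
    have e1 : E.s ^ (-(D + 7)) = E.s ^ (-D) * E.s ^ (-7 : ℝ) := by
      rw [← Real.rpow_add hs0]
      congr 1
      ring
    have e2 : (100 : ℝ) ≤ E.s ^ (-7 : ℝ) := by
      rw [gn_s_rpow]
      have : (7 : ℝ) ≤ -(-7 * (E.n : ℝ)) := by
        have : (1 : ℝ) ≤ E.n := by exact_mod_cast hn1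
        linarith
      calc (100 : ℝ) ≤ 2 ^ (7 : ℝ) := by norm_num
        _ ≤ _ := Real.rpow_le_rpow_of_exponent_le (by norm_num) this
    have e3 : 0 < E.s ^ (-D) := Real.rpow_pos_of_pos hs0 _
    have e4 : 0 ≤ f := le_trans (Real.rpow_nonneg hs0.le _) hU.f_lo
    rw [e1, le_div_iff₀ (by norm_num)]
    have : 0 ≤ E.s ^ (-D) * f := by positivity
    nlinarith
  have hJ := HB0 _ hGok hKa
  have hco := hY.co_meas p hgd (rtGrT0 E)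
  have hk1 : ∀ j, MeasurableSet (rtGrKey1 Y p E (rtGrStd Y p E r f D (D + 7) b0) ⁻¹' {j}) := fun j => rt_gr_meas_key _ hco _ j
  have hk2 : ∀ g, MeasurableSet (rtGrKey2 Y p E (rtGrStd Y p E r f D (D + 7) b0) ⁻¹' {g}) := fun g => rt_gr_meas_fine _ hco _ g
  have hpcls : ∀ (S : Set (Y.M.sys p).X) (Sl : Finset (Fin E.L)), MeasurableSet S → Y.M.Cls Cpc (max A' (max Ar Ab)) p (rtGrPc E Ct (Cr * E.ka) S Sl) :=
    fun S Sl hS => Hpc p E hnpc hE hU.free S Sl hS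
  have hpn : ∀ (S : Set (Y.M.sys p).X) (Sl : Finset (Fin E.L)), (rtGrPc E Ct (Cr * E.ka) S Sl).n = E.n := by
    intro S Sl
    show E.kf - E.k0 = E.n
    unfold Xp.kf
    omega
  obtain ⟨Ng, hNg⟩ : ∃ Ng : ℕ, Ng = ⌈1 / (rtGrStd Y p E r f D (D + 7) b0).hg⌉₊ := ⟨_, rfl⟩
  have hG2 : ∀ x, rtGrKey2 Y p E (rtGrStd Y p E r f D (D + 7) b0) x ∈ Finset.Icc (0 : Fin 5 → ℤ) (fun _ => (Ng : ℤ)) :=
    fun x => rt_gr_fine_box _ hGok Ng (by rw [hNg]; exact Nat.le_ceil _) _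
  have hse : 0 ≤ E.s ^ ((2 * D' + 6 : ℕ) : ℝ) * E.e := mul_nonneg (Real.rpow_nonneg hs0.le _) hV.e_pos.le
  have hfar : ∀ l : Fin E.L, rtGrMl E l (rtGrRm E {x | rtGrKey1 Y p E (rtGrStd Y p E r f D (D + 7) b0) x ∉ (rtGrStd Y p E r f D (D + 7) b0).J l})
      ≤ Real.sqrt (E.s ^ ((2 * D' + 6 : ℕ) : ℝ) * E.e) ^ 2 := by
    intro l
    rw [Real.sq_sqrt hse]
    exact Hfar p E D' r f hU hnfar hf_s D (D + 7) b0 hb0 le_rfl l
  have hSl : ∀ (j : RtGrK) (l : Fin E.L), l ∈ (rtGrStd Y p E r f D (D + 7) b0).Sl j ↔ j ∈ (rtGrStd Y p E r f D (D + 7) b0).J l := fun j l =>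
    (rt_gr_mem_Sl (rtGrStd Y p E r f D (D + 7) b0) j l).trans (rt_gr_mem_J (rtGrStd Y p E r f D (D + 7) b0) l (hJ l).1 j).symm
  have hV1 : (0 : ℝ) ≤ 2 ^ ((Γ + ε) * E.n) := by positivity
  have hV2 : (0 : ℝ) ≤ Cq * 2 ^ ((Γ * (1 - b) + ε) * E.n) := by positivity
  obtain ⟨key1, hkey1⟩ : ∃ k : (Y.M.sys p).X → RtGrK, k = rtGrKey1 Y p E (rtGrStd Y p E r f D (D + 7) b0) := ⟨_, rfl⟩
  obtain ⟨key2, hkey2⟩ : ∃ k : (Y.M.sys p).X → Fin 5 → ℤ, k = rtGrKey2 Y p E (rtGrStd Y p E r f D (D + 7) b0) := ⟨_, rfl⟩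
  obtain ⟨Jf, hJf⟩ : ∃ J : Fin E.L → Finset RtGrK, J = (rtGrStd Y p E r f D (D + 7) b0).J := ⟨_, rfl⟩
  obtain ⟨Slf, hSlf⟩ : ∃ S : RtGrK → Finset (Fin E.L), S = (rtGrStd Y p E r f D (D + 7) b0).Sl := ⟨_, rfl⟩
  rw [← hkey1] at hk1
  rw [← hkey2] at hk2 hG2
  rw [← hkey1, ← hJf] at hfar
  rw [← hSlf, ← hJf] at hSl
  have hJc : ∀ l, (Jf l).card ≤ B0 := by rw [hJf]; exact fun l => (hJ l).2
  have main := rt_gr_dec_main hT E hV hU.free key1 hk1 key2 hk2 Jf B0 hJc (Finset.Icc (0 : Fin 5 → ℤ) (fun _ => (Ng : ℤ))) hG2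
    (Real.sqrt (E.s ^ ((2 * D' + 6 : ℕ) : ℝ) * E.e)) (Real.sqrt_nonneg _) hfar
    (fun j => j.1 = 3) Ct (Cr * E.ka) Slf hSl (fun S j hS => (hpcls S _ hS).2.1)
    (fun j => if j = (1, 0, 0) then 2 ^ ((Γ + ε) * E.n) else Cq * 2 ^ ((Γ * (1 - b) + ε) * E.n)) X hX ?_ ?_
  · -- the last step
    have hκ := hV.ka_pos
    have hq : Real.sqrt (Cr * E.ka / E.ka) = Real.sqrt Cr := by
      congr 1
      field_simp
    rw [hq] at main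
    have hZc : ((Finset.Icc (0 : Fin 5 → ℤ) (fun _ => (Ng : ℤ))).card : ℝ) ≤ 10 ^ 26 * 2 ^ (10 * b0 * E.n) := by
      rw [rt_gr_fine_card, hNg]
      exact rt_gr_num_Z b0 hb0 E.n
    have hZ1 : (1 : ℝ) ≤ ((Finset.Icc (0 : Fin 5 → ℤ) (fun _ => (Ng : ℤ))).card : ℝ) := by
      rw [rt_gr_fine_card]
      exact_mod_cast Nat.one_le_pow _ _ (Nat.succ_pos _)
    obtain ⟨hA, hC⟩ := Hna E.n hna _ (by positivity) hZc
    have hσ0 : 0 < E.s ^ ((Ct : ℝ) + 1) := Real.rpow_pos_of_pos hs0 _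
    have hcard : ((Finset.univ.biUnion Jf).card : ℝ) ≤ 32 * E.s ^ (-(5 + 2 * (D' : ℝ))) * B0 := by
      have c1 : (Finset.univ.biUnion Jf).card ≤ ∑ l : Fin E.L, (Jf l).card := Finset.card_biUnion_le
      have c2 : ∑ l : Fin E.L, (Jf l).card ≤ E.L * B0 := by
        refine (Finset.sum_le_card_nsmul _ _ B0 (fun l _ => hJc l)).trans ?_
        simp
      have c3 : ((Finset.univ.biUnion Jf).card : ℝ) ≤ (E.L : ℝ) * B0 := by exact_mod_cast c1.trans c2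
      exact c3.trans (mul_le_mul_of_nonneg_right (rt_gr_count Y hY h0 h1 hU).2 (Nat.cast_nonneg _))
    have hJz : ((Finset.univ.biUnion Jf).card : ℝ) * (Finset.Icc (0 : Fin 5 → ℤ) (fun _ => (Ng : ℤ))).card * E.s ^ ((Ct : ℝ) + 1) ≤ 1 := by
      refine le_trans ?_ hC
      exact mul_le_mul_of_nonneg_right (mul_le_mul_of_nonneg_right hcard (by positivity)) hσ0.le
    have hF : (((Finset.univ.biUnion Jf).filter (fun j => ¬ j.1 = 3)).card : ℝ) * E.s ^ ((Ct : ℝ) + 1) ≤ 1 := by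
      refine le_trans ?_ hJz
      refine mul_le_mul_of_nonneg_right ?_ hσ0.le
      have : (((Finset.univ.biUnion Jf).filter (fun j => ¬ j.1 = 3)).card : ℝ) ≤ ((Finset.univ.biUnion Jf).card : ℝ) := by
        exact_mod_cast Finset.card_filter_le _ _
      nlinarith [Nat.cast_nonneg (α := ℝ) (Finset.univ.biUnion Jf).card]
    have hamb : rtGrMu E (key1 ⁻¹' {(1, 0, 0)}) ≤ E.s * E.e := by
      rw [hkey1]
      exact Hamb p E r f hU hnamb hf_s (D + 7) b0 hb0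
    have hSg := rt_gr_core_sum hT E hV Ct key1 hk1 ((Finset.univ.biUnion Jf).filter (fun j => ¬ j.1 = 3)) (1, 0, 0) _ _ hV1 hV2 hamb hF
    have herr := rt_gr_err Y hY h0 h1 hU hf_1 (2 * D' + 6)
    have he3 : 3 * ((2 * D' + 6 : ℕ) : ℝ) / 2 - 3 * D' - 6 = 3 := by push_cast; ring
    rw [he3] at herr
    have hB := Hnb E.n hnbb
    rw [← hεdef] at hB
    exact rt_gr_core_fin _ _ _ _ _ X _ _ E.s _ _ _ _ (by positivity) (Real.sqrt_nonneg _) hX (by positivity) main hSg hJz herr hA hB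
  · -- pieces that are not patches
    intro j hj ht3
    obtain ⟨l, _, hl⟩ := Finset.mem_biUnion.1 hj
    rw [hJf] at hl
    obtain ⟨q, hq, hqj⟩ := (rt_gr_mem_J (rtGrStd Y p E r f D (D + 7) b0) l (hJ l).1 j).1 hl
    have hc := hpcls (key1 ⁻¹' {j}) (Slf j) (hk1 j)
    rcases rt_gr_key_tag (rtGrStd Y p E r f D (D + 7) b0) q with ⟨_, h⟩ | h | h | h
    · exact absurd hq (h l)
    · have hj1 : j = (1, 0, 0) := hqj.symm.trans h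
      simp only [if_pos hj1]
      have := Hr p _ (by rw [hpn]; exact hnr) (gn_cls_anti Y.M hS ((le_max_left _ _).trans (le_max_right _ _)) hc)
      rwa [hpn] at this
    · have hj2 : j = (2, (rtGrStd Y p E r f D (D + 7) b0).cell q, ((rtGrStd Y p E r f D (D + 7) b0).key q).2.2) := hqj.symm.trans h
      have hne : j ≠ (1, 0, 0) := by
        rw [hj2]
        intro h'
        have := congrArg Prod.fst h'
        norm_num at this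
      simp only [if_neg hne]
      have hc' := gn_cls_anti Y.M hS ((le_max_right _ _).trans (le_max_right _ _) : Ab ≤ max A' (max Ar Ab)) hc
      rw [hSlf] at hc' ⊢
      rw [hbdef]
      have hS2 : (rtGrStd Y p E r f D (D + 7) b0).Sl j = (rtGrStd Y p E r f D (D + 7) b0).Sl (2, (rtGrStd Y p E r f D (D + 7) b0).cell q, ((rtGrStd Y p E r f D (D + 7) b0).key q).2.2) := by
        rw [← hj2]
      rw [hS2] at hc' ⊢
      exact Hbig p E C D' r f hU hnb D (D + 7) b0 hD le_rfl hb0 (hfs _ (by linarith)) _ _ Ct (Cr * E.ka) _ hc'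
    · exact absurd (by rw [← hqj, h]) ht3
  · -- patches
    intro j hj ht3 g _
    by_cases hne : (key1 ⁻¹' {j} ∩ key2 ⁻¹' {g}).Nonempty
    · obtain ⟨x0, hx1, hx2⟩ := hne
      obtain ⟨tg, c, Lx⟩ := j
      have ht : tg = 3 := ht3
      subst ht
      have hc := hpcls (key1 ⁻¹' {(3, c, Lx)} ∩ key2 ⁻¹' {g}) (Slf (3, c, Lx)) ((hk1 _).inter (hk2 g))
      have hc' : Y.M.Cls (max Cpc C0) A' p (rtGrPc E Ct (Cr * E.ka) (key1 ⁻¹' {(3, c, Lx)} ∩ key2 ⁻¹' {g}) (Slf (3, c, Lx))) :=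
        gn_cls_mono Y.M hS (le_max_left _ _) (gn_cls_anti Y.M hS (le_max_left _ _) hc)
      rw [hkey1] at hx1
      rw [hkey2] at hx2
      obtain ⟨d, hdf, hdok⟩ := Hpat p E Apc r f hE hU hnpat hf c Lx g x0 hx1 hx2
      rw [← hkey1, ← hkey2, ← hSlf] at hdok
      exact hyp _ d (hpn _ _) hc' rfl hdok hdf
    · rw [Set.not_nonempty_iff_eq_empty.1 hne, rt_gr_pc_empty]
      exact hX

end Claimed.Agent.R256
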