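-- KEEP
import Claimed.Agent.R256.Rt.Grp.Core
import Claimed.Agent.R256.Rt.GrpHom

/-!
# Row 256 (LS paper), folder Rt, block GROUP, file Grp/Main : EXIT          (architect helper111; prefix `rt_gr_`)

EXIT: **`rt_gr_main`** = `rt_group` of `Rt/Patch.lean`, verbatim  =  `rt_gh_main` (T0-T2: reduction to homogeneous labels, helper299, `Rt/GrpHom.lean`) + `rt_gr_core` (`Rt/Grp/Core.lean`) + numerics.
-/

set_option autoImplicit false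

namespace Claimed.Agent.R256

open MeasureTheory

/-- an experiment without labels reads nothing -/
theorem rt_gr_val_nolab {P : PkSys} (E : Xp P) (h : E.L = 0) : E.val = 0 := by
  have : IsEmpty (Fin E.L) := by rw [h]; infer_instance
  unfold Xp.val Xp.rd
  simp

/-- numerics of the exit -/
theorem rt_gr_main_num (Γ c1 b0 C2 X m : ℝ) (n : ℕ) (hX : 0 ≤ X) (hm0 : 0 ≤ m) (hm1 : 2 * m ≤ 2 ^ (b0 * n)) (hm2 : 2 * m ≤ 2 ^ (c1 / 2 * n))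
    (h1 : 1 ≤ (Γ - c1 / 2) * n) :
    m * (2 ^ (C2 * b0 * n) * X + 2 ^ ((Γ - c1) * n)) + 1 ≤ 2 ^ ((C2 + 1) * b0 * n) * X + 2 ^ ((Γ - c1 / 2) * n) := by
  have e1 : (2 : ℝ) ^ ((C2 + 1) * b0 * n) = 2 ^ (b0 * n) * 2 ^ (C2 * b0 * n) := by
    rw [← Real.rpow_add (by norm_num)]
    congr 1
    ring
  have e2 : (2 : ℝ) ^ ((Γ - c1 / 2) * n) = 2 ^ (c1 / 2 * n) * 2 ^ ((Γ - c1) * n) := by
    rw [← Real.rpow_add (by norm_num)]
    congr 1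
    ring
  have p1 : (0 : ℝ) < 2 ^ (C2 * b0 * n) := Real.rpow_pos_of_pos (by norm_num) _
  have p2 : (0 : ℝ) < 2 ^ ((Γ - c1) * n) := Real.rpow_pos_of_pos (by norm_num) _
  have h2 : (2 : ℝ) ≤ 2 ^ ((Γ - c1 / 2) * n) := by
    calc (2 : ℝ) = 2 ^ (1 : ℝ) := (Real.rpow_one 2).symm
      _ ≤ _ := Real.rpow_le_rpow_of_exponent_le (by norm_num) h1
  have a1 : m * (2 ^ (C2 * b0 * n) * X) ≤ 2 ^ (b0 * n) * 2 ^ (C2 * b0 * n) * X := by
    have : m ≤ 2 ^ (b0 * n) := by linarith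
    have h3 : 0 ≤ 2 ^ (C2 * b0 * n) * X := by positivity
    calc m * (2 ^ (C2 * b0 * n) * X) ≤ 2 ^ (b0 * n) * (2 ^ (C2 * b0 * n) * X) := mul_le_mul_of_nonneg_right this h3
      _ = _ := by ring
  have a2 : 2 * (m * 2 ^ ((Γ - c1) * n)) ≤ 2 ^ (c1 / 2 * n) * 2 ^ ((Γ - c1) * n) := by
    calc 2 * (m * 2 ^ ((Γ - c1) * n)) = (2 * m) * 2 ^ ((Γ - c1) * n) := by ring
      _ ≤ _ := mul_le_mul_of_nonneg_right hm2 p2.le
  rw [e1]
  rw [e2] at h2 ⊢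
  nlinarith

/-- **GROUP** -/
theorem rt_gr_main (η : ℝ) (h0 : 0 < η) (h1 : η < 1) (Y : RtMd η) (hY : Y.Ok) (Γ : ℝ) (hΓ0 : 0 < Γ) (hΓ : Y.M.Rate Γ) :
    ∃ D1 C2 : ℝ, 1 ≤ D1 ∧ 0 < C2 ∧ ∀ b0 : ℝ, 0 < b0 → ∃ c1 Z0 : ℝ, 0 < c1 ∧ ∀ C : ℕ, ∃ C' : ℕ, ∀ A' : ℕ, ∃ A n0 : ℕ,
      ∀ (p : Y.M.Par) (E : Xp (Y.M.sys p)) (F X : ℝ), n0 ≤ E.n → Y.M.Cls C A p E → E.st = [] → (∀ l, (Y.tq p (E.ts l)).f ≤ F) →
        F ≤ E.s ^ Z0 → 0 ≤ X →
        (∀ (E' : Xp (Y.M.sys p)) (d : RtPd), E'.n = E.n → Y.M.Cls C' A' p E' → E'.st = [] → d.Ok Y p E' C' A' D1 b0 → d.f ≤ 2 * F →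
          E'.val ≤ X) →
        E.val ≤ 2 ^ (C2 * b0 * E.n) * X + 2 ^ ((Γ - c1) * E.n) := by
  obtain ⟨D1, C2, hD1, hC2, H⟩ := rt_gr_core h0 h1 Y hY Γ hΓ0 hΓ
  refine ⟨D1, C2 + 1, hD1, by positivity, fun b0 hb0 => ?_⟩
  obtain ⟨c1, Z0, hc1, hc1', H⟩ := H b0 hb0
  refine ⟨c1 / 2, Z0 + 1, by positivity, fun C => ?_⟩
  obtain ⟨D', Ah, nh, Hh⟩ := rt_gh_main h0 h1 Y hY C
  obtain ⟨C', H⟩ := H C D'
  refine ⟨C', fun A' => ?_⟩
  obtain ⟨A, n0, H⟩ := H A'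
  obtain ⟨n1, hn1⟩ := gn_absorb_poly D' 2 (min b0 (c1 / 2)) (lt_min hb0 (by positivity))
  have hg : 0 < Γ - c1 / 2 := by linarith
  refine ⟨max A Ah, max (max n0 nh) (max n1 (⌈1 / (Γ - c1 / 2)⌉₊ + 1)), fun p E F X hn hE hst hF hFZ hX hyp => ?_⟩
  have hn0 : n0 ≤ E.n := ((le_max_left _ _).trans (le_max_left _ _)).trans hn
  have hnh : nh ≤ E.n := ((le_max_right _ _).trans (le_max_left _ _)).trans hn
  have hn1' : n1 ≤ E.n := ((le_max_left _ _).trans (le_max_right _ _)).trans hn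
  have hn2 : ⌈1 / (Γ - c1 / 2)⌉₊ + 1 ≤ E.n := ((le_max_right _ _).trans (le_max_right _ _)).trans hn
  have hn3 : 1 ≤ E.n := (Nat.le_add_left 1 _).trans hn2
  have hS := hY.gen.scale
  have hEA : Y.M.Cls C A p E := gn_cls_anti Y.M hS (le_max_left _ _) hE
  have hEh : Y.M.Cls C Ah p E := gn_cls_anti Y.M hS (le_max_right _ _) hE
  have hs0 := gn_s_pos E
  have hV : 0 ≤ 2 ^ (C2 * b0 * E.n) * X + 2 ^ ((Γ - c1) * E.n) := by positivity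
  have key := Hh p E _ hnh hEh hst hV (fun L' φ r f hφ hH => ?_)
  · refine key.trans ?_
    have hp := hn1 E.n hn1'
    have hm : (1 : ℝ) ≤ (D' : ℝ) * E.n + 1 := by
      have : (0 : ℝ) ≤ (D' : ℝ) * E.n := by positivity
      linarith
    have hcast : ((D' * E.n + 1 : ℕ) : ℝ) = (D' : ℝ) * E.n + 1 := by push_cast; ring
    rw [hcast] at hp
    have hm2 : 2 * ((D' : ℝ) * E.n + 1) ^ 2 ≤ 2 ^ (min b0 (c1 / 2) * E.n) := by
      refine le_trans ?_ hp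
      have : ((D' : ℝ) * E.n + 1) ^ 2 ≤ ((D' : ℝ) * E.n + 1) ^ 3 := pow_le_pow_right₀ hm (by norm_num)
      linarith
    have hnn : (0 : ℝ) ≤ E.n := Nat.cast_nonneg _
    refine rt_gr_main_num Γ c1 b0 C2 X _ E.n hX (by positivity) (hm2.trans ?_) (hm2.trans ?_) ?_
    · exact Real.rpow_le_rpow_of_exponent_le (by norm_num) (mul_le_mul_of_nonneg_right (min_le_left _ _) hnn)
    · exact Real.rpow_le_rpow_of_exponent_le (by norm_num) (mul_le_mul_of_nonneg_right (min_le_right _ _) hnn)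
    · have : 1 / (Γ - c1 / 2) ≤ (E.n : ℝ) := (Nat.le_ceil _).trans (by exact_mod_cast (Nat.le_succ _).trans hn2)
      rw [div_le_iff₀ hg] at this
      linarith
  · by_cases hL : L' = 0
    · rw [rt_gr_val_nolab (E.pick φ) hL]
      exact hV
    · have l0 : Fin L' := ⟨0, Nat.pos_of_ne_zero hL⟩
      have hcl : Y.M.Cls C A p (E.pick φ) := gn_cls_pick Y.M hY.gen.root hEA φ hφ
      have hU : RtGrU Y p (E.pick φ) C D' r f :=
        ⟨hcl.1, hcl.2.1, hcl.2.2.2.1, hst, hH.heavy, hH.r_pos, fun l => ⟨(hH.lab_r l).1.le, (hH.lab_r l).2⟩,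
          fun l => ⟨(hH.lab_f l).1.le, (hH.lab_f l).2⟩, hH.r_lo, hH.r_hi, hH.f_lo⟩
      have hf2 : f ≤ 2 * F := by
        have a := (hH.lab_f l0).1
        have b : (Y.tq p ((E.pick φ).ts l0)).f ≤ F := hF (φ l0)
        linarith
      have hs2 : 2 * E.s ≤ 1 := by
        have : E.s ≤ (2 : ℝ)⁻¹ ^ 1 := by
          unfold Xp.s
          exact pow_le_pow_of_le_one (by norm_num) (by norm_num) hn3
        norm_num at this
        linarith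
      have hfZ : f ≤ (E.pick φ).s ^ Z0 := by
        show f ≤ E.s ^ Z0
        have e : E.s ^ (Z0 + 1) = E.s ^ Z0 * E.s := by rw [Real.rpow_add hs0, Real.rpow_one]
        have hz : 0 < E.s ^ Z0 := Real.rpow_pos_of_pos hs0 _
        rw [e] at hFZ
        nlinarith
      exact H p (E.pick φ) r f X hn0 hcl hU hfZ hX (fun E' d hn' hE' hst' hd hdf => hyp E' d hn' hE' hst' hd (by rw [hdf]; exact hf2))

end Claimed.Agent.R256
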